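import Vale.Agent.P359.MajorantThree

/-!
P359: the slack `v_n P_n(3) Y(4) P_n(3)` on single channels: a sharper lower bound of the majorant on
highest weight vectors, the sandwich lower bound in a sector and the Pauli cost.
-/

namespace P359

open Matrix Finset
open scoped BigOperators

variable {A B M : ℕ}

/-- Sharper value of the majorant on channel `n` when `B ≤ 3A/5`. -/
theorem majSum_lower_sharp {n : ℕ} {t : ℝ} (hn : n ≤ B) (hA : 5 * B ≤ 3 * A) (ht0 : 0 ≤ t)
    (ht : t ≤ 1 / 5) : (1 - 2 * t) * (1 - 8 / 5 * t) ^ n ≤ majSum A B n t := by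
  cases n with
  | zero =>
    have : majSum A B 0 t = 1 := by simp [majSum]
    rw [this, pow_zero, mul_one]
    linarith
  | succ m =>
    obtain ⟨k, rfl⟩ : ∃ k, B = k + (m + 1) := ⟨B - (m + 1), by omega⟩
    have h := majSum_add_ge (A := A) (k := k) (m := m) (by omega) (by omega) ht0 (by linarith)
    have hA0 : (0 : ℝ) < A := by exact_mod_cast (show 0 < A by omega)
    set ν : ℝ := 1 - 8 / 5 * t with hν
    have hν2 : 1 / 2 ≤ ν := by rw [hν]; linarith
    have hμ : ν ≤ 1 - t - t * ((k : ℝ) + 1) / A := by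
      have h1 : ((k : ℝ) + 1) / A ≤ 3 / 5 := by
        rw [div_le_iff₀ hA0]
        have : (5 * (k + 1) : ℝ) ≤ 3 * A := by exact_mod_cast (show 5 * (k + 1) ≤ 3 * A by omega)
        linarith
      have h2 := mul_le_mul_of_nonneg_left h1 ht0
      rw [mul_div_assoc, hν]
      linarith
    have hp := pow_le_pow_left₀ (by linarith : (0 : ℝ) ≤ ν) hμ (m + 1)
    have hc : t ^ (m + 1) * ((k + (m + 1)).choose (m + 1) : ℝ) / A.choose (m + 1)
        ≤ t ^ (m + 1) := by
      have h0 : (0 : ℝ) < A.choose (m + 1) := by exact_mod_cast Nat.choose_pos (by omega)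
      rw [div_le_iff₀ h0]
      refine mul_le_mul_of_nonneg_left ?_ (pow_nonneg ht0 _)
      exact_mod_cast Nat.choose_le_choose (m + 1) (show k + (m + 1) ≤ A by omega)
    have ht' : t ^ (m + 1) ≤ 2 * t * ν ^ (m + 1) := by
      have h1 : t ^ m ≤ ν ^ m := pow_le_pow_left₀ ht0 (by linarith) m
      have h2 : (0 : ℝ) ≤ t * ν ^ m := mul_nonneg ht0 (pow_nonneg (by linarith) m)
      have h3 := mul_le_mul_of_nonneg_left h1 ht0
      rw [pow_succ', pow_succ' ν]
      nlinarith
    linarith

/-- The majorant above a common lower bound of its channel values. -/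
theorem majorant_lower_of {L : ℕ} (hBA : B ≤ A) {t c : ℝ}
    (hc : ∀ m ≤ L, m ≤ B → c ≤ majSum A B m t) (v : Two A B → ℝ)
    (hv : ∀ p, L < wt2 p → v p = 0) : c * nsq v ≤ quad (majorant A B t) v := by
  have hq : ∀ u : Two A B → ℝ,
      quad (majorant A B t - c • 1) u = quad (majorant A B t) u - c * nsq u := fun u => by
    simp [quad, nsq, Matrix.sub_mulVec, Matrix.smul_mulVec, dotProduct_sub]
  have hT := (intertwines_majorant (A := A) hBA t).sub (Intertwines.one.smul c)
  have key := criterion2 (L := L) (by simp [majorant_transpose]) hT (fun m hm _ hmB => ?_) v hv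
  · rw [hq] at key
    linarith
  · rw [hq, quad_majorant_hwVec hmB hBA]
    have := mul_le_mul_of_nonneg_right (hc m hm hmB) (nsq_nonneg (hwVec A B m))
    linarith

/-- The sandwich `P(3) Y(4) P(3)`. -/
noncomputable def chanTail (A B : ℕ) (t : ℝ) (P : Matrix (Two A B) (Two A B) ℝ) :
    Matrix (Three A B) (Three A B) ℝ :=
  (act3 P)ᵀ * act4 (majorant A B t) * act3 P

theorem quad_eq_nsq_of_idem {P : Matrix (Two A B) (Two A B) ℝ} (hP : Pᵀ * P = P)
    (v : Two A B → ℝ) : quad P v = nsq (P *ᵥ v) := by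
  conv_lhs => rw [← hP]
  rw [quad, ← mulVec_mulVec, dotProduct_mulVec, vecMul_transpose, nsq]

/-- Lower bound of the sandwich in weight `L`. -/
theorem chanTail_lower (hA : 5 * B ≤ 3 * A) {t : ℝ} (ht0 : 0 ≤ t) (ht : t ≤ 1 / 5)
    {P : Matrix (Two A B) (Two A B) ℝ} (hP : Pᵀ * P = P)
    (hPi : Intertwines wt2 (raise2 A B) wt2 (raise2 A B) 0 P) {L : ℕ} (F : Three A B → ℝ)
    (hF : ∀ p, L < wt3 p → F p = 0) :
    (1 - 2 * t) * (1 - 8 / 5 * t) ^ L * quad (act3 P) F ≤ quad (chanTail A B t P) F := by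
  set c := (1 - 2 * t) * (1 - 8 / 5 * t) ^ L with hc
  have e : quad (act3 P) F = nsq (act3 P *ᵥ F) := by
    have eW : nsq (act3 P *ᵥ F)
        = ∑ x : Fin (B + 1), nsq (P *ᵥ fun p : Two A B => F (p.1, p.2, x)) := by
      simp only [nsq, dotProduct, mulVec, act3, Fintype.sum_prod_type, ite_mul, zero_mul,
        Finset.sum_ite_eq, Finset.mem_univ, if_true]
      conv_lhs => arg 2; ext a; rw [Finset.sum_comm]
      rw [Finset.sum_comm]
    rw [quad_act3, eW]
    exact Finset.sum_congr rfl fun x _ => quad_eq_nsq_of_idem hP _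
  have hsupp := supp_le_act (G := act3 P) hPi.act3.weight hF
  have hlow : ∀ v : Two A B → ℝ, (∀ p, L < wt2 p → v p = 0) →
      c * nsq v ≤ quad (majorant A B t) v := fun v hv =>
    majorant_lower_of (by omega) (fun m hm hmB => by
      refine le_trans ?_ (majSum_lower_sharp hmB hA ht0 ht)
      rw [hc]
      exact mul_le_mul_of_nonneg_left (pow_le_pow_of_le_one (by linarith) (by linarith) hm)
        (by linarith)) v hv
  rw [e, chanTail, quad_sandwich]
  exact act4_lower hlow _ hsupp

/-- Pauli cost of the sandwich. -/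
theorem E2_chanTail_le (hBA : B ≤ A) {t : ℝ} (ht0 : 0 < t) (ht : t ≤ 1)
    {P : Matrix (Two A B) (Two A B) ℝ} (hP : Pᵀ * P = P) {φ : Reduced A B M} (hφ : IsAntiR φ) :
    E2 (chanTail A B t P) φ ≤ 1 / t * E1 P φ := by
  have h := pauli_tail P (pauliBound_majorant (A := A) hBA ht0 ht) hφ
  rw [hP] at h
  refine h.trans (mul_le_mul_of_nonneg_right (pauliBound_majorant_le ht0 ht) ?_)
  exact E1_nonneg (fun v => by rw [quad_eq_nsq_of_idem hP]; exact nsq_nonneg _) φ

theorem chanTail_transpose (A B : ℕ) (t : ℝ) (P : Matrix (Two A B) (Two A B) ℝ) :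
    (chanTail A B t P)ᵀ = chanTail A B t P := by
  have h4 : (act4 (majorant A B t))ᵀ = act4 (majorant A B t) := by
    rw [← act4_transpose', majorant_transpose]
  simp only [chanTail, transpose_mul, transpose_transpose, h4, Matrix.mul_assoc]

theorem chanTail_intertwines (hBA : B ≤ A) (t : ℝ) {P : Matrix (Two A B) (Two A B) ℝ}
    (hP : Intertwines wt2 (raise2 A B) wt2 (raise2 A B) 0 P) :
    Intertwines wt3 (raise3 A B) wt3 (raise3 A B) 0 (chanTail A B t P) :=
  ((hP.act3.transpose.comp (intertwines_majorant (A := A) hBA t).act4).comp hP.act3).cast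
    (by norm_num)

theorem quad_chanTail_swap (t : ℝ) (P : Matrix (Two A B) (Two A B) ℝ) {F : Three A B → ℝ}
    (hanti : ∀ a b e, F (a, b, e) = -F (a, e, b)) :
    quad ((chanTail A B t P).submatrix (swapEl A B) (swapEl A B)) F
      = quad (chanTail A B t P) F := by
  rw [quad_submatrix_equiv]
  have : F ∘ (swapEl A B).symm = -F := by
    funext p
    obtain ⟨a, b, e⟩ := p
    show F (a, e, b) = -F (a, b, e)
    exact hanti a e b
  rw [this]
  simp [quad, mulVec_neg]

end P359
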