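import Vale.Agent.P359.ReduceSquare

/-!
P359, pieces A4-A6: the Pauli bound, its two-body form and the killed channels.
-/

namespace P359

open Matrix
open scoped BigOperators

variable {A A' B M : ℕ}

/-- Pauli bound for a set of electrons in which the state is antisymmetric. -/
theorem pauli_on {Y : Matrix (Two A B) (Two A B) ℝ} {c : ℝ} (hY : PauliBound Y c)
    (S : Finset (Fin M)) (χ : Reduced A B M)
    (hχ : ∀ k ∈ S, ∀ l ∈ S, k ≠ l → ∀ a x, χ a (x ∘ Equiv.swap k l) = -χ a x) :
    ∑ k ∈ S, innerR χ (appl Y χ k) ≤ c * nsqR χ := by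
  obtain ⟨r, R, hR, htr⟩ := hY
  let T : Fin r → Config B (M + 1) → ℝ := fun i z =>
    ∑ a, R i a (z 0) * χ a (fun j => z j.succ)
  have hnorm : ∑ i, ∑ z, T i z * T i z = c * nsqR χ := by
    simp only [sum_cons, T, Fin.cons_zero, Fin.cons_succ, Finset.sum_mul_sum]
    calc _ = ∑ x : Config B M, ∑ a, ∑ a', (∑ b, Y (a, b) (a', b)) * (χ a x * χ a' x) := by
          simp only [hR, Finset.sum_mul]
          conv_lhs => arg 2; ext i; rw [Finset.sum_comm]
          rw [Finset.sum_comm]
          refine Finset.sum_congr rfl fun x _ => ?_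
          conv_lhs => arg 2; ext i; rw [Finset.sum_comm]; arg 2; ext a; rw [Finset.sum_comm]
          rw [Finset.sum_comm]
          refine Finset.sum_congr rfl fun a _ => ?_
          rw [Finset.sum_comm]
          refine Finset.sum_congr rfl fun a' _ => ?_
          rw [Finset.sum_comm]
          exact Finset.sum_congr rfl fun b _ => Finset.sum_congr rfl fun i _ => by ring
      _ = c * nsqR χ := by
          simp only [htr, ite_mul, zero_mul, Finset.sum_ite_eq, Finset.mem_univ, if_true, nsqR,
            Finset.mul_sum, sq]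
          rw [Finset.sum_comm]
  have hcross : ∀ k, ∑ i, ∑ z, T i z * T i (z ∘ Equiv.swap 0 k.succ) =
      innerR χ (appl Y χ k) := by
    intro k
    have hz : ∀ (e : Fin (B + 1)) (x : Config B M),
        (Fin.cons e x : Config B (M + 1)) ∘ Equiv.swap 0 k.succ =
          Fin.cons (x k) (Function.update x k e) := by
      intro e x
      funext j
      refine Fin.cases ?_ (fun j => ?_) j
      · simp
      · by_cases hj : j = k
        · subst hj
          simp
        · rw [Function.comp_apply, Equiv.swap_apply_of_ne_of_ne (Fin.succ_ne_zero _)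
            (fun e' => hj (Fin.succ_injective _ e'))]
          simp [Function.update_of_ne hj]
    simp only [sum_cons, T, hz, Fin.cons_zero, Fin.cons_succ, innerR, appl,
      hR, Fintype.sum_prod_type, Finset.mul_sum, Finset.sum_mul]
    conv_lhs => rw [Finset.sum_comm]; arg 2; ext e; rw [Finset.sum_comm]; arg 2; ext x;
                rw [Finset.sum_comm]; arg 2; ext a; rw [Finset.sum_comm]
    conv_lhs => rw [Finset.sum_comm]; arg 2; ext x; rw [Finset.sum_comm]; arg 2; ext a;
                rw [Finset.sum_comm]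
    conv_lhs => rw [Finset.sum_comm]
    conv_rhs => rw [Finset.sum_comm]; arg 2; ext x; rw [Finset.sum_comm]
    conv_rhs => rw [Finset.sum_comm]
    refine Finset.sum_congr rfl fun a _ => Finset.sum_congr rfl fun x _ =>
      Finset.sum_congr rfl fun a' _ => Finset.sum_congr rfl fun e _ =>
      Finset.sum_congr rfl fun i _ => ?_
    rw [show (fun j => x j) = x from rfl,
      show (fun j => Function.update x k e j) = Function.update x k e from rfl]
    ring
  let W : Fin r → Config B (M + 1) → ℝ := fun i z =>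
    T i z - ∑ k ∈ S, T i (z ∘ Equiv.swap 0 k.succ)
  have hW : ∀ i, ∀ k ∈ S, ∀ z, W i (z ∘ Equiv.swap 0 k.succ) = -W i z := by
    intro i k hk z
    have hpair : ∀ l ∈ S.erase k,
        T i ((z ∘ Equiv.swap 0 k.succ) ∘ Equiv.swap 0 l.succ) =
          -T i (z ∘ Equiv.swap 0 l.succ) := by
      intro l hl
      obtain ⟨hlk, hlS⟩ := Finset.mem_erase.mp hl
      have hk0 : k.succ ≠ (0 : Fin (M + 1)) := Fin.succ_ne_zero k
      have hl0 : l.succ ≠ (0 : Fin (M + 1)) := Fin.succ_ne_zero l
      have hkl : k.succ ≠ l.succ := fun e => hlk (Fin.succ_injective _ e).symm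
      have hperm : Equiv.swap 0 k.succ * Equiv.swap 0 l.succ =
          Equiv.swap 0 l.succ * Equiv.swap k.succ l.succ := by
        rw [Equiv.mul_swap_eq_swap_mul (Equiv.swap 0 l.succ),
          Equiv.swap_apply_of_ne_of_ne hk0 hkl, Equiv.swap_apply_right,
          Equiv.swap_comm k.succ 0]
      have hz : (z ∘ Equiv.swap 0 k.succ) ∘ Equiv.swap 0 l.succ =
          (z ∘ Equiv.swap 0 l.succ) ∘ Equiv.swap k.succ l.succ := by
        rw [Function.comp_assoc, Function.comp_assoc, ← Equiv.Perm.coe_mul, hperm,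
          Equiv.Perm.coe_mul]
      rw [hz]
      simp only [T, ← Finset.sum_neg_distrib]
      refine Finset.sum_congr rfl fun a _ => ?_
      have h0 : ((z ∘ Equiv.swap 0 l.succ) ∘ Equiv.swap k.succ l.succ) 0 =
          (z ∘ Equiv.swap 0 l.succ) 0 := by
        rw [Function.comp_apply, Equiv.swap_apply_of_ne_of_ne hk0.symm hl0.symm]
      have hs : (fun j : Fin M => ((z ∘ Equiv.swap 0 l.succ) ∘ Equiv.swap k.succ l.succ) j.succ) =
          (fun j : Fin M => (z ∘ Equiv.swap 0 l.succ) j.succ) ∘ Equiv.swap k l := by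
        funext j
        rw [Function.comp_apply, Function.comp_apply,
          (Fin.succ_injective M).swap_apply]
        rfl
      rw [h0, hs, hχ k hk l hlS hlk.symm]
      ring
    simp only [W]
    rw [← Finset.add_sum_erase _ _ hk, Finset.sum_congr rfl hpair,
      ← Finset.add_sum_erase S (fun l => T i (z ∘ Equiv.swap 0 l.succ)) hk,
      Finset.sum_neg_distrib, Function.comp_assoc]
    simp only [← Equiv.Perm.coe_mul, Equiv.swap_mul_self, Equiv.Perm.coe_one, Function.comp_id]
    ring
  have hpos : ∀ i, 0 ≤ ∑ z, W i z * T i z := by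
    intro i
    have hWT : ∀ k ∈ S, ∑ z, W i z * T i (z ∘ Equiv.swap 0 k.succ) = -∑ z, W i z * T i z := by
      intro k hk
      rw [← sum_config_comp (Equiv.swap 0 k.succ), ← Finset.sum_neg_distrib]
      refine Finset.sum_congr rfl fun z _ => ?_
      rw [hW i k hk, Function.comp_assoc, ← Equiv.Perm.coe_mul, Equiv.swap_mul_self,
        Equiv.Perm.coe_one, Function.comp_id, neg_mul]
    have hsq : ∑ z, W i z * W i z = ((S.card : ℝ) + 1) * ∑ z, W i z * T i z := by
      calc ∑ z, W i z * W i z = ∑ z, W i z * T i z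
            - ∑ k ∈ S, ∑ z, W i z * T i (z ∘ Equiv.swap 0 k.succ) := by
            conv_rhs => arg 2; rw [Finset.sum_comm]
            rw [← Finset.sum_sub_distrib]
            refine Finset.sum_congr rfl fun z _ => ?_
            rw [← Finset.mul_sum, ← mul_sub]
        _ = _ := by
            rw [Finset.sum_congr rfl hWT, Finset.sum_const, nsmul_eq_mul]
            ring
    have h0 : 0 ≤ ((S.card : ℝ) + 1) * ∑ z, W i z * T i z :=
      hsq ▸ Finset.sum_nonneg fun z _ => mul_self_nonneg _
    exact nonneg_of_mul_nonneg_right h0 (by positivity)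
  have key := Finset.sum_nonneg fun i (_ : i ∈ Finset.univ) => hpos i
  simp only [W, sub_mul, Finset.sum_mul, Finset.sum_sub_distrib, hnorm] at key
  have e : ∑ i, ∑ z, ∑ k ∈ S, T i (z ∘ Equiv.swap 0 k.succ) * T i z =
      ∑ k ∈ S, innerR χ (appl Y χ k) := by
    conv_lhs => arg 2; ext i; rw [Finset.sum_comm]
    rw [Finset.sum_comm]
    refine Finset.sum_congr rfl fun k _ => ?_
    rw [← hcross k]
    exact Finset.sum_congr rfl fun i _ => Finset.sum_congr rfl fun z _ => mul_comm _ _
  rw [e] at key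
  linarith

/-- A4: the Pauli bound. -/
theorem pauli {Y : Matrix (Two A B) (Two A B) ℝ} {c : ℝ} (hY : PauliBound Y c)
    {φ : Reduced A B M} (hφ : IsAntiR φ) : E1 Y φ ≤ c * nsqR φ := by
  rw [E1_eq]
  exact pauli_on hY Finset.univ φ fun k _ l _ h a x => anti_reduced_swap hφ h a x

/-- A5: the Pauli bound for the two-body tail. -/
theorem pauli_tail (G : Matrix (Two A' B) (Two A B) ℝ) {Y : Matrix (Two A' B) (Two A' B) ℝ}
    {c : ℝ} (hY : PauliBound Y c) {φ : Reduced A B M} (hφ : IsAntiR φ) :
    E2 ((act3 G)ᵀ * act4 Y * act3 G) φ ≤ c * E1 (Gᵀ * G) φ := by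
  rw [E2_eq, E1_eq, Finset.mul_sum]
  refine Finset.sum_le_sum fun k _ => ?_
  rw [← innerR_appl_self]
  have e : ∀ l ∈ Finset.univ.filter (fun l => l ≠ k),
      innerR φ (appl2 ((act3 G)ᵀ * act4 Y * act3 G) φ k l) =
        innerR (appl G φ k) (appl Y (appl G φ k) l) := by
    intro l hl
    have h : k ≠ l := Ne.symm (Finset.mem_filter.mp hl).2
    rw [appl_adjoint, appl_eq_act3 Gᵀ _ h, appl_eq_act4 Y _ h, appl_eq_act3 G φ h,
      appl2_comp _ _ _ h, appl2_comp _ _ _ h, act3_transpose]
  rw [Finset.sum_congr rfl e]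
  refine pauli_on hY _ _ fun l hl l' hl' hll a x => ?_
  have h1 : l ≠ k := (Finset.mem_filter.mp hl).2
  have h2 : l' ≠ k := (Finset.mem_filter.mp hl').2
  have hk : Equiv.swap l l' k = k := Equiv.swap_apply_of_ne_of_ne h1.symm h2.symm
  simp only [appl, Function.comp_apply, hk, ← Finset.sum_neg_distrib]
  refine Finset.sum_congr rfl fun q _ => ?_
  have hu : Function.update (x ∘ Equiv.swap l l') k q.2 =
      Function.update x k q.2 ∘ Equiv.swap l l' := by
    conv_rhs => rw [← hk]
    rw [Function.update_comp_eq_of_injective _ (Equiv.injective _)]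
  rw [hu, anti_reduced_swap hφ hll]
  ring

/-- A6: a channel killed by antisymmetrisation over the pair and one electron has no energy. -/
theorem killed_apply {Q : ℕ} {ψ : Config Q (M + 2) → ℝ} (hψ : IsAnti ψ)
    (F : Two (2 * Q - 2) Q → ℝ)
    (hF : ∀ a b c : Fin (Q + 1),
      (∑ m, pairIso Q (a, b) m * F (m, c)) + (∑ m, pairIso Q (b, c) m * F (m, a))
        + (∑ m, pairIso Q (c, a) m * F (m, b)) - (∑ m, pairIso Q (b, a) m * F (m, c))
        - (∑ m, pairIso Q (a, c) m * F (m, b)) - (∑ m, pairIso Q (c, b) m * F (m, a)) = 0)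
    (k : Fin M) (x : Config Q M) :
    ∑ p : Two (2 * Q - 2) Q, F p * reduce ψ p.1 (Function.update x k p.2) = 0 := by
  let f : Fin (Q + 1) → Fin (Q + 1) → Fin (Q + 1) → ℝ := fun a b c =>
    ∑ m, pairIso Q (a, b) m * F (m, c)
  let g : Fin (Q + 1) → Fin (Q + 1) → Fin (Q + 1) → ℝ := fun a b c =>
    ψ (Fin.cons a (Fin.cons b (Function.update x k c)))
  have hsum : ∑ p : Two (2 * Q - 2) Q, F p * reduce ψ p.1 (Function.update x k p.2) =
      ∑ a, ∑ b, ∑ c, f a b c * g a b c := by
    simp only [reduce, Fintype.sum_prod_type, f, g, Finset.mul_sum, Finset.sum_mul]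
    conv_lhs => rw [Finset.sum_comm]; arg 2; ext c; rw [Finset.sum_comm]; arg 2; ext a;
                rw [Finset.sum_comm]
    conv_lhs => rw [Finset.sum_comm]; arg 2; ext a; rw [Finset.sum_comm]
    refine Finset.sum_congr rfl fun a _ => Finset.sum_congr rfl fun b _ =>
      Finset.sum_congr rfl fun c _ => Finset.sum_congr rfl fun m _ => ?_
    ring
  have hf : ∀ a b c, f b a c = -f a b c := fun a b c => by
    simp only [f, ← Finset.sum_neg_distrib]
    exact Finset.sum_congr rfl fun m _ => by rw [pairIso_swap a b m, neg_mul]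
  have hcyc : ∀ a b c, f a b c + f b c a + f c a b = 0 := by
    intro a b c
    have h := hF a b c
    have e1 := hf a b c
    have e2 := hf c a b
    have e3 := hf b c a
    simp only [f] at e1 e2 e3 ⊢
    linarith
  have hg : ∀ a b c, g b c a = g a b c := fun a b c => by
    simp only [g]
    rw [reduce_cons_swap1k hψ b c a x k, reduce_cons_swap01 hψ a b]
    ring
  have h1 : ∑ a, ∑ b, ∑ c, f b c a * g a b c = ∑ a, ∑ b, ∑ c, f a b c * g a b c := by
    conv_lhs => rw [Finset.sum_comm]; arg 2; ext b; rw [Finset.sum_comm]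
    simp only [← hg]
  have h2 : ∑ a, ∑ b, ∑ c, f c a b * g a b c = ∑ a, ∑ b, ∑ c, f a b c * g a b c := by
    conv_lhs => arg 2; ext a; rw [Finset.sum_comm]
    conv_lhs => rw [Finset.sum_comm]
    simp only [hg]
  have h3 : ∑ a, ∑ b, ∑ c, (f a b c + f b c a + f c a b) * g a b c = 0 := by
    simp [hcyc]
  simp only [add_mul, Finset.sum_add_distrib, h1, h2] at h3
  rw [hsum]
  linarith

/-- A6: the energy of a killed channel vanishes. -/
theorem killed {Q : ℕ} {ψ : Config Q (M + 2) → ℝ} (hψ : IsAnti ψ)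
    (F : Two (2 * Q - 2) Q → ℝ)
    (hF : ∀ a b c : Fin (Q + 1),
      (∑ m, pairIso Q (a, b) m * F (m, c)) + (∑ m, pairIso Q (b, c) m * F (m, a))
        + (∑ m, pairIso Q (c, a) m * F (m, b)) - (∑ m, pairIso Q (b, a) m * F (m, c))
        - (∑ m, pairIso Q (a, c) m * F (m, b)) - (∑ m, pairIso Q (c, b) m * F (m, a)) = 0) :
    E1 (fun p q => F p * F q) (reduce ψ) = 0 := by
  refine Finset.sum_eq_zero fun k _ => Finset.sum_eq_zero fun a _ =>
    Finset.sum_eq_zero fun x _ => ?_
  simp only [mul_assoc, ← Finset.mul_sum, killed_apply hψ F hF k x, mul_zero]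

end P359
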