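import Vale.Agent.P359.HighestWeight
import Vale.Agent.P359.ReducePauli

/-!
P359: the channels `0`, `1`, `3` of the pair and one electron are killed by antisymmetrisation.
-/

namespace P359

open Matrix
open scoped BigOperators Kronecker

variable {Q M : ℕ}

/-- The signed sum over the six permutations of three electrons. -/
def alt3 (u : Three Q Q → ℝ) (a b c : Fin (Q + 1)) : ℝ :=
  u (a, b, c) + u (b, c, a) + u (c, a, b) - u (b, a, c) - u (a, c, b) - u (c, b, a)

/-- Split the pair of a pair-electron vector. -/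
noncomputable def splitPair (Q : ℕ) : Matrix (Three Q Q) (Two (2 * Q - 2) Q) ℝ :=
  (pairIso Q ⊗ₖ (1 : Matrix (Fin (Q + 1)) (Fin (Q + 1)) ℝ)).submatrix (assoc3 Q Q) id

lemma splitPair_mulVec (F : Two (2 * Q - 2) Q → ℝ) (a b c : Fin (Q + 1)) :
    (splitPair Q *ᵥ F) (a, b, c) = ∑ m, pairIso Q (a, b) m * F (m, c) := by
  simp [splitPair, mulVec, dotProduct, Fintype.sum_prod_type, kroneckerMap_apply,
    Matrix.one_apply]

lemma raise3T_mulVec (u : Three Q Q → ℝ) (a b c : Fin (Q + 1)) :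
    ((raise3 Q Q)ᵀ *ᵥ u) (a, b, c) =
      (∑ t, raise Q t a * u (t, b, c)) + (∑ t, raise Q t b * u (a, t, c))
        + (∑ t, raise Q t c * u (a, b, t)) := by
  simp only [mulVec, dotProduct, Matrix.transpose_apply, raise3, add_mul, Finset.sum_add_distrib,
    Fintype.sum_prod_type, ite_mul, zero_mul, ite_and]
  congr 1
  · congr 1
    · simp [Prod.ext_iff, ite_and]
    · simp
  · simp

lemma alt3_lower (u : Three Q Q → ℝ) (hu : ∀ a b c, alt3 u a b c = 0) (a b c : Fin (Q + 1)) :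
    alt3 ((raise3 Q Q)ᵀ *ᵥ u) a b c = 0 := by
  have h1 : ∑ t, raise Q t a * alt3 u t b c = 0 := by simp [hu]
  have h2 : ∑ t, raise Q t b * alt3 u a t c = 0 := by simp [hu]
  have h3 : ∑ t, raise Q t c * alt3 u a b t = 0 := by simp [hu]
  simp only [alt3, mul_add, mul_sub, Finset.sum_add_distrib, Finset.sum_sub_distrib] at h1 h2 h3
  simp only [alt3, raise3T_mulVec]
  linarith

lemma alt3_swap (u : Three Q Q → ℝ) (a b c : Fin (Q + 1)) :
    alt3 u b a c = -alt3 u a b c := by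
  simp only [alt3]
  ring

lemma alt3_cycle (u : Three Q Q → ℝ) (a b c : Fin (Q + 1)) :
    alt3 u b c a = alt3 u a b c := by
  simp only [alt3]
  ring

lemma hwVec_top {A B n : ℕ} {a : Fin (A + 1)} {b : Fin (B + 1)} (h : (a : ℕ) + b = n) :
    hwVec A B n (a, b) = (-1 : ℝ) ^ (b : ℕ) * n.choose (a : ℕ)
      / Real.sqrt ((A.choose (a : ℕ) : ℝ) * B.choose (b : ℕ)) := if_pos h

lemma split_hwVec_single {n : ℕ} {a b c : Fin (Q + 1)} (m : Fin (2 * Q - 2 + 1))
    (hm : (a : ℕ) + b = m + 1) :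
    (splitPair Q *ᵥ hwVec (2 * Q - 2) Q n) (a, b, c) =
      pairIso Q (a, b) m * hwVec (2 * Q - 2) Q n (m, c) := by
  rw [splitPair_mulVec, Finset.sum_eq_single m]
  · intro x _ hx
    have : ¬ (a : ℕ) + b = (x : ℕ) + 1 := fun e => hx (Fin.ext (by omega))
    simp [pairIso, this]
  · simp

/-- Weight bookkeeping of the split highest weight vector. -/
lemma split_hwVec_zero {n : ℕ} {a b c : Fin (Q + 1)}
    (h : (a : ℕ) + b + c ≠ n + 1) :
    (splitPair Q *ᵥ hwVec (2 * Q - 2) Q n) (a, b, c) = 0 := by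
  rw [splitPair_mulVec]
  refine Finset.sum_eq_zero fun m _ => ?_
  simp only [pairIso, hwVec]
  split_ifs with h1 h2
  · omega
  all_goals simp

lemma split_hwVec_three (hQ : 3 ≤ Q) :
    alt3 (splitPair Q *ᵥ hwVec (2 * Q - 2) Q 3) ⟨0, by omega⟩ ⟨1, by omega⟩ ⟨3, by omega⟩ = 0 := by
  simp only [alt3]
  rw [split_hwVec_single ⟨0, by omega⟩ (by simp), split_hwVec_single ⟨3, by omega⟩ (by simp),
    split_hwVec_single ⟨2, by omega⟩ (by simp), split_hwVec_single ⟨0, by omega⟩ (by simp),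
    split_hwVec_single ⟨2, by omega⟩ (by simp), split_hwVec_single ⟨3, by omega⟩ (by simp)]
  rw [hwVec_top (by simp), hwVec_top (by simp), hwVec_top (by simp)]
  simp only [pairIso, g1, Nat.zero_add, Nat.add_zero, Nat.reduceAdd, if_true,
    Nat.choose_zero_right, Nat.choose_one_right, Nat.cast_one, mul_one, one_mul, Nat.cast_zero,
    Nat.cast_ofNat, pow_zero, pow_one, Nat.choose_self,
    show Nat.choose 3 2 = 3 from rfl]
  have hA3 : (0 : ℝ) < (2 * Q - 2).choose 3 := by exact_mod_cast Nat.choose_pos (by omega)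
  have hA2 : (0 : ℝ) < (2 * Q - 2).choose 2 := by exact_mod_cast Nat.choose_pos (by omega)
  have hQ3 : (0 : ℝ) < Q.choose 3 := by exact_mod_cast Nat.choose_pos (by omega)
  have hQ0 : (0 : ℝ) < Q := by exact_mod_cast (show 0 < Q by omega)
  have c3 : ∀ n : ℕ, 3 ≤ n →
      ((n.choose 3 : ℕ) : ℝ) * 6 = (n : ℝ) * ((n : ℝ) - 1) * ((n : ℝ) - 2) := by
    intro n hn
    have h1 := congrArg (fun t : ℕ => (t : ℝ)) (Nat.choose_succ_right_eq n 2)
    simp only [Nat.cast_mul, Nat.cast_sub (show 2 ≤ n by omega), Nat.cast_ofNat,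
      Nat.cast_choose_two] at h1
    norm_num at h1
    linarith
  have eQ : ((Q.choose 3 : ℕ) : ℝ) * 6 = (Q : ℝ) * ((Q : ℝ) - 1) * ((Q : ℝ) - 2) := c3 Q hQ
  have eA3 : (((2 * Q - 2).choose 3 : ℕ) : ℝ) * 6 =
      (2 * (Q : ℝ) - 2) * (2 * (Q : ℝ) - 3) * (2 * (Q : ℝ) - 4) := by
    have := c3 (2 * Q - 2) (by omega)
    rw [Nat.cast_sub (by omega)] at this
    push_cast at this
    linear_combination this
  have eA2 : (((2 * Q - 2).choose 2 : ℕ) : ℝ) * 2 = (2 * (Q : ℝ) - 2) * (2 * (Q : ℝ) - 3) := by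
    rw [Nat.cast_choose_two, Nat.cast_sub (by omega)]
    push_cast
    ring
  rw [Real.sqrt_mul (by positivity) (((2 * Q - 2).choose 3 : ℝ)),
    Real.sqrt_mul (by positivity) (((2 * Q - 2).choose 2 : ℝ)),
    Real.sqrt_mul hQ3.le (Q : ℝ), Real.sqrt_mul hA2.le (Q : ℝ),
    Real.sqrt_mul hQ0.le (Q.choose 3 : ℝ)]
  set x := Real.sqrt (Q.choose 3 : ℝ) with hx
  set y := Real.sqrt ((2 * Q - 2).choose 3 : ℝ) with hy
  set z := Real.sqrt ((2 * Q - 2).choose 2 : ℝ) with hz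
  set w := Real.sqrt (Q : ℝ) with hw
  set v := Real.sqrt (2 * (Q : ℝ)) with hv
  have hxx : x * x = (Q.choose 3 : ℝ) := Real.mul_self_sqrt hQ3.le
  have hyy : y * y = ((2 * Q - 2).choose 3 : ℝ) := Real.mul_self_sqrt hA3.le
  have hzz : z * z = ((2 * Q - 2).choose 2 : ℝ) := Real.mul_self_sqrt hA2.le
  have hww : w * w = (Q : ℝ) := Real.mul_self_sqrt hQ0.le
  have key : (y * y) * (z * z) * (w * w) - 2 * (x * x) * (z * z) * (w * w)
      - 9 * (x * x) * (y * y) = 0 := by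
    rw [hxx, hyy, hzz, hww]
    have e1 : ((Q.choose 3 : ℕ) : ℝ) = (Q : ℝ) * ((Q : ℝ) - 1) * ((Q : ℝ) - 2) / 6 := by linarith
    have e2 : (((2 * Q - 2).choose 3 : ℕ) : ℝ) =
        (2 * (Q : ℝ) - 2) * (2 * (Q : ℝ) - 3) * (2 * (Q : ℝ) - 4) / 6 := by linarith
    have e3 : (((2 * Q - 2).choose 2 : ℕ) : ℝ) =
        (2 * (Q : ℝ) - 2) * (2 * (Q : ℝ) - 3) / 2 := by linarith
    rw [e1, e2, e3]
    ring
  have hx0 : x ≠ 0 := (Real.sqrt_pos.mpr hQ3).ne'
  have hy0 : y ≠ 0 := (Real.sqrt_pos.mpr hA3).ne'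
  have hz0 : z ≠ 0 := (Real.sqrt_pos.mpr hA2).ne'
  have hw0 : w ≠ 0 := (Real.sqrt_pos.mpr hQ0).ne'
  have hv0 : v ≠ 0 := (Real.sqrt_pos.mpr (by positivity)).ne'
  field_simp
  linear_combination 2 * key

lemma triple4 {a b c : ℕ} (h1 : a ≠ b) (h2 : b ≠ c) (h3 : c ≠ a) (h : a + b + c = 4) :
    (a = 0 ∧ b = 1 ∧ c = 3) ∨ (a = 1 ∧ b = 3 ∧ c = 0) ∨ (a = 3 ∧ b = 0 ∧ c = 1) ∨
      (a = 1 ∧ b = 0 ∧ c = 3) ∨ (a = 0 ∧ b = 3 ∧ c = 1) ∨ (a = 3 ∧ b = 1 ∧ c = 0) := by
  have ha : a ≤ 4 := by omega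
  have hb : b ≤ 4 := by omega
  interval_cases a <;> interval_cases b <;> simp_all <;> omega

lemma alt3_split_hwVec (hQ : 3 ≤ Q) {n : ℕ} (hn : n = 0 ∨ n = 1 ∨ n = 3) (a b c : Fin (Q + 1)) :
    alt3 (splitPair Q *ᵥ hwVec (2 * Q - 2) Q n) a b c = 0 := by
  set u := splitPair Q *ᵥ hwVec (2 * Q - 2) Q n with hu
  by_cases hab : a = b
  · subst hab; simp only [alt3]; ring
  by_cases hbc : b = c
  · subst hbc; simp only [alt3]; ring
  by_cases hca : c = a
  · subst hca; simp only [alt3]; ring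
  have h1 := Fin.val_ne_of_ne hab
  have h2 := Fin.val_ne_of_ne hbc
  have h3 := Fin.val_ne_of_ne hca
  by_cases hs : (a : ℕ) + b + c = n + 1
  · have hn3 : n = 3 := by omega
    subst hn3
    have h0 := split_hwVec_three hQ
    rw [← hu] at h0
    have hv : ∀ (x : Fin (Q + 1)) (i : ℕ) (h : i < Q + 1), (x : ℕ) = i → x = ⟨i, h⟩ :=
      fun x i h e => Fin.ext e
    rcases triple4 h1 h2 h3 hs with ⟨x, y, z⟩ | ⟨x, y, z⟩ | ⟨x, y, z⟩ | ⟨x, y, z⟩ | ⟨x, y, z⟩ |
        ⟨x, y, z⟩ <;>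
      rw [hv a _ (by omega) x, hv b _ (by omega) y, hv c _ (by omega) z]
    · exact h0
    · rw [alt3_cycle]; exact h0
    · rw [← alt3_cycle]; exact h0
    · rw [alt3_swap, h0, neg_zero]
    · simp only [alt3] at h0 ⊢
      linarith
    · simp only [alt3] at h0 ⊢
      linarith
  · have z := fun {p q r : Fin (Q + 1)} (h : (p : ℕ) + q + r ≠ n + 1) =>
      split_hwVec_zero (Q := Q) (n := n) h
    simp only [alt3, hu, z hs, z (show (b : ℕ) + c + a ≠ n + 1 by omega),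
      z (show (c : ℕ) + a + b ≠ n + 1 by omega), z (show (b : ℕ) + a + c ≠ n + 1 by omega),
      z (show (a : ℕ) + c + b ≠ n + 1 by omega), z (show (c : ℕ) + b + a ≠ n + 1 by omega)]
    ring

lemma splitPair_lower (hQ : 1 ≤ Q) :
    (raise3 Q Q)ᵀ * splitPair Q = splitPair Q * (raise2 (2 * Q - 2) Q)ᵀ := by
  have hV := (pairIso_intertwines hQ).kronRight (w'' := fun b : Fin (Q + 1) => (b : ℕ))
    (J'' := raise Q)
  rw [← raise2_eq_jsum] at hV
  have hL := hV.submatrix (Equiv.refl _) (assoc3 Q Q)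
  rw [← raise3_eq_left] at hL
  have := hL.down
  simp only [Equiv.coe_refl, submatrix_id_id] at this
  exact this

/-- Every state of a killed channel is killed. -/
theorem chan_killed (hQ : 3 ≤ Q) {n D : ℕ} (hn : n = 0 ∨ n = 1 ∨ n = 3)
    (hD : D + 2 * n = 2 * Q - 2 + Q) : ∀ (m : Fin (D + 1)) (a b c : Fin (Q + 1)),
    alt3 (splitPair Q *ᵥ fun p => chan (2 * Q - 2) Q D n p m) a b c = 0 := by
  intro m
  induction m using Fin.induction with
  | zero =>
    intro a b c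
    have e : (fun p => chan (2 * Q - 2) Q D n p 0) = hwVec (2 * Q - 2) Q n := by
      rw [← chan_mulVec_zero (2 * Q - 2) Q D n]
      funext p
      simp [mulVec, dotProduct, Pi.single_apply]
    rw [e]
    exact alt3_split_hwVec hQ hn a b c
  | succ m ih =>
    intro a b c
    set r : ℝ := Real.sqrt (((m : ℕ) : ℝ) + 1) * Real.sqrt ((D : ℝ) - (m : ℕ)) with hr
    have hr0 : r ≠ 0 := by
      have h : ((m : ℕ) : ℝ) + 1 ≤ D := by exact_mod_cast (show (m : ℕ) + 1 ≤ D by omega)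
      have h0 : (0 : ℝ) ≤ ((m : ℕ) : ℝ) := Nat.cast_nonneg _
      exact mul_ne_zero (Real.sqrt_pos.mpr (by linarith)).ne'
        (Real.sqrt_pos.mpr (by linarith)).ne'
    have hc := (chan_intertwines hD (by omega) (by omega)).down
    have e : (raise2 (2 * Q - 2) Q)ᵀ *ᵥ (fun p => chan (2 * Q - 2) Q D n p m.castSucc) =
        r • fun p => chan (2 * Q - 2) Q D n p m.succ := by
      funext p
      have h := congrFun (congrFun hc p) m.castSucc
      simp only [Matrix.mul_apply] at h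
      simp only [mulVec, dotProduct, Pi.smul_apply, smul_eq_mul]
      rw [h, Finset.sum_eq_single m.succ]
      · rw [Matrix.transpose_apply, raise, if_pos (by simp), mul_comm]
        congr 1
        rw [hr, ← Real.sqrt_mul (by positivity)]
        simp
      · intro x _ hx
        rw [Matrix.transpose_apply, raise, if_neg, mul_zero]
        intro hv
        exact hx (Fin.ext (by simp only [Fin.val_castSucc, Fin.val_succ] at hv ⊢; omega))
      · simp
    have hlow := alt3_lower _ ih a b c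
    rw [mulVec_mulVec, splitPair_lower (by omega), ← mulVec_mulVec, e, mulVec_smul] at hlow
    simp only [alt3, Pi.smul_apply, smul_eq_mul] at hlow ⊢
    have : r * 0 = r * ((splitPair Q *ᵥ fun p => chan (2 * Q - 2) Q D n p m.succ) (a, b, c)
        + (splitPair Q *ᵥ fun p => chan (2 * Q - 2) Q D n p m.succ) (b, c, a)
        + (splitPair Q *ᵥ fun p => chan (2 * Q - 2) Q D n p m.succ) (c, a, b)
        - (splitPair Q *ᵥ fun p => chan (2 * Q - 2) Q D n p m.succ) (b, a, c)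
        - (splitPair Q *ᵥ fun p => chan (2 * Q - 2) Q D n p m.succ) (a, c, b)
        - (splitPair Q *ᵥ fun p => chan (2 * Q - 2) Q D n p m.succ) (c, b, a)) := by linarith
    exact (mul_left_cancel₀ hr0 this).symm

/-- The reduced state is orthogonal to the killed channels at every electron. -/
theorem killed_chan_apply (hQ : 3 ≤ Q) {ψ : Config Q (M + 2) → ℝ} (hψ : IsAnti ψ) {n D : ℕ}
    (hn : n = 0 ∨ n = 1 ∨ n = 3) (hD : D + 2 * n = 2 * Q - 2 + Q) (m : Fin (D + 1)) (k : Fin M)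
    (x : Config Q M) :
    ∑ p : Two (2 * Q - 2) Q,
      chan (2 * Q - 2) Q D n p m * reduce ψ p.1 (Function.update x k p.2) = 0 := by
  refine killed_apply hψ _ (fun a b c => ?_) k x
  have h := chan_killed hQ hn hD m a b c
  simp only [alt3, splitPair_mulVec] at h
  exact h

/-- The killed channels carry no energy. -/
theorem killed_chan (hQ : 3 ≤ Q) {ψ : Config Q (M + 2) → ℝ} (hψ : IsAnti ψ) {n D : ℕ}
    (hn : n = 0 ∨ n = 1 ∨ n = 3) (hD : D + 2 * n = 2 * Q - 2 + Q) :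
    E1 (chan (2 * Q - 2) Q D n * (chan (2 * Q - 2) Q D n)ᵀ) (reduce ψ) = 0 := by
  refine Finset.sum_eq_zero fun k _ => Finset.sum_eq_zero fun a _ =>
    Finset.sum_eq_zero fun x _ => ?_
  simp only [Matrix.mul_apply, Matrix.transpose_apply, Finset.mul_sum, Finset.sum_mul]
  rw [Finset.sum_comm]
  refine Finset.sum_eq_zero fun m _ => ?_
  simp only [mul_assoc, ← Finset.mul_sum, killed_chan_apply hQ hψ hn hD m k x, mul_zero]

end P359
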