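import Vale.Agent.P359.Majorant

/-!
P359: upper bounds on the majorant: `0 ≤ G ≤ 1` and hence `Gᵀ G ≤ G`, so that a second Pauli
bound can be applied to `act3 Gᵀ * act4 Y * act3 G`.
-/

namespace P359

open Matrix Finset
open scoped BigOperators Kronecker

theorem splitMat_gram {A j : ℕ} (hj : j ≤ A) : (splitMat A j)ᵀ * splitMat A j = 1 := by
  ext m m'
  simp only [Matrix.mul_apply, Matrix.transpose_apply, Fintype.sum_prod_type]
  rw [sum_comm]
  simp only [sum_splitMat]
  by_cases h : m = m'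
  · subst h
    rw [Matrix.one_apply_eq]
    simp only [if_true, ← sq]
    rw [← Finset.sum_range (fun c => split A j m c ^ 2)]
    exact sum_split_sq_right hj (Nat.lt_succ_iff.mp m.isLt)
  · rw [Matrix.one_apply_ne h]
    exact sum_eq_zero fun c _ => if_neg fun e => h (Fin.ext (by omega))

theorem splitBoth_gram {A B j : ℕ} (hA : j ≤ A) (hB : j ≤ B) :
    (splitBoth A B j)ᵀ * splitBoth A B j = 1 := by
  rw [splitBoth, ← Matrix.kroneckerMap_transpose, ← Matrix.mul_kronecker_mul, splitMat_gram hA,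
    splitMat_gram hB, Matrix.one_kronecker_one]

theorem nsq_mulVec_transpose_le {ι κ : Type*} [Fintype ι] [Fintype κ] [DecidableEq ι]
    {K : Matrix κ ι ℝ} (hK : Kᵀ * K = 1) (y : κ → ℝ) : nsq (Kᵀ *ᵥ y) ≤ nsq y := by
  set z := Kᵀ *ᵥ y with hz
  have h1 : (K *ᵥ z) ⬝ᵥ (K *ᵥ z) = z ⬝ᵥ z := by
    rw [dotProduct_mulVec, ← mulVec_transpose, mulVec_mulVec, hK, one_mulVec]
  have h2 : (K *ᵥ z) ⬝ᵥ y = z ⬝ᵥ z := by
    rw [dotProduct_comm, dotProduct_mulVec, ← mulVec_transpose]
  have h3 : 0 ≤ nsq (K *ᵥ z - y) := nsq_nonneg _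
  simp only [nsq, sub_dotProduct, dotProduct_sub, h1, h2, dotProduct_comm y (K *ᵥ z)] at h3
  simp only [nsq]
  linarith

/-- The exchange operator is a contraction. -/
theorem nsq_exch_le {A B j : ℕ} (hA : j ≤ A) (hB : j ≤ B) (v : Two A B → ℝ) :
    nsq (exch A B j *ᵥ v) ≤ nsq v := by
  rw [exch_eq_exchMat, exchMat, ← mulVec_mulVec]
  refine (nsq_mulVec_transpose_le (splitBoth_gram hA hB) _).trans (le_of_eq ?_)
  set K := splitBoth A B j with hK
  have h1 : nsq (K.submatrix (swapSmall A B j) id *ᵥ v) = nsq (K *ᵥ v) := by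
    simp only [nsq, dotProduct, Matrix.mulVec, Matrix.submatrix_apply, id_eq]
    exact Equiv.sum_comp (swapSmall A B j) (fun i => (∑ x, K i x * v x) * ∑ x, K i x * v x)
  rw [h1, nsq, nsq, dotProduct_mulVec, ← mulVec_transpose, mulVec_mulVec,
    splitBoth_gram hA hB, one_mulVec]

theorem exchEig_le_one {A B n j : ℕ} (hnA : n ≤ A) (hnB : n ≤ B) (hjA : j ≤ A) (hjB : j ≤ B) :
    exchEig A B n j ≤ 1 := by
  have h := nsq_exch_le hjA hjB (hwVec A B n)
  rw [exch_mulVec_hwVec hnA hnB hjA hjB] at h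
  simp only [nsq, dotProduct_smul, smul_dotProduct, smul_eq_mul] at h
  have hne : hwVec A B n ≠ 0 := fun e => by
    have h0 := congrFun e (⟨0, by omega⟩, ⟨n, by omega⟩)
    have hs : Real.sqrt (B.choose n : ℝ) ≠ 0 :=
      (Real.sqrt_pos.mpr (by exact_mod_cast Nat.choose_pos hnB)).ne'
    simp [hwVec, hs] at h0
  have hpos : 0 < hwVec A B n ⬝ᵥ hwVec A B n :=
    lt_of_le_of_ne (nsq_nonneg _) fun e => hne (dotProduct_self_eq_zero.mp e.symm)
  by_contra hgt
  have h1 : 1 < exchEig A B n j := lt_of_not_ge hgt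
  have h2 : 1 < exchEig A B n j * exchEig A B n j := by nlinarith
  nlinarith

theorem majSum_le_one {A B n : ℕ} {t : ℝ} (hnB : n ≤ B) (hBA : B ≤ A) (ht0 : 0 ≤ t)
    (ht1 : t ≤ 1) : majSum A B n t ≤ 1 := by
  have h1t : 0 ≤ 1 - t := by linarith
  set v := hwVec A B n
  have hne : v (⟨0, by omega⟩, ⟨n, by omega⟩) ≠ 0 := by
    have hs : Real.sqrt (B.choose n : ℝ) ≠ 0 :=
      (Real.sqrt_pos.mpr (by exact_mod_cast Nat.choose_pos hnB)).ne'
    simp [v, hwVec, hs]
  have e : majSum A B n t = ∑ j ∈ range (B + 1),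
      (B.choose j : ℝ) * (1 - t) ^ (B - j) * t ^ j * exchEig A B n j := by
    have h := majorant_mulVec_hwVec hnB hBA t
    rw [majorant, Matrix.sum_mulVec, sum_congr rfl (fun j hj => by
      rw [Matrix.smul_mulVec, exch_mulVec_hwVec (hnB.trans hBA) hnB
        ((Nat.lt_succ_iff.mp (mem_range.mp hj)).trans hBA) (Nat.lt_succ_iff.mp (mem_range.mp hj)),
        smul_smul]), ← sum_smul] at h
    have h' := congrFun h (⟨0, by omega⟩, ⟨n, by omega⟩)
    simp only [Pi.smul_apply, smul_eq_mul] at h'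
    exact (mul_right_cancel₀ hne h').symm
  have hb := add_pow t (1 - t) B
  rw [show t + (1 - t) = (1 : ℝ) by ring, one_pow] at hb
  rw [e]
  refine le_of_le_of_eq (sum_le_sum fun j hj => ?_) hb.symm
  have hjB : j ≤ B := Nat.lt_succ_iff.mp (mem_range.mp hj)
  have h1 := exchEig_le_one (hnB.trans hBA) hnB (hjB.trans hBA) hjB
  calc (B.choose j : ℝ) * (1 - t) ^ (B - j) * t ^ j * exchEig A B n j
      ≤ (B.choose j : ℝ) * (1 - t) ^ (B - j) * t ^ j * 1 :=
        mul_le_mul_of_nonneg_left h1 (by positivity)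
    _ = _ := by ring

/-- `Gᵀ G ≤ G` for the majorant. -/
theorem majorant_sq_le {A B : ℕ} (hBA : B ≤ A) {t : ℝ} (ht0 : 0 ≤ t) (ht : t ≤ 1 / 5)
    (v : Two A B → ℝ) :
    quad ((majorant A B t)ᵀ * majorant A B t) v ≤ quad (majorant A B t) v := by
  set G := majorant A B t with hG
  have hT := intertwines_majorant (A := A) hBA t
  have hGt : Gᵀ = G := majorant_transpose A B t
  have hT2 := hT.comp hT
  have key := criterion (w := (wt2 : Two A B → ℕ)) (J := raise2 A B) (K := G - G * G)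
    raise2_weight
    (fun i j h => by
      have := ((hT.sub (hT2.cast (by norm_num))).weight i j h)
      omega)
    (by rw [Matrix.transpose_sub, Matrix.transpose_mul, hGt])
    (by rw [Matrix.mul_sub, Matrix.sub_mul, hT.up, ← Matrix.mul_assoc, hT.up, Matrix.mul_assoc,
      hT.up, ← Matrix.mul_assoc])
    (L := A + B) (fun m hm u hu hJ => ?_) v (fun p hp => absurd hp (by
      have := p.1.isLt; have := p.2.isLt; simp only [wt2]; omega))
  · rw [hGt]
    simp only [quad, Matrix.sub_mulVec, dotProduct_sub] at key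
    simp only [quad]
    linarith
  · by_cases hmB : m ≤ B
    · rw [hw2_eq_smul (hmB.trans hBA) hmB u hu hJ]
      set k := (-1 : ℝ) ^ m * Real.sqrt (B.choose m : ℝ)
        * u (⟨0, by omega⟩, ⟨m, by omega⟩)
      have e : G *ᵥ hwVec A B m = majSum A B m t • hwVec A B m :=
        majorant_mulVec_hwVec hmB hBA t
      have h0 : 0 ≤ majSum A B m t := by
        refine le_trans ?_ (majSum_lower hmB hBA ht0 ht)
        have : 0 ≤ (1 - 2 * t) ^ m := pow_nonneg (by linarith) _
        linarith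
      have h1 : majSum A B m t ≤ 1 := majSum_le_one hmB hBA ht0 (by linarith)
      have eq : quad (G - G * G) (k • hwVec A B m)
          = majSum A B m t * (1 - majSum A B m t) * (k ^ 2 * nsq (hwVec A B m)) := by
        simp only [quad, Matrix.sub_mulVec, ← mulVec_mulVec, Matrix.mulVec_smul, e,
          dotProduct_sub, dotProduct_smul, smul_dotProduct, smul_eq_mul, nsq]
        ring
      rw [eq]
      exact mul_nonneg (mul_nonneg h0 (by linarith)) (mul_nonneg (sq_nonneg _) (nsq_nonneg _))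
    · rw [hw_eq_zero (by omega) hu hJ]
      simp [quad]

/-- `G` is bounded below in norm on weights at most `L`. -/
theorem nsq_majorant_lower {A B L : ℕ} (hBA : B ≤ A) {t : ℝ} (ht0 : 0 ≤ t) (ht : t ≤ 1 / 5)
    (v : Two A B → ℝ) (hv : ∀ p, L < wt2 p → v p = 0) :
    ((1 / 2) * (1 - 2 * t) ^ L) ^ 2 * nsq v ≤ nsq (majorant A B t *ᵥ v) := by
  set c := (1 / 2 : ℝ) * (1 - 2 * t) ^ L with hc
  set w := majorant A B t *ᵥ v with hw
  have hc0 : 0 ≤ c := mul_nonneg (by norm_num) (pow_nonneg (by linarith) _)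
  have h1 : c * nsq v ≤ v ⬝ᵥ w := majorant_lower hBA ht0 ht v hv
  have h2 : 0 ≤ nsq (w - c • v) := nsq_nonneg _
  have h3 := mul_le_mul_of_nonneg_left h1 hc0
  simp only [nsq, sub_dotProduct, dotProduct_sub, dotProduct_smul, smul_dotProduct, smul_eq_mul,
    dotProduct_comm w v] at h2 h3 ⊢
  linarith

end P359
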