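import Vale.Agent.P359.ReduceEnergy

/-!
P359, pieces A2-A6: squares, positivity, the Pauli bound and the killed channels.
-/

namespace P359

open Matrix
open scoped BigOperators

variable {A A' A'' B M : ℕ}

/-- A pair matrix applied to the impurity and electron `k`. -/
def appl (G : Matrix (Two A' B) (Two A B) ℝ) (φ : Reduced A B M) (k : Fin M) :
    Reduced A' B M :=
  fun m y => ∑ q : Two A B, G (m, y k) q * φ q.1 (Function.update y k q.2)

/-- A triple matrix applied to the impurity and electrons `k`, `l`. -/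
def appl2 (T : Matrix (Three A' B) (Three A B) ℝ) (φ : Reduced A B M) (k l : Fin M) :
    Reduced A' B M :=
  fun m y => ∑ q : Three A B, T (m, y k, y l) q * φ q.1 (upd2 y k q.2.1 l q.2.2)

/-- The pairing of two reduced states. -/
def innerR (φ χ : Reduced A B M) : ℝ := ∑ a, ∑ x, φ a x * χ a x

lemma innerR_self (φ : Reduced A B M) : innerR φ φ = nsqR φ := by simp [innerR, nsqR, sq]

lemma innerR_comm (φ χ : Reduced A B M) : innerR φ χ = innerR χ φ :=
  Finset.sum_congr rfl fun _ _ => Finset.sum_congr rfl fun _ _ => mul_comm _ _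

lemma E1_eq (K : Matrix (Two A B) (Two A B) ℝ) (φ : Reduced A B M) :
    E1 K φ = ∑ k, innerR φ (appl K φ k) := by
  simp only [E1, innerR, appl, Finset.mul_sum, mul_assoc]

lemma E2_eq (T : Matrix (Three A B) (Three A B) ℝ) (φ : Reduced A B M) :
    E2 T φ = ∑ k, ∑ l ∈ Finset.univ.filter (fun l => l ≠ k), innerR φ (appl2 T φ k l) := by
  simp only [E2, innerR, appl2, upd2, Finset.mul_sum, mul_assoc]

lemma appl_adjoint (G : Matrix (Two A' B) (Two A B) ℝ) (φ : Reduced A B M) (χ : Reduced A' B M)
    (k : Fin M) : innerR (appl G φ k) χ = innerR φ (appl Gᵀ χ k) := by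
  simp only [innerR, appl, Finset.sum_mul, Finset.mul_sum, Fintype.sum_prod_type]
  conv_lhs => arg 2; ext m; rw [Finset.sum_comm]
  conv_lhs => rw [Finset.sum_comm]
  refine Finset.sum_congr rfl fun a _ => ?_
  conv_rhs => rw [Finset.sum_comm]
  refine Finset.sum_congr rfl fun m _ => ?_
  rw [← sum_exchange k fun x c => φ a x * (Gᵀ (a, x k) (m, c) * χ m (Function.update x k c))]
  refine Finset.sum_congr rfl fun y _ => Finset.sum_congr rfl fun c _ => ?_
  simp only [Matrix.transpose_apply, Function.update_self, Function.update_idem,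
    Function.update_eq_self]
  ring

lemma appl_comp (K : Matrix (Two A'' B) (Two A' B) ℝ) (G : Matrix (Two A' B) (Two A B) ℝ)
    (φ : Reduced A B M) (k : Fin M) : appl K (appl G φ k) k = appl (K * G) φ k := by
  funext m y
  simp only [appl, Matrix.mul_apply, Finset.mul_sum, Finset.sum_mul, Function.update_self,
    Function.update_idem]
  rw [Finset.sum_comm]
  exact Finset.sum_congr rfl fun q _ => Finset.sum_congr rfl fun p _ => by ring

lemma appl2_comp (S : Matrix (Three A'' B) (Three A' B) ℝ) (T : Matrix (Three A' B) (Three A B) ℝ)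
    (φ : Reduced A B M) {k l : Fin M} (h : k ≠ l) :
    appl2 S (appl2 T φ k l) k l = appl2 (S * T) φ k l := by
  funext m y
  simp only [appl2, upd2, Matrix.mul_apply, Finset.mul_sum, Finset.sum_mul]
  rw [Finset.sum_comm]
  refine Finset.sum_congr rfl fun q _ => Finset.sum_congr rfl fun p _ => ?_
  rw [Function.update_self, Function.update_of_ne h, Function.update_self,
    Function.update_comm h, Function.update_idem, Function.update_comm h.symm,
    Function.update_idem]
  ring

lemma appl_eq_act3 (G : Matrix (Two A' B) (Two A B) ℝ) (φ : Reduced A B M) {k l : Fin M}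
    (h : k ≠ l) : appl G φ k = appl2 (act3 G) φ k l := by
  funext m y
  simp only [appl, appl2, act3, Fintype.sum_prod_type, ite_mul, zero_mul]
  refine Finset.sum_congr rfl fun a _ => Finset.sum_congr rfl fun c _ => ?_
  rw [Finset.sum_ite_eq, if_pos (Finset.mem_univ _), upd2]
  congr 2
  funext i
  by_cases hi : i = l
  · subst hi
    simp [Function.update_of_ne h.symm]
  · simp [Function.update_of_ne hi]

lemma appl_eq_act4 (G : Matrix (Two A' B) (Two A B) ℝ) (φ : Reduced A B M) {k l : Fin M}
    (_h : k ≠ l) : appl G φ l = appl2 (act4 G) φ k l := by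
  funext m y
  simp only [appl, appl2, act4, Fintype.sum_prod_type, ite_mul, zero_mul]
  refine Finset.sum_congr rfl fun a _ => ?_
  conv_rhs => rw [Finset.sum_comm]
  refine Finset.sum_congr rfl fun c _ => ?_
  rw [Finset.sum_ite_eq, if_pos (Finset.mem_univ _), upd2, Function.update_eq_self]

lemma act3_transpose (G : Matrix (Two A' B) (Two A B) ℝ) : act3 Gᵀ = (act3 G)ᵀ := by
  ext p q
  simp [act3, eq_comm]

lemma innerR_appl_self (G : Matrix (Two A' B) (Two A B) ℝ) (φ : Reduced A B M) (k : Fin M) :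
    nsqR (appl G φ k) = innerR φ (appl (Gᵀ * G) φ k) := by
  rw [← innerR_self, appl_adjoint, appl_comp]

lemma innerR_appl_ne (G : Matrix (Two A' B) (Two A B) ℝ) (φ : Reduced A B M) {k l : Fin M}
    (h : k ≠ l) :
    innerR (appl G φ k) (appl G φ l) = innerR φ (appl2 ((act3 G)ᵀ * act4 G) φ k l) := by
  rw [appl_adjoint, appl_eq_act3 Gᵀ _ h, appl_eq_act4 G φ h, appl2_comp _ _ _ h, act3_transpose]

lemma nsqR_sum_appl (G : Matrix (Two A' B) (Two A B) ℝ) (φ : Reduced A B M) :
    nsqR (fun a x => ∑ k, appl G φ k a x) =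
      E1 (Gᵀ * G) φ + E2 ((act3 G)ᵀ * act4 G) φ := by
  have e : nsqR (fun a x => ∑ k, appl G φ k a x) =
      ∑ k, ∑ l, innerR (appl G φ k) (appl G φ l) := by
    simp only [nsqR, innerR, sq, Finset.sum_mul_sum]
    conv_lhs => arg 2; ext a; rw [Finset.sum_comm]; arg 2; ext k; rw [Finset.sum_comm]
    conv_lhs => rw [Finset.sum_comm]; arg 2; ext k; rw [Finset.sum_comm]
  rw [e, E1_eq, E2_eq, ← Finset.sum_add_distrib]
  refine Finset.sum_congr rfl fun k _ => ?_
  rw [← Finset.add_sum_erase _ _ (Finset.mem_univ k), Finset.filter_ne', innerR_self,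
    innerR_appl_self]
  congr 1
  exact Finset.sum_congr rfl fun l hl => innerR_appl_ne G φ (Finset.ne_of_mem_erase hl).symm

/-- A2, first form. -/
theorem square_expand (G : Matrix (Two A' B) (Two A B) ℝ) (φ : Reduced A B M) :
    0 ≤ E1 (Gᵀ * G) φ + E2 ((act3 G)ᵀ * act4 G) φ := by
  rw [← nsqR_sum_appl]
  exact Finset.sum_nonneg fun a _ => Finset.sum_nonneg fun x _ => sq_nonneg _

/-! ### Linearity -/

lemma E1_add (K L : Matrix (Two A B) (Two A B) ℝ) (φ : Reduced A B M) :
    E1 (K + L) φ = E1 K φ + E1 L φ := by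
  simp only [E1, Matrix.add_apply, mul_add, add_mul, Finset.sum_add_distrib]

lemma E1_smul (c : ℝ) (K : Matrix (Two A B) (Two A B) ℝ) (φ : Reduced A B M) :
    E1 (c • K) φ = c * E1 K φ := by
  simp only [E1, Matrix.smul_apply, smul_eq_mul, Finset.mul_sum]
  refine Finset.sum_congr rfl fun k _ => Finset.sum_congr rfl fun a _ =>
    Finset.sum_congr rfl fun x _ => Finset.sum_congr rfl fun q _ => ?_
  ring

lemma E1_sub (K L : Matrix (Two A B) (Two A B) ℝ) (φ : Reduced A B M) :
    E1 (K - L) φ = E1 K φ - E1 L φ := by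
  simp only [E1, Matrix.sub_apply, mul_sub, sub_mul, Finset.sum_sub_distrib]

lemma E1_zero (φ : Reduced A B M) : E1 (0 : Matrix (Two A B) (Two A B) ℝ) φ = 0 := by
  simp [E1]

lemma E1_sum {ι : Type*} (s : Finset ι) (K : ι → Matrix (Two A B) (Two A B) ℝ)
    (φ : Reduced A B M) : E1 (∑ i ∈ s, K i) φ = ∑ i ∈ s, E1 (K i) φ := by
  classical
  induction s using Finset.induction with
  | empty => simp [E1_zero]
  | insert i s hi ih => rw [Finset.sum_insert hi, Finset.sum_insert hi, E1_add, ih]

lemma E2_add (K L : Matrix (Three A B) (Three A B) ℝ) (φ : Reduced A B M) :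
    E2 (K + L) φ = E2 K φ + E2 L φ := by
  simp only [E2, Matrix.add_apply, mul_add, add_mul, Finset.sum_add_distrib]

lemma E2_smul (c : ℝ) (K : Matrix (Three A B) (Three A B) ℝ) (φ : Reduced A B M) :
    E2 (c • K) φ = c * E2 K φ := by
  simp only [E2, Matrix.smul_apply, smul_eq_mul, Finset.mul_sum]
  refine Finset.sum_congr rfl fun k _ => Finset.sum_congr rfl fun l _ =>
    Finset.sum_congr rfl fun a _ =>
    Finset.sum_congr rfl fun x _ => Finset.sum_congr rfl fun q _ => ?_
  ring

lemma E2_sub (K L : Matrix (Three A B) (Three A B) ℝ) (φ : Reduced A B M) :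
    E2 (K - L) φ = E2 K φ - E2 L φ := by
  simp only [E2, Matrix.sub_apply, mul_sub, sub_mul, Finset.sum_sub_distrib]

lemma E2_zero (φ : Reduced A B M) : E2 (0 : Matrix (Three A B) (Three A B) ℝ) φ = 0 := by
  simp [E2]

lemma E2_sum {ι : Type*} (s : Finset ι) (K : ι → Matrix (Three A B) (Three A B) ℝ)
    (φ : Reduced A B M) : E2 (∑ i ∈ s, K i) φ = ∑ i ∈ s, E2 (K i) φ := by
  classical
  induction s using Finset.induction with
  | empty => simp [E2_zero]
  | insert i s hi ih => rw [Finset.sum_insert hi, Finset.sum_insert hi, E2_add, ih]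

/-- A2 with the constant. -/
theorem square_expand_const (α : ℝ) (G : Matrix (Two A B) (Two A B) ℝ) (φ : Reduced A B M) :
    0 ≤ α ^ 2 * nsqR φ + E1 ((2 * α) • G + Gᵀ * G) φ + E2 ((act3 G)ᵀ * act4 G) φ := by
  have h : 0 ≤ nsqR (fun a x => α * φ a x + ∑ k, appl G φ k a x) :=
    Finset.sum_nonneg fun a _ => Finset.sum_nonneg fun x _ => sq_nonneg _
  have e : nsqR (fun a x => α * φ a x + ∑ k, appl G φ k a x) =
      α ^ 2 * nsqR φ + 2 * α * E1 G φ + nsqR (fun a x => ∑ k, appl G φ k a x) := by
    have hc : ∑ a, ∑ x, φ a x * ∑ k, appl G φ k a x = E1 G φ := by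
      rw [E1_eq]
      simp only [innerR, Finset.mul_sum]
      conv_lhs => arg 2; ext a; rw [Finset.sum_comm]
      exact Finset.sum_comm
    simp only [← hc, nsqR, Finset.mul_sum (a := 2 * α), Finset.mul_sum (a := α ^ 2),
      ← Finset.sum_add_distrib]
    exact Finset.sum_congr rfl fun a _ => Finset.sum_congr rfl fun x _ => by ring
  rw [e, nsqR_sum_appl] at h
  rw [E1_add, E1_smul]
  linarith

/-! ### Positivity -/

lemma sum_update_const {N : ℕ} (k : Fin N) (F : Config B N → ℝ) :
    ∑ y, ∑ c : Fin (B + 1), F (Function.update y k c) = ((B : ℝ) + 1) * ∑ x, F x := by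
  have := sum_exchange k fun x (_ : Fin (B + 1)) => F x
  rw [this, Finset.mul_sum]
  simp

/-- A3: a pointwise nonnegative one-body form gives a nonnegative energy. -/
theorem E1_nonneg {K : Matrix (Two A B) (Two A B) ℝ} (hK : ∀ v, 0 ≤ quad K v)
    (φ : Reduced A B M) : 0 ≤ E1 K φ := by
  rw [E1_eq]
  refine Finset.sum_nonneg fun k _ => ?_
  have hB : (0 : ℝ) < (B : ℝ) + 1 := by positivity
  refine nonneg_of_mul_nonneg_right ?_ hB
  have e : ((B : ℝ) + 1) * innerR φ (appl K φ k) =
      ∑ y : Config B M, quad K (fun q => φ q.1 (Function.update y k q.2)) := by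
    simp only [innerR, quad, dotProduct, Matrix.mulVec, Fintype.sum_prod_type (α₁ := Fin (A + 1)),
      Finset.mul_sum (a := ((B : ℝ) + 1))]
    conv_rhs => rw [Finset.sum_comm]
    refine Finset.sum_congr rfl fun a _ => ?_
    rw [← Finset.mul_sum, ← sum_update_const k]
    refine Finset.sum_congr rfl fun y _ => Finset.sum_congr rfl fun c _ => ?_
    simp only [appl, Function.update_self, Function.update_idem, Fintype.sum_prod_type]
  rw [e]
  exact Finset.sum_nonneg fun y _ => hK _

lemma E1_mono {K L : Matrix (Two A B) (Two A B) ℝ} (h : ∀ v, quad K v ≤ quad L v)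
    (φ : Reduced A B M) : E1 K φ ≤ E1 L φ := by
  have := E1_nonneg (K := L - K) (fun v => by
    simp only [quad, Matrix.sub_mulVec, dotProduct_sub]
    exact sub_nonneg.mpr (h v)) φ
  rw [E1_sub] at this
  linarith

lemma anti_reduced_swap {φ : Reduced A B M} (hφ : IsAntiR φ) {k l : Fin M} (h : k ≠ l)
    (a : Fin (A + 1)) (x : Config B M) : φ a (x ∘ Equiv.swap k l) = -φ a x :=
  anti_swap (hφ a) h x

/-- A3: a two-body form which is nonnegative on antisymmetric triples. -/
theorem E2_nonneg {T : Matrix (Three A B) (Three A B) ℝ}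
    (hT : ∀ F : Three A B → ℝ, (∀ a b c, F (a, b, c) = -F (a, c, b)) → 0 ≤ quad T F)
    {φ : Reduced A B M} (hφ : IsAntiR φ) : 0 ≤ E2 T φ := by
  rw [E2_eq]
  refine Finset.sum_nonneg fun k _ => Finset.sum_nonneg fun l hl => ?_
  have hkl : k ≠ l := Ne.symm (Finset.mem_filter.mp hl).2
  have hB : (0 : ℝ) < ((B : ℝ) + 1) * ((B : ℝ) + 1) := by positivity
  refine nonneg_of_mul_nonneg_right ?_ hB
  have e : ((B : ℝ) + 1) * ((B : ℝ) + 1) * innerR φ (appl2 T φ k l) =
      ∑ y : Config B M, quad T (fun q => φ q.1 (upd2 y k q.2.1 l q.2.2)) := by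
    simp only [innerR, quad, dotProduct, Matrix.mulVec, Fintype.sum_prod_type (α₁ := Fin (A + 1)),
      Finset.mul_sum (a := ((B : ℝ) + 1) * ((B : ℝ) + 1))]
    conv_rhs => rw [Finset.sum_comm]
    refine Finset.sum_congr rfl fun a _ => ?_
    rw [← Finset.mul_sum, mul_assoc, ← sum_update_const l, ← sum_update_const k]
    simp only [Fintype.sum_prod_type (α₁ := Fin (B + 1))]
    refine Finset.sum_congr rfl fun y _ => Finset.sum_congr rfl fun c _ =>
      Finset.sum_congr rfl fun d _ => ?_
    simp only [appl2, upd2, Function.update_self, Function.update_of_ne hkl,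
      Function.update_comm hkl, Function.update_idem, Fintype.sum_prod_type]
  rw [e]
  refine Finset.sum_nonneg fun y _ => hT _ fun a b c => ?_
  rw [← anti_reduced_swap hφ hkl]
  refine congrArg _ (funext fun i => ?_)
  simp only [upd2, Function.comp_apply]
  by_cases hik : i = k
  · subst hik
    simp [Function.update_of_ne hkl]
  · by_cases hil : i = l
    · subst hil
      simp [Function.update_of_ne hkl]
    · simp [Equiv.swap_apply_of_ne_of_ne hik hil, Function.update_of_ne hik,
        Function.update_of_ne hil]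

end P359
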