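import Vale.Agent.P359.ReduceExtra
import Vale.Agent.P359.MajorantUpper
import Vale.Agent.P359.ReduceSquare

/-!
P359: the majorant as a tail absorber for one-body and two-body energies.
-/

namespace P359

open Matrix
open scoped BigOperators

variable {A B M : ℕ}

/-- Two-body majorant, symmetric in the two electrons. -/
noncomputable def majorant3 (A B : ℕ) (t : ℝ) : Matrix (Three A B) (Three A B) ℝ :=
  (act3 (majorant A B t))ᵀ * act4 (majorant A B t) * act3 (majorant A B t)
    + (act4 (majorant A B t))ᵀ * act3 (majorant A B t) * act4 (majorant A B t)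

theorem act3_transpose' {A' : ℕ} (G : Matrix (Two A' B) (Two A B) ℝ) :
    act3 Gᵀ = (act3 G)ᵀ := by
  ext p q
  simp only [act3, transpose_apply, eq_comm (a := p.2.2)]

theorem act4_transpose' {A' : ℕ} (G : Matrix (Two A' B) (Two A B) ℝ) :
    act4 Gᵀ = (act4 G)ᵀ := by
  ext p q
  simp only [act4, transpose_apply, eq_comm (a := p.2.1)]

theorem intertwines_majorant3 (hBA : B ≤ A) (t : ℝ) :
    Intertwines wt3 (raise3 A B) wt3 (raise3 A B) 0 (majorant3 A B t) := by
  have h3 := (intertwines_majorant (A := A) hBA t).act3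
  have h4 := (intertwines_majorant (A := A) hBA t).act4
  rw [majorant3, ← act3_transpose', ← act4_transpose', majorant_transpose]
  exact (((h3.comp h4).comp h3).cast (by norm_num)).add (((h4.comp h3).comp h4).cast (by norm_num))

theorem majorant3_transpose (A B : ℕ) (t : ℝ) : (majorant3 A B t)ᵀ = majorant3 A B t := by
  simp [majorant3, transpose_add, transpose_mul, ← act3_transpose', ← act4_transpose',
    majorant_transpose, Matrix.mul_assoc]

theorem majorant3_swap (A B : ℕ) (t : ℝ) :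
    (majorant3 A B t).submatrix (swapEl A B) (swapEl A B) = majorant3 A B t := by
  have h34 : (act3 (majorant A B t)).submatrix (swapEl A B) (swapEl A B)
      = act4 (majorant A B t) := (act4_eq _).symm
  have h43 : (act4 (majorant A B t)).submatrix (swapEl A B) (swapEl A B)
      = act3 (majorant A B t) := by
    ext p q
    simp only [submatrix_apply, act3, act4, swapEl_apply]
    rfl
  rw [majorant3, submatrix_add, Pi.add_apply, Pi.add_apply,
    ← submatrix_mul_equiv _ _ (swapEl A B) (swapEl A B) (swapEl A B),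
    ← submatrix_mul_equiv _ _ (swapEl A B) (swapEl A B) (swapEl A B),
    ← submatrix_mul_equiv _ _ (swapEl A B) (swapEl A B) (swapEl A B),
    ← submatrix_mul_equiv _ _ (swapEl A B) (swapEl A B) (swapEl A B),
    ← transpose_submatrix, ← transpose_submatrix, h34, h43, add_comm]

theorem quad_sandwich {ι κ : Type*} [Fintype ι] [Fintype κ] (X : Matrix κ ι ℝ) (Y : Matrix κ κ ℝ)
    (v : ι → ℝ) : quad (Xᵀ * Y * X) v = quad Y (X *ᵥ v) := by
  simp only [quad, ← mulVec_mulVec]
  rw [dotProduct_mulVec, vecMul_transpose]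

theorem act4_lower {G : Matrix (Two A B) (Two A B) ℝ} {c : ℝ} {L : ℕ}
    (hG : ∀ v : Two A B → ℝ, (∀ p, L < wt2 p → v p = 0) → c * nsq v ≤ quad G v)
    (F : Three A B → ℝ) (hF : ∀ p, L < wt3 p → F p = 0) : c * nsq F ≤ quad (act4 G) F := by
  rw [quad_act4, nsq_slices4, Finset.mul_sum]
  refine Finset.sum_le_sum fun b _ => hG _ fun p hp => hF _ ?_
  simp only [wt2, wt3] at hp ⊢
  omega

theorem nsq_act3_lower {G : Matrix (Two A B) (Two A B) ℝ} {c : ℝ} {L : ℕ}
    (hG : ∀ v : Two A B → ℝ, (∀ p, L < wt2 p → v p = 0) → c * nsq v ≤ nsq (G *ᵥ v))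
    (F : Three A B → ℝ) (hF : ∀ p, L < wt3 p → F p = 0) : c * nsq F ≤ nsq (act3 G *ᵥ F) := by
  have e : ∀ H : Three A B → ℝ, nsq H = ∑ e : Fin (B + 1), nsq (fun p : Two A B => H (p.1, p.2, e)) := by
    intro H
    simp only [nsq, dotProduct, Fintype.sum_prod_type]
    conv_rhs => rw [Finset.sum_comm]; arg 2; ext a; rw [Finset.sum_comm]
  rw [e F, e (act3 G *ᵥ F), Finset.mul_sum]
  refine Finset.sum_le_sum fun z _ => ?_
  have hz : (fun p : Two A B => (act3 G *ᵥ F) (p.1, p.2, z))
      = G *ᵥ (fun p : Two A B => F (p.1, p.2, z)) := by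
    funext p
    simp only [mulVec, dotProduct, act3, Fintype.sum_prod_type, ite_mul, zero_mul,
      Finset.sum_ite_eq, Finset.mem_univ, if_true]
  rw [hz]
  refine hG _ fun p hp => hF _ ?_
  simp only [wt2, wt3] at hp ⊢
  omega

theorem supp_le_act {G : Matrix (Three A B) (Three A B) ℝ} {L : ℕ}
    (hG : ∀ i j, G i j ≠ 0 → (wt3 i : ℤ) = wt3 j + 0) {F : Three A B → ℝ}
    (hF : ∀ p, L < wt3 p → F p = 0) : ∀ p, L < wt3 p → (G *ᵥ F) p = 0 := by
  intro p hp
  refine Finset.sum_eq_zero fun q _ => ?_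
  by_cases h : G p q = 0
  · simp [h]
  · have := hG p q h
    simp [hF q (by omega)]

theorem majorant_sandwich_lower (hBA : B ≤ A) {t : ℝ} (ht0 : 0 ≤ t) (ht : t ≤ 1 / 5) {L : ℕ}
    (F : Three A B → ℝ) (hF : ∀ p, L < wt3 p → F p = 0) :
    (1 / 8) * (1 - 2 * t) ^ (3 * L) * nsq F ≤
      quad ((act3 (majorant A B t))ᵀ * act4 (majorant A B t) * act3 (majorant A B t)) F := by
  rw [quad_sandwich]
  have hc : 0 ≤ (1 / 2 : ℝ) * (1 - 2 * t) ^ L :=
    mul_nonneg (by norm_num) (pow_nonneg (by linarith) _)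
  have hv := supp_le_act ((intertwines_majorant (A := A) hBA t).act3).weight hF
  have h1 := act4_lower (fun v hv => majorant_lower hBA ht0 ht v hv) _ hv
  have h2 := nsq_act3_lower (fun v hv => nsq_majorant_lower hBA ht0 ht v hv) F hF
  calc (1 / 8) * (1 - 2 * t) ^ (3 * L) * nsq F
      = (1 / 2 * (1 - 2 * t) ^ L) * (((1 / 2) * (1 - 2 * t) ^ L) ^ 2 * nsq F) := by
        rw [show 3 * L = L + (L + L) by omega, pow_add, pow_add]; ring
    _ ≤ (1 / 2 * (1 - 2 * t) ^ L) * nsq (act3 (majorant A B t) *ᵥ F) :=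
        mul_le_mul_of_nonneg_left h2 hc
    _ ≤ _ := h1

theorem quad_submatrix_equiv {ι : Type*} [Fintype ι] (K : Matrix ι ι ℝ) (e : ι ≃ ι) (v : ι → ℝ) :
    quad (K.submatrix e e) v = quad K (v ∘ e.symm) := by
  simp only [quad, submatrix_mulVec_equiv, dotProduct]
  exact Fintype.sum_equiv e _ _ fun i => by simp

theorem majorant3_lower (hBA : B ≤ A) {t : ℝ} (ht0 : 0 ≤ t) (ht : t ≤ 1 / 5) {L : ℕ}
    (F : Three A B → ℝ) (hF : ∀ p, L < wt3 p → F p = 0) :
    (1 / 4) * (1 - 2 * t) ^ (3 * L) * nsq F ≤ quad (majorant3 A B t) F := by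
  have h1 := majorant_sandwich_lower hBA ht0 ht F hF
  have e : (act4 (majorant A B t))ᵀ * act3 (majorant A B t) * act4 (majorant A B t)
      = ((act3 (majorant A B t))ᵀ * act4 (majorant A B t) * act3 (majorant A B t)).submatrix
          (swapEl A B) (swapEl A B) := by
    rw [← submatrix_mul_equiv _ _ (swapEl A B) (swapEl A B) (swapEl A B),
      ← submatrix_mul_equiv _ _ (swapEl A B) (swapEl A B) (swapEl A B),
      ← transpose_submatrix, ← act4_eq, act4_eq (majorant A B t), submatrix_submatrix]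
    congr 2
  have h2 := majorant_sandwich_lower (L := L) hBA ht0 ht (F ∘ (swapEl A B).symm) (fun p hp => hF _ ?_)
  · have hn : nsq (F ∘ (swapEl A B).symm) = nsq F := by
      simp only [nsq, dotProduct, Function.comp_apply]
      exact Equiv.sum_comp (swapEl A B).symm fun i => F i * F i
    rw [hn] at h2
    rw [majorant3, e]
    simp only [quad, add_mulVec, dotProduct_add]
    have h3 := quad_submatrix_equiv ((act3 (majorant A B t))ᵀ * act4 (majorant A B t)
      * act3 (majorant A B t)) (swapEl A B) F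
    simp only [quad] at h1 h2 h3 ⊢
    linarith
  · obtain ⟨a, b, z⟩ := p
    simp only [swapEl, wt3, Equiv.prodCongr_symm, Equiv.prodComm_symm, Equiv.refl_symm,
      Equiv.prodCongr_apply, Equiv.prodComm_apply, Prod.map_apply, Equiv.refl_apply,
      Prod.swap_prod_mk] at hp ⊢
    omega

theorem E1_majorant_le (hBA : B ≤ A) {t : ℝ} (ht0 : 0 < t) (ht : t ≤ 1 / 5) {φ : Reduced A B M}
    (hφ : IsAntiR φ) : E1 (majorant A B t) φ ≤ 1 / t * nsqR φ :=
  (pauli (pauliBound_majorant hBA ht0 (by linarith)) hφ).trans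
    (mul_le_mul_of_nonneg_right (pauliBound_majorant_le ht0 (by linarith))
      (Finset.sum_nonneg fun _ _ => Finset.sum_nonneg fun _ _ => sq_nonneg _))

theorem E2_majorant3_le (hBA : B ≤ A) {t : ℝ} (ht0 : 0 < t) (ht : t ≤ 1 / 5) {φ : Reduced A B M}
    (hφ : IsAntiR φ) : E2 (majorant3 A B t) φ ≤ 2 / t ^ 2 * nsqR φ := by
  set G := majorant A B t with hG
  set c := (1 - (1 - t) ^ (B + 1)) / t
  have hY : PauliBound G c := pauliBound_majorant hBA ht0 (by linarith)
  have hc0 : 0 ≤ c := div_nonneg (by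
    have : (1 - t) ^ (B + 1) ≤ 1 := pow_le_one₀ (by linarith) (by linarith)
    linarith) ht0.le
  have hc1 : c ≤ 1 / t := pauliBound_majorant_le ht0 (by linarith)
  have hn : 0 ≤ nsqR φ := Finset.sum_nonneg fun _ _ => Finset.sum_nonneg fun _ _ => sq_nonneg _
  have hsq : E1 (Gᵀ * G) φ ≤ 1 / t * nsqR φ := by
    have := E1_nonneg (K := G - Gᵀ * G) (fun v => by
      have := majorant_sq_le hBA ht0.le ht v
      simp only [quad, sub_mulVec, dotProduct_sub] at this ⊢
      linarith) φ
    rw [E1_sub] at this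
    linarith [E1_majorant_le hBA ht0 ht hφ]
  have h1 := pauli_tail G hY hφ
  have h2 := pauli_tail' G hY hφ
  have h3 : c * E1 (Gᵀ * G) φ ≤ 1 / t * (1 / t * nsqR φ) :=
    (mul_le_mul_of_nonneg_left hsq hc0).trans
      (mul_le_mul_of_nonneg_right hc1 (by positivity))
  rw [majorant3, E2_add]
  calc _ ≤ 1 / t * (1 / t * nsqR φ) + 1 / t * (1 / t * nsqR φ) :=
        add_le_add (h1.trans h3) (h2.trans h3)
    _ = _ := by ring

/-- One-body tail: a symmetric covariant form bounded below on channel vectors by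
`-ε (1/2) (1-2t)^n` costs at most `ε/t`. -/
theorem E1_tail_lower (hBA : B ≤ A) {t ε : ℝ} (ht0 : 0 < t) (ht : t ≤ 1 / 5) (hε : 0 ≤ ε)
    {K : Matrix (Two A B) (Two A B) ℝ} (hK : Kᵀ = K)
    (h : Intertwines wt2 (raise2 A B) wt2 (raise2 A B) 0 K)
    (hhw : ∀ n ≤ B, -(ε * ((1 / 2) * (1 - 2 * t) ^ n)) * nsq (hwVec A B n)
      ≤ quad K (hwVec A B n))
    {φ : Reduced A B M} (hφ : IsAntiR φ) : -(ε / t) * nsqR φ ≤ E1 K φ := by
  have key := criterion2 (K := K + ε • majorant A B t)
    (by rw [transpose_add, transpose_smul, hK, majorant_transpose])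
    (h.add ((intertwines_majorant hBA t).smul ε)) (L := A + B) (fun n _ _ hnB => by
      have h1 := hhw n hnB
      have h2 : quad (K + ε • majorant A B t) (hwVec A B n)
          = quad K (hwVec A B n) + ε * (majSum A B n t * nsq (hwVec A B n)) := by
        have := quad_majorant_hwVec (A := A) hnB hBA t
        simp only [quad, add_mulVec, smul_mulVec, dotProduct_add, dotProduct_smul, smul_eq_mul]
          at this ⊢
        rw [this]
      rw [h2]
      have h3 := mul_le_mul_of_nonneg_left (mul_le_mul_of_nonneg_right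
        (majSum_lower (A := A) hnB hBA ht0.le ht) (nsq_nonneg (hwVec A B n))) hε
      linarith)
  have h0 := E1_nonneg (K := K + ε • majorant A B t) (fun v => key v fun p hp => absurd hp (by
    have := p.1.isLt; have := p.2.isLt; simp only [wt2]; omega)) φ
  rw [E1_add, E1_smul] at h0
  have h1 := mul_le_mul_of_nonneg_left (E1_majorant_le hBA ht0 ht hφ) hε
  rw [show -(ε / t) * nsqR φ = -(ε * (1 / t * nsqR φ)) by ring]
  linarith

/-- Two-body tail: a symmetric covariant exchange-invariant form bounded below on antisymmetric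
highest weight vectors of weight `m` by `-ε (1/4) (1-2t)^(3m)` costs at most `2ε/t²`. -/
theorem E2_tail_lower (hBA : B ≤ A) {t ε : ℝ} (ht0 : 0 < t) (ht : t ≤ 1 / 5) (hε : 0 ≤ ε)
    {T : Matrix (Three A B) (Three A B) ℝ} (hT : Tᵀ = T)
    (h : Intertwines wt3 (raise3 A B) wt3 (raise3 A B) 0 T)
    (hs : T.submatrix (swapEl A B) (swapEl A B) = T)
    (hhw : ∀ m F, Supp wt3 m F → raise3 A B *ᵥ F = 0 → (∀ a b e, F (a, b, e) = -F (a, e, b)) →
      -(ε * ((1 / 4) * (1 - 2 * t) ^ (3 * m))) * nsq F ≤ quad T F)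
    {φ : Reduced A B M} (hφ : IsAntiR φ) : -(2 * ε / t ^ 2) * nsqR φ ≤ E2 T φ := by
  have key := criterion_anti3 (K := T + ε • majorant3 A B t)
    (by rw [transpose_add, transpose_smul, hT, majorant3_transpose])
    (h.add ((intertwines_majorant3 hBA t).smul ε))
    (by rw [submatrix_add, Pi.add_apply, Pi.add_apply, submatrix_smul, Pi.smul_apply, Pi.smul_apply,
      hs, majorant3_swap])
    (L := A + 2 * B) (fun m _ F hF hJ hanti => by
      have h1 := hhw m F hF hJ hanti
      have h2 := mul_le_mul_of_nonneg_left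
        (majorant3_lower (L := m) hBA ht0.le ht F fun p hp => hF p (by omega)) hε
      simp only [quad, add_mulVec, smul_mulVec, dotProduct_add, dotProduct_smul, smul_eq_mul]
        at h1 h2 ⊢
      linarith)
  have h0 := E2_nonneg (T := T + ε • majorant3 A B t) (fun F hanti => key F (fun p hp => absurd hp
    (by
      have := p.1.isLt; have := p.2.1.isLt; have := p.2.2.isLt; simp only [wt3]; omega)) hanti) hφ
  rw [E2_add, E2_smul] at h0
  have h1 := mul_le_mul_of_nonneg_left (E2_majorant3_le hBA ht0 ht hφ) hε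
  rw [show -(2 * ε / t ^ 2) * nsqR φ = -(ε * (2 / t ^ 2 * nsqR φ)) by ring]
  linarith

end P359
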