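import Vale.Agent.P359.ScalarsEigen

/-!
P359, assembly piece: decay of the one-body eigenvalues
beyond a cutoff (the tail is paid for by the majorant, `MajorantThree`).
-/

namespace P359

/-- `n c^n ≤ η r^n` from one value on. -/
theorem linear_geom_le {c r η : ℝ} {n0 : ℕ} (hn0 : 1 ≤ n0) (hc : 0 ≤ c) (hr : 0 < r)
    (hcr : c * ((n0 : ℝ) + 1) ≤ r * n0) (h0 : (n0 : ℝ) * c ^ n0 ≤ η * r ^ n0) :
    ∀ n, n0 ≤ n → (n : ℝ) * c ^ n ≤ η * r ^ n := by
  intro n hn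
  induction n, hn using Nat.le_induction with
  | base => exact h0
  | succ n hn ih =>
    have hn0' : (0 : ℝ) < n0 := by exact_mod_cast hn0
    have hnn : (n0 : ℝ) ≤ n := by exact_mod_cast hn
    have h1 : c * ((n : ℝ) + 1) ≤ r * n := by
      have : c ≤ r := le_of_mul_le_mul_right (by nlinarith : c * n0 ≤ r * n0) hn0'
      nlinarith
    have h2 : c * ((n : ℝ) + 1) * c ^ n ≤ r * n * c ^ n :=
      mul_le_mul_of_nonneg_right h1 (pow_nonneg hc n)
    have h3 := mul_le_mul_of_nonneg_left ih hr.le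
    push_cast
    rw [pow_succ, pow_succ]
    linarith

/-- The eigenvalues of the exchange kernel beyond `n0` are below `6 η (1/2)(1-2t)^n`. -/
theorem abs_chanEig_tail {Q n0 : ℕ} (hQ : 51 ≤ Q) (hn0 : 1 ≤ n0) {t η : ℝ}
    (ht : t < 1 / 2) (hcr : 51 / 100 * ((n0 : ℝ) + 1) ≤ (1 - 2 * t) * n0)
    (h0 : (n0 : ℝ) * (51 / 100) ^ n0 ≤ η * (1 - 2 * t) ^ n0) {n : ℕ} (hn : n0 ≤ n) (hnQ : n ≤ Q) :
    |chanEig Q n| ≤ 6 * η * ((1 / 2) * (1 - 2 * t) ^ n) := by
  have h1 := abs_chanEig_le hQ hnQ (hn0.trans hn)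
  have h2 := linear_geom_le hn0 (by norm_num) (by linarith) hcr h0 n hn
  linarith

end P359
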