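import Vale.Agent.P359.Basic

/-!
P359, piece D (algebra): the polynomial `∏_{i<j}(X_i-X_j)^3`, its antisymmetry and degrees,
and two divisibility facts used for the kernel of the Hamiltonian.
-/

namespace P359

open Finset MvPolynomial
open scoped BigOperators

/-- `∏_{i<j} (X_i - X_j)^3`. -/
noncomputable def laughlinPoly (N : ℕ) : MvPolynomial (Fin N) ℝ :=
  ∏ i : Fin N, ∏ j ∈ Finset.univ.filter (fun j => i < j),
    (MvPolynomial.X i - MvPolynomial.X j : MvPolynomial (Fin N) ℝ) ^ 3

theorem X_sub_X_ne_zero {N : ℕ} {i j : Fin N} (h : i ≠ j) :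
    (X i - X j : MvPolynomial (Fin N) ℝ) ≠ 0 :=
  sub_ne_zero.mpr fun e => h (X_injective e)

theorem laughlinPoly_ne_zero (N : ℕ) : laughlinPoly N ≠ 0 :=
  prod_ne_zero_iff.mpr fun i _ => prod_ne_zero_iff.mpr fun j hj =>
    pow_ne_zero _ (X_sub_X_ne_zero (ne_of_lt (mem_filter.mp hj).2))

theorem laughlinPoly_eq_det (N : ℕ) :
    laughlinPoly N
      = (Matrix.vandermonde (fun i : Fin N => -(X i : MvPolynomial (Fin N) ℝ))).det ^ 3 := by
  rw [Matrix.det_vandermonde, laughlinPoly, ← prod_pow]
  refine prod_congr rfl fun i _ => ?_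
  rw [← prod_pow]
  refine prod_congr (by ext; simp) fun j _ => ?_
  ring

theorem rename_laughlinPoly {N : ℕ} (σ : Equiv.Perm (Fin N)) :
    rename σ (laughlinPoly N) = ((σ.sign : ℤ) : MvPolynomial (Fin N) ℝ) * laughlinPoly N := by
  rw [laughlinPoly_eq_det, map_pow, AlgHom.map_det]
  have h : (rename σ : MvPolynomial (Fin N) ℝ →ₐ[ℝ] _).mapMatrix
      (Matrix.vandermonde (fun i : Fin N => -(X i : MvPolynomial (Fin N) ℝ)))
      = (Matrix.vandermonde (fun i : Fin N => -(X i : MvPolynomial (Fin N) ℝ))).submatrix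
          σ id := by
    ext i j
    simp [Matrix.vandermonde_apply]
  rw [h, Matrix.det_permute, mul_pow]
  congr 1
  rcases Int.units_eq_one_or σ.sign with e | e <;> simp [e, pow_succ]

theorem degreeOf_X_sub_X {N : ℕ} {a b : Fin N} (h : a ≠ b) (i : Fin N) :
    degreeOf i (X a - X b : MvPolynomial (Fin N) ℝ)
      = (if i = a then 1 else 0) + (if i = b then 1 else 0) := by
  apply le_antisymm
  · refine (degreeOf_sub_le i _ _).trans ?_
    simp only [degreeOf_X]
    exact max_le (by omega) (by omega)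
  · by_cases ha : i = a
    · subst ha
      rw [if_pos rfl, if_neg h]
      have hm : Finsupp.single i 1 ∈ (X i - X b : MvPolynomial (Fin N) ℝ).support := by
        simp [mem_support_iff, coeff_X, Finsupp.single_left_inj, h, h.symm]
      simpa using monomial_le_degreeOf i hm
    · rw [if_neg ha, zero_add]
      by_cases hb : i = b
      · subst hb
        rw [if_pos rfl]
        have hm : Finsupp.single i 1 ∈ (X a - X i : MvPolynomial (Fin N) ℝ).support := by
          simp [mem_support_iff, coeff_X, Finsupp.single_left_inj, h, h.symm]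
        simpa using monomial_le_degreeOf i hm
      · simp [hb]

theorem degreeOf_laughlinPoly {N : ℕ} (i : Fin N) :
    degreeOf i (laughlinPoly N) = 3 * (N - 1) := by
  have h1 : ∀ a : Fin N, degreeOf i (∏ b ∈ univ.filter (fun b => a < b),
        (X a - X b : MvPolynomial (Fin N) ℝ) ^ 3)
      = ∑ b ∈ univ.filter (fun b => a < b),
          3 * ((if i = a then 1 else 0) + (if i = b then 1 else 0)) := by
    intro a
    rw [degreeOf_prod_eq _ _ fun b hb =>
      pow_ne_zero _ (X_sub_X_ne_zero (ne_of_lt (mem_filter.mp hb).2))]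
    refine sum_congr rfl fun b hb => ?_
    have hne := ne_of_lt (mem_filter.mp hb).2
    rw [degreeOf_pow_eq _ _ _ (X_sub_X_ne_zero hne), degreeOf_X_sub_X hne]
  rw [laughlinPoly, degreeOf_prod_eq _ _ fun a _ => prod_ne_zero_iff.mpr fun b hb =>
    pow_ne_zero _ (X_sub_X_ne_zero (ne_of_lt (mem_filter.mp hb).2))]
  simp only [h1, mul_add, sum_add_distrib, ← mul_sum]
  have e1 : ∑ a : Fin N, ∑ b ∈ univ.filter (fun b => a < b), (if i = a then 1 else 0)
      = N - 1 - (i : ℕ) := by
    rw [sum_eq_single i (fun a _ ha => by simp [Ne.symm ha]) (by simp)]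
    simp [show univ.filter (fun b => i < b) = Ioi i by ext; simp]
  have e2 : ∑ a : Fin N, ∑ b ∈ univ.filter (fun b => a < b), (if i = b then 1 else 0)
      = (i : ℕ) := by
    simp only [sum_ite_eq, mem_filter, mem_univ, true_and]
    rw [← sum_filter]
    simp [show univ.filter (fun a => a < i) = Iio i by ext; simp]
  rw [e1, e2]
  have := i.isLt
  omega

/-- Second order expansion modulo a cube. -/
theorem cube_dvd_expand {R : Type*} [CommRing R] (y u : R) : ∀ a : ℕ,
    u ^ 3 ∣ (y + u) ^ a
      - (y ^ a + (a : R) * y ^ (a - 1) * u + (a.choose 2 : R) * y ^ (a - 2) * u ^ 2) := by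
  intro a
  induction a with
  | zero => simp
  | succ a ih =>
    obtain ⟨w, hw⟩ := ih
    refine ⟨w * (y + u) + (a.choose 2 : R) * y ^ (a - 2), ?_⟩
    have e1 : (a : R) * y ^ (a - 1) * y = (a : R) * y ^ a := by
      cases a with
      | zero => simp
      | succ a => simp [pow_succ, mul_assoc]
    have e2 : (a.choose 2 : R) * y ^ (a - 2) * y = (a.choose 2 : R) * y ^ (a - 1) := by
      match a with
      | 0 => simp
      | 1 => simp [Nat.choose]
      | a + 2 => simp [pow_succ, mul_assoc]
    have e3 : ((a + 1).choose 2 : R) = (a : R) + (a.choose 2 : R) := by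
      rw [Nat.choose_succ_succ', Nat.choose_one_right, Nat.cast_add]
    rw [Nat.add_sub_cancel, show a + 1 - 2 = a - 1 by omega, e3]
    push_cast
    linear_combination (y + u) * hw + u * e1 + u ^ 2 * e2

theorem irreducible_X_sub_X {N : ℕ} {i j : Fin N} (h : i ≠ j) :
    Irreducible (X i - X j : MvPolynomial (Fin N) ℝ) := by
  have hne := X_sub_X_ne_zero h
  have hc : coeff (Finsupp.single i 1) (X i - X j : MvPolynomial (Fin N) ℝ) = 1 := by
    simp [coeff_X, Finsupp.single_left_inj, h, h.symm]
  refine irreducible_of_totalDegree_eq_one ?_ fun x hx => ?_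
  · refine le_antisymm ((totalDegree_sub _ _).trans (by simp)) ?_
    have hm : Finsupp.single i 1 ∈ (X i - X j : MvPolynomial (Fin N) ℝ).support := by
      rw [mem_support_iff, hc]; norm_num
    simpa using le_totalDegree hm
  · refine isUnit_iff_ne_zero.mpr fun h0 => ?_
    have := hx (Finsupp.single i 1)
    rw [hc, h0, zero_dvd_iff] at this
    norm_num at this

theorem isRelPrime_pairs {N : ℕ} {i j k l : Fin N} (hij : i < j) (hkl : k < l)
    (hne : i ≠ k ∨ j ≠ l) :
    IsRelPrime ((X i - X j : MvPolynomial (Fin N) ℝ) ^ 3) ((X k - X l) ^ 3) := by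
  refine IsRelPrime.pow ((irreducible_X_sub_X hij.ne).isRelPrime_iff_not_dvd.mpr fun hd => ?_)
  let v : Fin N → ℝ := fun m => if m = j then ((i : ℕ) : ℝ) else ((m : ℕ) : ℝ)
  have h0 := map_dvd (eval v) hd
  have hv : eval v (X i - X j : MvPolynomial (Fin N) ℝ) = 0 := by
    simp [v, hij.ne]
  rw [hv, zero_dvd_iff, map_sub, eval_X, eval_X, sub_eq_zero] at h0
  have hij' : (i : ℕ) < j := hij
  have hkl' : (k : ℕ) < l := hkl
  simp only [v] at h0
  split_ifs at h0 with e1 e2 e2
  · subst e1; subst e2; omega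
  · have : (i : ℕ) = l := by exact_mod_cast h0
    subst e1
    omega
  · have : (k : ℕ) = i := by exact_mod_cast h0
    subst e2
    rcases hne with h | h
    · exact h (Fin.ext this.symm)
    · exact h rfl
  · have : (k : ℕ) = l := by exact_mod_cast h0
    omega

theorem laughlinPoly_dvd {N : ℕ} {P : MvPolynomial (Fin N) ℝ}
    (h : ∀ i j : Fin N, i < j → (X i - X j) ^ 3 ∣ P) : laughlinPoly N ∣ P := by
  rw [laughlinPoly, prod_sigma']
  refine Finset.prod_dvd_of_isRelPrime (fun p hp q hq hpq => ?_) fun p hp =>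
    h p.1 p.2 (mem_filter.mp (mem_sigma.mp hp).2).2
  refine isRelPrime_pairs (mem_filter.mp (mem_sigma.mp hp).2).2
    (mem_filter.mp (mem_sigma.mp hq).2).2 ?_
  by_contra hc
  push Not at hc
  exact hpq (Sigma.ext hc.1 (heq_of_eq hc.2))

/-- If no variable occurs, the polynomial is a constant. -/
theorem eq_C_of_degreeOf_zero {N : ℕ} {P : MvPolynomial (Fin N) ℝ}
    (h : ∀ i, degreeOf i P = 0) : P = C (coeff 0 P) := by
  ext d
  rw [coeff_C]
  by_cases hd : 0 = d
  · simp [← hd]
  · rw [if_neg hd]
    by_contra hne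
    apply hd
    ext i
    have := monomial_le_degreeOf i (mem_support_iff.mpr hne)
    rw [h i] at this
    simp only [Finsupp.coe_zero, Pi.zero_apply]
    omega

end P359
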