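import Vale.Agent.P359.Basic

/-!
P359, piece A: the pair map is an isometry and factors the pair projection.
-/

namespace P359

open Matrix Finset
open scoped BigOperators

lemma antidiag_anti_zero (m : ℕ) (F : ℕ → ℝ) :
    ∑ p ∈ antidiagonal m, ((p.1 : ℝ) - p.2) * (F p.1 * F p.2) = 0 := by
  have h := Finset.Nat.sum_antidiagonal_swap (n := m)
    (f := fun p : ℕ × ℕ => ((p.1 : ℝ) - p.2) * (F p.1 * F p.2))
  have e : ∑ p ∈ antidiagonal m, ((p.2 : ℝ) - p.1) * (F p.2 * F p.1) =
      -∑ p ∈ antidiagonal m, ((p.1 : ℝ) - p.2) * (F p.1 * F p.2) := by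
    rw [← Finset.sum_neg_distrib]
    exact Finset.sum_congr rfl fun p _ => by ring
  simp only [Prod.fst_swap, Prod.snd_swap] at h
  rw [e] at h
  linarith

lemma pair_norm_identity (P m : ℕ) :
    ∑ p ∈ antidiagonal (m + 1),
      ((p.1 : ℝ) - p.2) ^ 2 * ((P + 1).choose p.1 * (P + 1).choose p.2) =
      2 * (P + 1) * ((P + P).choose m : ℝ) := by
  let F : ℕ → ℝ := fun i => ((P + 1).choose i : ℝ)
  let G : ℕ → ℝ := fun i => (P.choose i : ℝ)
  have hs : ∑ p ∈ antidiagonal (m + 1), ((p.1 : ℝ) - p.2) ^ 2 * (F p.1 * F p.2) =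
      2 * ∑ p ∈ antidiagonal (m + 1), (p.1 : ℝ) * ((p.1 : ℝ) - p.2) * (F p.1 * F p.2) := by
    have h := Finset.Nat.sum_antidiagonal_swap (n := m + 1)
      (f := fun p : ℕ × ℕ => (p.1 : ℝ) * ((p.1 : ℝ) - p.2) * (F p.1 * F p.2))
    simp only [Prod.fst_swap, Prod.snd_swap] at h
    rw [two_mul]
    nth_rw 1 [← h]
    rw [← Finset.sum_add_distrib]
    exact Finset.sum_congr rfl fun p _ => by ring
  have habs : ∀ i : ℕ, ((i : ℝ) + 1) * F (i + 1) = (P + 1) * G i := by
    intro i
    have := congrArg (fun t : ℕ => (t : ℝ)) (Nat.add_one_mul_choose_eq P i)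
    simp only [F, G]
    push_cast at this
    linear_combination -this
  have h1 : ∑ p ∈ antidiagonal (m + 1), (p.1 : ℝ) * ((p.1 : ℝ) - p.2) * (F p.1 * F p.2) =
      (P + 1) * ∑ p ∈ antidiagonal m, ((p.1 : ℝ) + 1 - p.2) * (G p.1 * F p.2) := by
    rw [Finset.Nat.sum_antidiagonal_succ, Finset.mul_sum]
    simp only [Nat.cast_zero, zero_mul, zero_add, Nat.cast_add, Nat.cast_one]
    refine Finset.sum_congr rfl fun p _ => ?_
    linear_combination (((p.1 : ℝ) + 1 - p.2) * F p.2) * habs p.1
  have h2 : ∑ p ∈ antidiagonal m, ((p.1 : ℝ) + 1 - p.2) * (G p.1 * F p.2) =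
      ∑ p ∈ antidiagonal m, G p.1 * G p.2 := by
    rcases m with - | k
    · simp [F, G]
    · rw [Finset.Nat.sum_antidiagonal_succ', Finset.Nat.sum_antidiagonal_succ']
      have hF : ∀ j, F (j + 1) = G j + G (j + 1) := fun j => by
        simp [F, G, Nat.choose_succ_succ']
      have z1 := antidiag_anti_zero k G
      have z2 := antidiag_anti_zero (k + 1) G
      rw [Finset.Nat.sum_antidiagonal_succ'] at z2
      simp only [hF, Nat.cast_add, Nat.cast_one, Nat.cast_zero] at z2 ⊢
      have hF0 : F 0 = G 0 := by simp [F, G]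
      rw [hF0]
      have e : ∀ p : ℕ × ℕ, ((p.1 : ℝ) + 1 - (p.2 + 1)) * (G p.1 * (G p.2 + G (p.2 + 1))) =
          ((p.1 : ℝ) - p.2) * (G p.1 * G p.2) + ((p.1 : ℝ) - (p.2 + 1)) * (G p.1 * G (p.2 + 1))
            + G p.1 * G (p.2 + 1) := fun p => by ring
      simp only [e, Finset.sum_add_distrib, z1]
      linear_combination z2
  have h3 : ∑ p ∈ antidiagonal m, G p.1 * G p.2 = ((P + P).choose m : ℝ) := by
    rw [Nat.add_choose_eq]
    push_cast
    rfl
  simp only [F] at hs
  rw [hs, h1, h2, h3]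
  ring

lemma pairIso_orth {Q : ℕ} (hQ : 1 ≤ Q) (m n : Fin (2 * Q - 2 + 1)) :
    ∑ p : Two Q Q, pairIso Q p m * pairIso Q p n = if m = n then 1 else 0 := by
  by_cases hmn : m = n
  · subst hmn
    rw [if_pos rfl]
    obtain ⟨P, rfl⟩ : ∃ P, Q = P + 1 := ⟨Q - 1, by omega⟩
    have hm := m.isLt
    set D : ℝ := (2 * ((P + 1 : ℕ) : ℝ)) * ((2 * (P + 1) - 2).choose (m : ℕ) : ℝ) with hD
    have hpos : 0 < D := by
      rw [hD]
      have : 0 < (2 * (P + 1) - 2).choose (m : ℕ) := Nat.choose_pos (by omega)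
      positivity
    have e : ∀ p : Two (P + 1) (P + 1), pairIso (P + 1) p m * pairIso (P + 1) p m =
        (if ((p.1 : ℕ), (p.2 : ℕ)) ∈ antidiagonal ((m : ℕ) + 1) then
          (((p.1 : ℕ) : ℝ) - (p.2 : ℕ)) ^ 2 *
            ((P + 1).choose (p.1 : ℕ) * (P + 1).choose (p.2 : ℕ)) else 0) / D := by
      intro p
      by_cases h : (p.1 : ℕ) + p.2 = (m : ℕ) + 1
      · rw [pairIso, if_pos h, if_pos (mem_antidiagonal.mpr h), div_mul_div_comm,
          Real.mul_self_sqrt hpos.le, g1]
        congr 1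
        rw [mul_mul_mul_comm, Real.mul_self_sqrt (by positivity)]
        ring
      · rw [pairIso, if_neg h, if_neg (fun c => h (mem_antidiagonal.mp c))]
        simp
    simp only [e, ← Finset.sum_div]
    rw [div_eq_one_iff_eq hpos.ne', Fintype.sum_prod_type]
    have hcut : ∀ i : ℕ, P + 1 < i → ((P + 1).choose i : ℝ) = 0 := fun i hi => by
      rw [Nat.choose_eq_zero_of_lt hi]; simp
    calc _ = ∑ a ∈ range (P + 2), ∑ b ∈ range (P + 2),
          if (a, b) ∈ antidiagonal ((m : ℕ) + 1) then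
            ((a : ℝ) - b) ^ 2 * ((P + 1).choose a * (P + 1).choose b) else 0 := by
            rw [← Fin.sum_univ_eq_sum_range]
            exact Finset.sum_congr rfl fun a _ => by rw [← Fin.sum_univ_eq_sum_range]
      _ = ∑ p ∈ (range (P + 2) ×ˢ range (P + 2)).filter (· ∈ antidiagonal ((m : ℕ) + 1)),
            ((p.1 : ℝ) - p.2) ^ 2 * ((P + 1).choose p.1 * (P + 1).choose p.2) := by
            rw [Finset.sum_filter, Finset.sum_product]
      _ = ∑ p ∈ antidiagonal ((m : ℕ) + 1),
            ((p.1 : ℝ) - p.2) ^ 2 * ((P + 1).choose p.1 * (P + 1).choose p.2) := by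
            refine Finset.sum_subset (fun p hp => (Finset.mem_filter.mp hp).2) fun p hp h => ?_
            simp only [Finset.mem_filter, Finset.mem_product, Finset.mem_range, hp, and_true] at h
            rcases not_and_or.mp h with h | h
            · simp [hcut p.1 (by omega)]
            · simp [hcut p.2 (by omega)]
      _ = D := by
            rw [pair_norm_identity, hD]
            generalize (m : ℕ) = k
            rw [show 2 * (P + 1) - 2 = P + P by omega]
            push_cast
            ring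
  · rw [if_neg hmn]
    refine Finset.sum_eq_zero fun p _ => ?_
    simp only [pairIso]
    split_ifs with h1 h2
    · exact absurd (Fin.ext (by omega)) hmn
    all_goals simp

/-- The pair projection factors through the pair map. -/
lemma P1_eq_sum {Q : ℕ} (hQ : 1 ≤ Q) (a b c d : Fin (Q + 1)) :
    P1 Q a b c d = ∑ m, pairIso Q (a, b) m * pairIso Q (c, d) m := by
  have hdiag : ∀ u v : Fin (Q + 1), ∀ t, (u : ℕ) + v = t → (t = 0 ∨ 2 * Q ≤ t) →
      g1 Q u v = 0 := by
    intro u v t h1 h2
    have := u.isLt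
    have := v.isLt
    have e : (u : ℕ) = v := by omega
    simp [g1, e]
  by_cases h : (a : ℕ) + b = c + d
  · rw [P1, if_pos h]
    by_cases hr : 1 ≤ (a : ℕ) + b ∧ (a : ℕ) + b < 2 * Q
    · rw [Finset.sum_eq_single (⟨(a : ℕ) + b - 1, by omega⟩ : Fin (2 * Q - 2 + 1))]
      · simp only [pairIso]
        rw [if_pos (by omega), if_pos (by omega), div_mul_div_comm,
          Real.mul_self_sqrt (by positivity)]
      · intro m _ hm
        rw [pairIso, if_neg, zero_mul]
        intro e
        simp only at e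
        exact hm (Fin.ext (by simp only; omega))
      · intro hn
        exact absurd (Finset.mem_univ _) hn
    · have z : g1 Q a b = 0 := hdiag a b _ rfl (by omega)
      simp [pairIso, z]
  · rw [P1, if_neg h]
    refine (Finset.sum_eq_zero fun m _ => ?_).symm
    simp only [pairIso]
    split_ifs with h1 h2
    · exact absurd (by omega) h
    all_goals simp

lemma pairIso_swap {Q : ℕ} (a b : Fin (Q + 1)) (m : Fin (2 * Q - 2 + 1)) :
    pairIso Q (b, a) m = -pairIso Q (a, b) m := by
  have hg : g1 Q b a = -g1 Q a b := by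
    simp only [g1]
    rw [mul_comm (Q.choose (b : ℕ) : ℝ)]
    ring
  simp only [pairIso, hg, add_comm (b : ℕ)]
  split_ifs <;> ring

end P359
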