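import Vale.Agent.P359.ReduceBase
import Vale.Agent.P359.PairOrth

/-!
P359, piece A1: the energy identities of an antisymmetric state and its pair reduction.
-/

namespace P359

open Matrix
open scoped BigOperators

variable {Q M : ℕ}

lemma succ_succ_ne_one (l : Fin M) : l.succ.succ ≠ (1 : Fin (M + 2)) := fun e =>
  Fin.succ_ne_zero l (Fin.succ_injective _ (e.trans Fin.succ_zero_eq_one.symm))

lemma reduce_cons_swap01 {ψ : Config Q (M + 2) → ℝ} (hψ : IsAnti ψ) (a b : Fin (Q + 1))
    (x : Config Q M) :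
    ψ (Fin.cons b (Fin.cons a x)) = -ψ (Fin.cons a (Fin.cons b x)) := by
  rw [← anti_swap hψ (show (0 : Fin (M + 2)) ≠ 1 from Fin.zero_ne_one)]
  refine congrArg ψ (funext fun i => ?_)
  refine Fin.cases ?_ (fun i => Fin.cases ?_ (fun l => ?_) i) i
  · rfl
  · rfl
  · rw [Function.comp_apply, Equiv.swap_apply_of_ne_of_ne (Fin.succ_ne_zero _)
      (succ_succ_ne_one l)]
    rfl

lemma reduce_cons_swap1k {ψ : Config Q (M + 2) → ℝ} (hψ : IsAnti ψ) (c b d : Fin (Q + 1))
    (x : Config Q M) (k : Fin M) :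
    ψ (Fin.cons c (Fin.cons b (Function.update x k d))) =
      -ψ (Fin.cons c (Fin.cons d (Function.update x k b))) := by
  have hne : (1 : Fin (M + 2)) ≠ k.succ.succ := (succ_succ_ne_one k).symm
  rw [← anti_swap hψ hne]
  refine congrArg ψ (funext fun i => ?_)
  refine Fin.cases ?_ (fun i => Fin.cases ?_ (fun l => ?_) i) i
  · rw [Function.comp_apply, Equiv.swap_apply_of_ne_of_ne Fin.zero_ne_one
      (Fin.succ_ne_zero _).symm]
    rfl
  · show _ = (Fin.cons c (Fin.cons d (Function.update x k b)) : Config Q (M + 2))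
      (Equiv.swap 1 k.succ.succ 1)
    rw [Equiv.swap_apply_left, Fin.cons_succ, Fin.cons_zero, Fin.cons_succ, Fin.cons_succ,
      Function.update_self]
  · by_cases h : l = k
    · subst h
      show _ = (Fin.cons c (Fin.cons d (Function.update x l b)) : Config Q (M + 2))
        (Equiv.swap 1 l.succ.succ l.succ.succ)
      rw [Equiv.swap_apply_right, show (1 : Fin (M + 2)) = Fin.succ 0 from rfl, Fin.cons_succ,
        Fin.cons_succ, Function.update_self, Fin.cons_succ, Fin.cons_zero]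
    · rw [Function.comp_apply, Equiv.swap_apply_of_ne_of_ne (succ_succ_ne_one l)
        (fun e => h (Fin.succ_injective _ (Fin.succ_injective _ e)))]
      rw [Fin.cons_succ, Fin.cons_succ, Fin.cons_succ, Fin.cons_succ, Function.update_of_ne h,
        Function.update_of_ne h]

lemma isAntiR_reduce {ψ : Config Q (M + 2) → ℝ} (hψ : IsAnti ψ) : IsAntiR (reduce ψ) := by
  intro m σ x
  let τ : Equiv.Perm (Fin (M + 2)) :=
    Equiv.Perm.decomposeFin.symm (0, Equiv.Perm.decomposeFin.symm (0, σ))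
  have hs : τ.sign = σ.sign := by
    simp [τ, Equiv.Perm.decomposeFin.symm_sign]
  have hc : ∀ a b, (Fin.cons a (Fin.cons b (x ∘ σ)) : Config Q (M + 2)) =
      (Fin.cons a (Fin.cons b x) : Config Q (M + 2)) ∘ τ := by
    intro a b
    funext i
    refine Fin.cases ?_ (fun i => Fin.cases ?_ (fun l => ?_) i) i
    · simp [τ]
    · simp [τ]
    · simp [τ]
  simp only [reduce, hc, hψ τ, hs, Finset.mul_sum]
  exact Finset.sum_congr rfl fun a _ => Finset.sum_congr rfl fun b _ => by ring

/-- The exchange term of one electron with the pair. -/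
noncomputable def swapTerm (φ : Reduced (2 * Q - 2) Q M) (k : Fin M) (m : Fin (2 * Q - 2 + 1))
    (x : Config Q M) : ℝ :=
  ∑ q : Two (2 * Q - 2) Q, swapK Q (m, x k) q * φ q.1 (Function.update x k q.2)

/-- The energy of two electrons outside the pair. -/
noncomputable def restTerm (φ : Reduced (2 * Q - 2) Q M) (k l : Fin M)
    (m : Fin (2 * Q - 2 + 1)) (x : Config Q M) : ℝ :=
  pairOp k l (φ m) x

lemma pairOp_zero_one (ψ : Config Q (M + 2) → ℝ) (a b : Fin (Q + 1)) (x : Config Q M) :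
    pairOp 0 1 ψ (Fin.cons a (Fin.cons b x)) =
      ∑ c : Fin (Q + 1), ∑ d : Fin (Q + 1), P1 Q a b c d * ψ (Fin.cons c (Fin.cons d x)) := by
  refine Finset.sum_congr rfl fun c _ => Finset.sum_congr rfl fun d _ => ?_
  rw [upd2, Fin.update_cons_zero, show (1 : Fin (M + 2)) = Fin.succ 0 from rfl,
    ← Fin.cons_update, Fin.update_cons_zero]
  rfl

lemma pairOp_zero_succ (ψ : Config Q (M + 2) → ℝ) (a b : Fin (Q + 1)) (x : Config Q M)
    (k : Fin M) :
    pairOp 0 k.succ.succ ψ (Fin.cons a (Fin.cons b x)) =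
      ∑ c : Fin (Q + 1), ∑ d : Fin (Q + 1), P1 Q a (x k) c d * ψ (Fin.cons c (Fin.cons b (Function.update x k d))) := by
  refine Finset.sum_congr rfl fun c _ => Finset.sum_congr rfl fun d _ => ?_
  rw [upd2, Fin.update_cons_zero, ← Fin.cons_update, ← Fin.cons_update]
  simp

lemma pairOp_one_succ (ψ : Config Q (M + 2) → ℝ) (a b : Fin (Q + 1)) (x : Config Q M)
    (k : Fin M) :
    pairOp 1 k.succ.succ ψ (Fin.cons a (Fin.cons b x)) =
      ∑ c : Fin (Q + 1), ∑ d : Fin (Q + 1), P1 Q b (x k) c d * ψ (Fin.cons a (Fin.cons c (Function.update x k d))) := by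
  refine Finset.sum_congr rfl fun c _ => Finset.sum_congr rfl fun d _ => ?_
  rw [upd2, show (1 : Fin (M + 2)) = Fin.succ 0 from rfl, ← Fin.cons_update,
    Fin.update_cons_zero, ← Fin.cons_update, ← Fin.cons_update]
  simp

lemma pairOp_succ_succ (ψ : Config Q (M + 2) → ℝ) (a b : Fin (Q + 1)) (x : Config Q M)
    (k l : Fin M) :
    pairOp k.succ.succ l.succ.succ ψ (Fin.cons a (Fin.cons b x)) =
      ∑ c : Fin (Q + 1), ∑ d : Fin (Q + 1), P1 Q (x k) (x l) c d * ψ (Fin.cons a (Fin.cons b (upd2 x k c l d))) := by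
  refine Finset.sum_congr rfl fun c _ => Finset.sum_congr rfl fun d _ => ?_
  simp [upd2, Fin.cons_update]

lemma HR_cons (ψ : Config Q (M + 2) → ℝ) (a b : Fin (Q + 1)) (x : Config Q M) :
    HR Q (M + 2) ψ (Fin.cons a (Fin.cons b x)) =
      pairOp 0 1 ψ (Fin.cons a (Fin.cons b x))
        + ∑ k : Fin M, pairOp 0 k.succ.succ ψ (Fin.cons a (Fin.cons b x))
        + ∑ k : Fin M, pairOp 1 k.succ.succ ψ (Fin.cons a (Fin.cons b x))
        + ∑ k : Fin M, ∑ l : Fin M,
            if k < l then pairOp k.succ.succ l.succ.succ ψ (Fin.cons a (Fin.cons b x)) else 0 := by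
  rw [HR_apply]
  simp only [Fin.sum_univ_succ (n := M + 1), Fin.sum_univ_succ (n := M), lt_irrefl, if_false,
    Fin.succ_pos, if_true, Fin.not_lt_zero, Fin.succ_lt_succ_iff, zero_add,
    Fin.succ_zero_eq_one]
  have h01 : (0 : Fin (M + 2)) < 1 := Fin.succ_zero_eq_one ▸ Fin.succ_pos 0
  have hno : ∀ l : Fin M, ¬ l.succ.succ < (1 : Fin (M + 2)) := fun l => by simp [Fin.lt_def]
  simp only [h01, hno, if_true, if_false, zero_add]
  ring

lemma contract_zero_one (hQ : 1 ≤ Q) (ψ : Config Q (M + 2) → ℝ) (m : Fin (2 * Q - 2 + 1))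
    (x : Config Q M) :
    (∑ a, ∑ b, pairIso Q (a, b) m * pairOp 0 1 ψ (Fin.cons a (Fin.cons b x))) =
      reduce ψ m x := by
  have e : ∀ a b, pairOp 0 1 ψ (Fin.cons a (Fin.cons b x)) =
      ∑ n, pairIso Q (a, b) n * reduce ψ n x := by
    intro a b
    simp only [pairOp_zero_one, P1_eq_sum hQ, reduce, Finset.mul_sum, Finset.sum_mul, mul_assoc]
    conv_rhs => rw [Finset.sum_comm]; arg 2; ext c; rw [Finset.sum_comm]
  simp only [e, Finset.mul_sum, ← mul_assoc]
  conv_lhs => arg 2; ext a; rw [Finset.sum_comm]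
  rw [Finset.sum_comm]
  simp only [← Finset.sum_mul]
  have ho : ∀ n, (∑ a, ∑ b, pairIso Q (a, b) m * pairIso Q (a, b) n) =
      if m = n then 1 else 0 := fun n => by
    rw [← pairIso_orth hQ m n, Fintype.sum_prod_type]
  simp [ho]

lemma contract_zero_succ (hQ : 1 ≤ Q) {ψ : Config Q (M + 2) → ℝ} (hψ : IsAnti ψ)
    (m : Fin (2 * Q - 2 + 1)) (x : Config Q M) (k : Fin M) :
    (∑ a, ∑ b, pairIso Q (a, b) m * pairOp 0 k.succ.succ ψ (Fin.cons a (Fin.cons b x))) =
      -swapTerm (reduce ψ) k m x := by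
  have e : ∀ a b, pairOp 0 k.succ.succ ψ (Fin.cons a (Fin.cons b x)) =
      -∑ n, pairIso Q (a, x k) n * reduce ψ n (Function.update x k b) := by
    intro a b
    simp only [pairOp_zero_succ, P1_eq_sum hQ, reduce, Finset.mul_sum, Finset.sum_mul,
      mul_assoc, ← Finset.sum_neg_distrib]
    conv_rhs => rw [Finset.sum_comm]; arg 2; ext c; rw [Finset.sum_comm]
    refine Finset.sum_congr rfl fun c _ => Finset.sum_congr rfl fun d _ =>
      Finset.sum_congr rfl fun n _ => ?_
    rw [reduce_cons_swap1k hψ c b d x k]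
    ring
  simp only [e, mul_neg, Finset.sum_neg_distrib, swapTerm, Fintype.sum_prod_type, swapK,
    Finset.sum_mul, Finset.mul_sum, ← mul_assoc]
  conv_rhs => arg 1; arg 2; ext n; rw [Finset.sum_comm]
  conv_rhs => arg 1; rw [Finset.sum_comm]; arg 2; ext a; rw [Finset.sum_comm]

lemma contract_one_succ (hQ : 1 ≤ Q) {ψ : Config Q (M + 2) → ℝ} (hψ : IsAnti ψ)
    (m : Fin (2 * Q - 2 + 1)) (x : Config Q M) (k : Fin M) :
    (∑ a, ∑ b, pairIso Q (a, b) m * pairOp 1 k.succ.succ ψ (Fin.cons a (Fin.cons b x))) =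
      -swapTerm (reduce ψ) k m x := by
  rw [← contract_zero_succ hQ hψ]
  conv_rhs => rw [Finset.sum_comm]
  refine Finset.sum_congr rfl fun a _ => Finset.sum_congr rfl fun b _ => ?_
  rw [pairIso_swap a b m, pairOp_one_succ, pairOp_zero_succ, Finset.mul_sum, Finset.mul_sum]
  refine Finset.sum_congr rfl fun c _ => ?_
  rw [Finset.mul_sum, Finset.mul_sum]
  refine Finset.sum_congr rfl fun d _ => ?_
  rw [reduce_cons_swap01 hψ a c]
  ring

lemma contract_succ_succ (ψ : Config Q (M + 2) → ℝ) (m : Fin (2 * Q - 2 + 1)) (x : Config Q M)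
    (k l : Fin M) :
    (∑ a, ∑ b, pairIso Q (a, b) m *
        pairOp k.succ.succ l.succ.succ ψ (Fin.cons a (Fin.cons b x))) =
      restTerm (reduce ψ) k l m x := by
  simp only [pairOp_succ_succ]
  simp only [restTerm, pairOp, reduce, Finset.mul_sum]
  conv_lhs => arg 2; ext a; rw [Finset.sum_comm]; arg 2; ext c; rw [Finset.sum_comm]
  conv_lhs => rw [Finset.sum_comm]; arg 2; ext c; rw [Finset.sum_comm]
  refine Finset.sum_congr rfl fun c _ => Finset.sum_congr rfl fun d _ =>
    Finset.sum_congr rfl fun a _ => Finset.sum_congr rfl fun b _ => ?_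
  ring

lemma reduce_HR (hQ : 1 ≤ Q) {ψ : Config Q (M + 2) → ℝ} (hψ : IsAnti ψ)
    (m : Fin (2 * Q - 2 + 1)) (x : Config Q M) :
    reduce (HR Q (M + 2) ψ) m x = reduce ψ m x - 2 * ∑ k, swapTerm (reduce ψ) k m x
      + ∑ k, ∑ l, if k < l then restTerm (reduce ψ) k l m x else 0 := by
  conv_lhs => unfold reduce
  simp only [HR_cons, mul_add, Finset.sum_add_distrib, Finset.mul_sum, mul_ite, mul_zero]
  rw [contract_zero_one hQ]
  have h1 : ∀ (F : Fin (Q + 1) → Fin (Q + 1) → Fin M → ℝ),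
      (∑ a, ∑ b, ∑ k, F a b k) = ∑ k, ∑ a, ∑ b, F a b k := by
    intro F
    conv_lhs => arg 2; ext a; rw [Finset.sum_comm]
    exact Finset.sum_comm
  rw [h1, h1, h1]
  simp only [contract_zero_succ hQ hψ, contract_one_succ hQ hψ]
  have h2 : ∀ k, (∑ a, ∑ b, ∑ l, if k < l then pairIso Q (a, b) m *
      pairOp k.succ.succ l.succ.succ ψ (Fin.cons a (Fin.cons b x)) else 0) =
      ∑ l, if k < l then restTerm (reduce ψ) k l m x else 0 := by
    intro k
    rw [h1]
    refine Finset.sum_congr rfl fun l _ => ?_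
    by_cases h : k < l
    · simp only [if_pos h]
      exact contract_succ_succ ψ m x k l
    · simp [h]
  simp only [h2, Finset.sum_neg_distrib, ← Finset.mul_sum]
  ring

lemma energy_pairOp (hQ : 1 ≤ Q) (η ψ : Config Q (M + 2) → ℝ) :
    ∑ z, η z * pairOp 0 1 ψ z = ∑ m, ∑ x, reduce η m x * reduce ψ m x := by
  simp only [sum_cons, pairOp_zero_one, P1_eq_sum hQ, reduce, Finset.mul_sum, Finset.sum_mul]
  calc _ = ∑ a : Fin (Q + 1), ∑ b : Fin (Q + 1), ∑ x : Config Q M,
        ∑ m : Fin (2 * Q - 2 + 1), (pairIso Q (a, b) m * η (Fin.cons a (Fin.cons b x))) *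
          ∑ c, ∑ d, pairIso Q (c, d) m * ψ (Fin.cons c (Fin.cons d x)) := by
        refine Finset.sum_congr rfl fun a _ => Finset.sum_congr rfl fun b _ =>
          Finset.sum_congr rfl fun x _ => ?_
        simp only [Finset.mul_sum]
        conv_rhs => rw [Finset.sum_comm]; arg 2; ext c; rw [Finset.sum_comm]
        refine Finset.sum_congr rfl fun c _ => Finset.sum_congr rfl fun d _ =>
          Finset.sum_congr rfl fun n _ => ?_
        ring
    _ = _ := by
        conv_lhs => arg 2; ext a; arg 2; ext b; rw [Finset.sum_comm]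
        conv_lhs => arg 2; ext a; rw [Finset.sum_comm]; arg 2; ext m; rw [Finset.sum_comm]
        conv_lhs => rw [Finset.sum_comm]; arg 2; ext m; rw [Finset.sum_comm]
        refine Finset.sum_congr rfl fun m _ => Finset.sum_congr rfl fun x _ => ?_
        simp only [← Finset.sum_mul, ← Finset.mul_sum]

/-- A1: energy and squared energy through the pair reduction. -/
theorem reduce_energy (hQ : 2 ≤ Q) {ψ : Config Q (M + 2) → ℝ} (hψ : IsAnti ψ) :
    IsAntiR (reduce ψ) ∧
      ψ ⬝ᵥ HR Q (M + 2) ψ = ((M + 2).choose 2 : ℝ) * nsqR (reduce ψ) ∧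
      nsq (HR Q (M + 2) ψ) = ((M + 2).choose 2 : ℝ) * (nsqR (reduce ψ)
        - 2 * E1 (swapK Q) (reduce ψ) + (1 / 2) * E2 (restK (2 * Q - 2) Q) (reduce ψ)) := by
  have hQ1 : 1 ≤ Q := by omega
  refine ⟨isAntiR_reduce hψ, ?_, ?_⟩
  · rw [dotProduct, sum_HR_eq hψ hψ, energy_pairOp hQ1]
    simp [nsqR, sq]
  · rw [nsq, dotProduct, sum_HR_eq (HR_anti hψ) hψ, energy_pairOp hQ1]
    congr 1
    set φ := reduce ψ with hφ
    simp only [reduce_HR hQ1 hψ, add_mul, sub_mul, Finset.sum_add_distrib,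
      Finset.sum_sub_distrib, ← hφ]
    have t1 : ∑ m, ∑ x, φ m x * φ m x = nsqR φ := by simp [nsqR, sq]
    have t2 : ∑ m, ∑ x, (2 * ∑ k, swapTerm φ k m x) * φ m x = 2 * E1 (swapK Q) φ := by
      simp only [E1, swapTerm, Finset.mul_sum, Finset.sum_mul]
      conv_rhs => rw [Finset.sum_comm]; arg 2; ext m; rw [Finset.sum_comm]
      refine Finset.sum_congr rfl fun m _ => Finset.sum_congr rfl fun x _ =>
        Finset.sum_congr rfl fun k _ => Finset.sum_congr rfl fun q _ => ?_
      ring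
    let R : Fin M → Fin M → ℝ := fun k l => ∑ m, ∑ x, φ m x * restTerm φ k l m x
    have hE : E2 (restK (2 * Q - 2) Q) φ =
        ∑ k, ∑ l ∈ Finset.univ.filter (fun l => l ≠ k), R k l := by
      refine Finset.sum_congr rfl fun k _ => Finset.sum_congr rfl fun l _ =>
        Finset.sum_congr rfl fun m _ => Finset.sum_congr rfl fun x _ => ?_
      simp only [restTerm, pairOp, restK, Fintype.sum_prod_type, Finset.mul_sum]
      rw [Finset.sum_eq_single m]
      · exact Finset.sum_congr rfl fun c _ => Finset.sum_congr rfl fun d _ => by simp [mul_assoc]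
      · intro n _ hn
        simp [Ne.symm hn]
      · simp
    have hR : ∀ k l, k ≠ l → R l k = R k l := fun k l h =>
      Finset.sum_congr rfl fun m _ => Finset.sum_congr rfl fun x _ => by
        rw [restTerm, restTerm, pairOp_comm h]
    have t3 : ∑ m, ∑ x, (∑ k, ∑ l, if k < l then restTerm φ k l m x else 0) * φ m x =
        ∑ k, ∑ l, if k < l then R k l else 0 := by
      simp only [Finset.sum_mul, ite_mul, zero_mul]
      conv_lhs => arg 2; ext m; rw [Finset.sum_comm]; arg 2; ext k; rw [Finset.sum_comm]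
      conv_lhs => rw [Finset.sum_comm]; arg 2; ext k; rw [Finset.sum_comm]
      refine Finset.sum_congr rfl fun k _ => Finset.sum_congr rfl fun l _ => ?_
      by_cases h : k < l
      · simp only [if_pos h, R]
        exact Finset.sum_congr rfl fun m _ => Finset.sum_congr rfl fun x _ => mul_comm _ _
      · simp [h]
    rw [t1, t2, t3, hE, offdiag_sum R hR]
    ring

end P359
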