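import Vale.Agent.P359.Basic
import Vale.Agent.P359.LaughlinPoly
import Vale.Agent.P359.ReduceEnergy

/-!
P359, piece D2/D3: the Laughlin vector is antisymmetric, nonzero, annihilated by `HR`, and
spans the antisymmetric kernel of `HR` at `Q = 3(N-1)`.
-/

namespace P359

open Finset MvPolynomial
open scoped BigOperators

/-- Exponent vector of a configuration. -/
noncomputable def expo {Q N : ℕ} (x : Config Q N) : Fin N →₀ ℕ :=
  Finsupp.equivFunOnFinite.symm fun i => (x i : ℕ)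

theorem expo_apply {Q N : ℕ} (x : Config Q N) (i : Fin N) : expo x i = (x i : ℕ) := by
  simp [expo]

theorem expo_injective {Q N : ℕ} : Function.Injective (expo : Config Q N → _) :=
  fun x y h => funext fun i => Fin.ext (by simpa [expo_apply] using congrArg (fun d => d i) h)

theorem expo_mapDomain {Q N : ℕ} (σ : Equiv.Perm (Fin N)) (x : Config Q N) :
    Finsupp.mapDomain σ (expo (x ∘ σ)) = expo x := by
  ext i
  obtain ⟨k, rfl⟩ := σ.surjective i
  rw [Finsupp.mapDomain_apply σ.injective, expo_apply, expo_apply]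
  rfl

/-- Monomial normalisation. -/
noncomputable def rootProd {Q N : ℕ} (x : Config Q N) : ℝ :=
  ∏ i, Real.sqrt (Q.choose (x i : ℕ) : ℝ)

theorem rootProd_pos {Q N : ℕ} (x : Config Q N) : 0 < rootProd x :=
  prod_pos fun i _ => Real.sqrt_pos.mpr
    (by exact_mod_cast Nat.choose_pos (Nat.lt_succ_iff.mp (x i).isLt))

theorem rootProd_comp {Q N : ℕ} (σ : Equiv.Perm (Fin N)) (x : Config Q N) :
    rootProd (x ∘ σ) = rootProd x :=
  Equiv.prod_comp σ (fun i => Real.sqrt (Q.choose (x i : ℕ) : ℝ))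

theorem rootProd_cons {Q n : ℕ} (a : Fin (Q + 1)) (x : Config Q n) :
    rootProd (Fin.cons a x : Config Q (n + 1)) = Real.sqrt (Q.choose (a : ℕ) : ℝ) * rootProd x := by
  simp [rootProd, Fin.prod_univ_succ]

theorem laughlin_eq (N : ℕ) (x : Config (3 * (N - 1)) N) :
    laughlin N x = coeff (expo x) (laughlinPoly N) / rootProd x := rfl

/-- D2: antisymmetry. -/
theorem laughlin_anti (N : ℕ) : IsAnti (laughlin N) := by
  intro σ x
  have h := coeff_rename_mapDomain σ σ.injective (laughlinPoly N) (expo (x ∘ σ))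
  rw [expo_mapDomain, rename_laughlinPoly] at h
  rw [laughlin_eq, laughlin_eq, rootProd_comp, ← h, ← mul_div_assoc]
  congr 1
  rw [show ((σ.sign : ℤ) : MvPolynomial (Fin N) ℝ) = C ((σ.sign : ℤ) : ℝ) from
    (map_intCast (C : ℝ →+* MvPolynomial (Fin N) ℝ) _).symm, coeff_C_mul]

/-- D2: the Laughlin vector is nonzero. -/
theorem laughlin_ne_zero (N : ℕ) : laughlin N ≠ 0 := by
  obtain ⟨d, hd⟩ := ne_zero_iff.mp (laughlinPoly_ne_zero N)
  have hb : ∀ i, d i < 3 * (N - 1) + 1 := fun i => by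
    have := monomial_le_degreeOf i (mem_support_iff.mpr hd)
    rw [degreeOf_laughlinPoly] at this
    omega
  intro h
  have hx := congrFun h (fun i => ⟨d i, hb i⟩)
  have e : expo (fun i => (⟨d i, hb i⟩ : Fin (3 * (N - 1) + 1))) = d := by
    ext i; simp [expo_apply]
  rw [laughlin_eq, e, Pi.zero_apply, div_eq_zero_iff] at hx
  exact hx.elim hd (rootProd_pos _).ne'

/-! ### Pair moments -/

/-- Exponent vector with prescribed values at the first two places. -/
noncomputable def expo2 {Q M : ℕ} (a b : ℕ) (r : Config Q M) : Fin (M + 2) →₀ ℕ :=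
  Finsupp.equivFunOnFinite.symm (Fin.cons a (Fin.cons b fun i => (r i : ℕ)))

theorem expo_cons_cons {Q M : ℕ} (a b : Fin (Q + 1)) (r : Config Q M) :
    expo (Fin.cons a (Fin.cons b r) : Config Q (M + 2)) = expo2 (a : ℕ) (b : ℕ) r := by
  ext i
  refine Fin.cases ?_ (fun i => Fin.cases ?_ (fun l => ?_) i) i <;> simp [expo_apply, expo2]

theorem expo2_eq_iff {Q M : ℕ} (a b : ℕ) (r : Config Q M) (d : Fin (M + 2) →₀ ℕ) :
    d = expo2 a b r ↔ d 0 = a ∧ d 1 = b ∧ ∀ l : Fin M, d l.succ.succ = (r l : ℕ) := by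
  constructor
  · rintro rfl
    refine ⟨?_, ?_, fun l => ?_⟩
    · simp [expo2]
    · show expo2 a b r (Fin.succ 0) = b
      simp only [expo2, Finsupp.coe_equivFunOnFinite_symm, Fin.cons_succ, Fin.cons_zero]
    · simp [expo2]
  · rintro ⟨h0, h1, h2⟩
    ext i
    refine Fin.cases ?_ (fun i => Fin.cases ?_ (fun l => ?_) i) i
    · simpa [expo2] using h0
    · simpa [expo2, show (Fin.succ 0 : Fin (M + 2)) = 1 from rfl] using h1
    · simpa [expo2] using h2 l

/-- `∑_{a+b=S} (a-b)` times the coefficient, other exponents fixed. -/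
noncomputable def pairMoment {Q M : ℕ} (S : ℕ) (r : Config Q M)
    (P : MvPolynomial (Fin (M + 2)) ℝ) : ℝ :=
  ∑ a ∈ range (S + 1), (2 * (a : ℝ) - S) * coeff (expo2 a (S - a) r) P

theorem pairMoment_monomial {Q M : ℕ} (S : ℕ) (r : Config Q M) (d : Fin (M + 2) →₀ ℕ) (c : ℝ) :
    pairMoment S r (monomial d c)
      = if d 0 + d 1 = S ∧ ∀ l : Fin M, d l.succ.succ = (r l : ℕ) then
          ((d 0 : ℝ) - d 1) * c else 0 := by
  unfold pairMoment
  split_ifs with h
  · rw [sum_eq_single (d 0)]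
    · rw [coeff_monomial, if_pos ((expo2_eq_iff _ _ _ _).mpr ⟨rfl, by omega, h.2⟩)]
      have : (S : ℝ) = (d 0 : ℝ) + d 1 := by exact_mod_cast h.1.symm
      rw [this]; ring
    · intro a _ ha
      rw [coeff_monomial, if_neg fun e => ha ((expo2_eq_iff _ _ _ _).mp e).1.symm, mul_zero]
    · intro hn
      exact absurd (mem_range.mpr (by omega)) hn
  · refine sum_eq_zero fun a ha => ?_
    rw [coeff_monomial, if_neg, mul_zero]
    intro e
    obtain ⟨e0, e1, e2⟩ := (expo2_eq_iff _ _ _ _).mp e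
    simp only [mem_range] at ha
    exact h ⟨by omega, e2⟩

theorem pairMoment_sq_mul {Q M : ℕ} (S : ℕ) (r : Config Q M)
    (R : MvPolynomial (Fin (M + 2)) ℝ) :
    pairMoment S r ((X 0 - X 1) ^ 2 * R) = 0 := by
  induction R using MvPolynomial.induction_on' with
  | monomial u c =>
    have h : ((X 0 - X 1) ^ 2 * monomial u c : MvPolynomial (Fin (M + 2)) ℝ)
        = monomial (u + Finsupp.single 0 2) c
          + monomial (u + Finsupp.single 0 1 + Finsupp.single 1 1) (-2 * c)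
          + monomial (u + Finsupp.single 1 2) c := by
      rw [show ((X 0 - X 1) ^ 2 * monomial u c : MvPolynomial (Fin (M + 2)) ℝ)
          = monomial u c * X 0 ^ 2 + C (-2) * (monomial u c * X 0 ^ 1 * X 1 ^ 1)
            + monomial u c * X 1 ^ 2 by simp only [map_neg, map_ofNat]; ring]
      simp only [X_pow_eq_monomial, monomial_mul, C_mul_monomial, mul_one]
    have hadd : ∀ P P' : MvPolynomial (Fin (M + 2)) ℝ,
        pairMoment S r (P + P') = pairMoment S r P + pairMoment S r P' := fun P P' => by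
      simp [pairMoment, mul_add, sum_add_distrib]
    rw [h, hadd, hadd, pairMoment_monomial, pairMoment_monomial, pairMoment_monomial]
    have n01 : (0 : Fin (M + 2)) ≠ 1 := Fin.zero_ne_one
    have n0 : ∀ l : Fin M, (0 : Fin (M + 2)) ≠ l.succ.succ := fun l => (Fin.succ_ne_zero _).symm
    have n1 : ∀ l : Fin M, (1 : Fin (M + 2)) ≠ l.succ.succ := fun l => (succ_succ_ne_one l).symm
    simp only [Finsupp.add_apply, Finsupp.single_eq_same,
      Finsupp.single_eq_of_ne n01, Finsupp.single_eq_of_ne n01.symm,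
      fun l => Finsupp.single_eq_of_ne (b := (2 : ℕ)) (n0 l).symm,
      fun l => Finsupp.single_eq_of_ne (b := (1 : ℕ)) (n0 l).symm,
      fun l => Finsupp.single_eq_of_ne (b := (2 : ℕ)) (n1 l).symm,
      fun l => Finsupp.single_eq_of_ne (b := (1 : ℕ)) (n1 l).symm, add_zero]
    rw [show u 0 + 1 + (u 1 + 1) = u 0 + 2 + u 1 by ring,
      show u 0 + (u 1 + 2) = u 0 + 2 + u 1 by ring]
    split_ifs
    · push_cast; ring
    · simp
  | add p q hp hq =>
    rw [mul_add]
    simp only [pairMoment, coeff_add, mul_add, sum_add_distrib] at hp hq ⊢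
    rw [hp, hq, add_zero]

theorem double_sum_antidiagonal {Q S : ℕ} (f : ℕ → ℕ → ℝ)
    (hf : ∀ a b, (Q < a ∨ Q < b) → f a b = 0) :
    ∑ a : Fin (Q + 1), ∑ b : Fin (Q + 1),
        (if (a : ℕ) + (b : ℕ) = S then f (a : ℕ) (b : ℕ) else 0)
      = ∑ a ∈ range (S + 1), f a (S - a) := by
  rw [← Finset.sum_range (fun a => ∑ b : Fin (Q + 1),
    (if a + (b : ℕ) = S then f a (b : ℕ) else 0))]
  have h : ∀ a ∈ range (Q + 1), (∑ b : Fin (Q + 1),
      (if a + (b : ℕ) = S then f a (b : ℕ) else 0))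
      = if a ≤ S then f a (S - a) else 0 := by
    intro a _
    rw [← Finset.sum_range (fun b => if a + b = S then f a b else 0)]
    split_ifs with ha
    · by_cases hS : S - a ≤ Q
      · rw [sum_eq_single (S - a) (fun b _ hb => if_neg (by omega))
          (fun h => absurd (mem_range.mpr (by omega)) h), if_pos (by omega)]
      · rw [hf a (S - a) (Or.inr (by omega))]
        refine sum_eq_zero fun b hb => if_neg ?_
        simp only [mem_range] at hb
        omega
    · exact sum_eq_zero fun b _ => if_neg (by omega)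
  rw [sum_congr rfl h]
  trans ∑ a ∈ range (Q + S + 1), if a ≤ S then f a (S - a) else 0
  · refine sum_subset (range_subset_range.mpr (by omega)) fun a _ ha => ?_
    simp only [mem_range] at ha
    rw [hf a (S - a) (Or.inl (by omega)), ite_self]
  · refine (Eq.trans (sum_congr rfl fun a ha => ?_)
      (sum_subset (range_subset_range.mpr (by omega)) fun a _ ha => ?_)).symm
    · simp only [mem_range] at ha
      rw [if_pos (by omega)]
    · simp only [mem_range] at ha
      rw [if_neg (by omega)]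

theorem sqrt_mul_div_rootProd {Q M : ℕ} (a b : Fin (Q + 1)) (r : Config Q M) :
    Real.sqrt ((Q.choose (a : ℕ) : ℝ) * Q.choose (b : ℕ))
        / rootProd (Fin.cons a (Fin.cons b r) : Config Q (M + 2))
      = (rootProd r)⁻¹ := by
  have ha : Real.sqrt (Q.choose (a : ℕ) : ℝ) ≠ 0 :=
    (Real.sqrt_pos.mpr (by exact_mod_cast Nat.choose_pos (Nat.lt_succ_iff.mp a.isLt))).ne'
  have hb : Real.sqrt (Q.choose (b : ℕ) : ℝ) ≠ 0 :=
    (Real.sqrt_pos.mpr (by exact_mod_cast Nat.choose_pos (Nat.lt_succ_iff.mp b.isLt))).ne'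
  rw [rootProd_cons, rootProd_cons, Real.sqrt_mul (Nat.cast_nonneg _)]
  have := (rootProd_pos r).ne'
  field_simp

theorem reduce_coeff_eq_zero {Q M : ℕ} (P : MvPolynomial (Fin (M + 2)) ℝ)
    (hdeg : ∀ i, degreeOf i P ≤ Q) (hdvd : (X 0 - X 1) ^ 2 ∣ P) :
    reduce (Q := Q) (M := M) (fun x => coeff (expo x) P / rootProd x) = 0 := by
  funext m r
  set K : ℝ := Real.sqrt ((2 * Q : ℝ) * (2 * Q - 2).choose (m : ℕ)) with hK
  have hterm : ∀ a b : Fin (Q + 1),
      pairIso Q (a, b) m * (coeff (expo (Fin.cons a (Fin.cons b r) : Config Q (M + 2))) P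
        / rootProd (Fin.cons a (Fin.cons b r) : Config Q (M + 2)))
      = (rootProd r)⁻¹ / K * (if (a : ℕ) + (b : ℕ) = (m : ℕ) + 1 then
          ((a : ℝ) - (b : ℕ)) * coeff (expo2 (a : ℕ) (b : ℕ) r) P else 0) := by
    intro a b
    have e := sqrt_mul_div_rootProd a b r
    rw [expo_cons_cons]
    simp only [pairIso, g1, hK]
    split_ifs with h
    · rw [← e]; ring
    · simp
  simp only [reduce, hterm, ← mul_sum]
  rw [double_sum_antidiagonal (fun a b => ((a : ℝ) - b) * coeff (expo2 a b r) P) ?_]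
  · obtain ⟨R, hR⟩ := hdvd
    have h0 := pairMoment_sq_mul ((m : ℕ) + 1) r R
    rw [← hR, pairMoment] at h0
    rw [show (0 : Reduced (2 * Q - 2) Q M) m r = (rootProd r)⁻¹ / K * 0 by simp]
    congr 1
    rw [← h0]
    refine sum_congr rfl fun a ha => ?_
    simp only [mem_range] at ha
    rw [Nat.cast_sub (by omega)]
    push_cast
    ring
  · intro a b hab
    rw [show coeff (expo2 a b r) P = 0 from ?_, mul_zero]
    by_contra hne
    have h0 := monomial_le_degreeOf 0 (mem_support_iff.mpr hne)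
    have h1 := monomial_le_degreeOf 1 (mem_support_iff.mpr hne)
    obtain ⟨e0, e1, -⟩ := (expo2_eq_iff a b r _).mp rfl
    rw [e0] at h0
    rw [e1] at h1
    have := hdeg 0
    have := hdeg 1
    omega

theorem reduce_laughlin (M : ℕ) :
    reduce (Q := 3 * (M + 2 - 1)) (M := M) (laughlin (M + 2)) = 0 := by
  refine reduce_coeff_eq_zero (laughlinPoly (M + 2))
    (fun i => le_of_eq (degreeOf_laughlinPoly i)) ?_
  have hm : (1 : Fin (M + 2)) ∈ univ.filter (fun j => (0 : Fin (M + 2)) < j) :=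
    mem_filter.mpr ⟨mem_univ _, Fin.zero_lt_one⟩
  unfold laughlinPoly
  rw [← Finset.mul_prod_erase _ _ (mem_univ (0 : Fin (M + 2))),
    ← Finset.mul_prod_erase _ _ hm]
  exact dvd_mul_of_dvd_left
    (dvd_mul_of_dvd_left (pow_dvd_pow _ (by norm_num : 2 ≤ 3)) _) _

/-- D2: the Laughlin vector is annihilated. -/
theorem HR_laughlin {N : ℕ} (hN : 2 ≤ N) : HR (3 * (N - 1)) N (laughlin N) = 0 := by
  obtain ⟨M, rfl⟩ : ∃ M, N = M + 2 := ⟨N - 2, by omega⟩
  have h := (reduce_energy (Q := 3 * (M + 2 - 1)) (M := M) (by omega)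
    (laughlin_anti (M + 2))).2.2
  rw [reduce_laughlin] at h
  simp only [nsqR, E1, E2, Pi.zero_apply, ne_eq, OfNat.ofNat_ne_zero, not_false_eq_true,
    zero_pow, zero_mul, sum_const_zero, mul_zero, sub_zero, add_zero] at h
  exact dotProduct_self_eq_zero.mp h

/-! ### D3: uniqueness -/

/-- Swap-invariant and antisymmetric parts cancel in a double sum. -/
theorem sum_anti_smul_zero {Q : ℕ} {V : Type*} [AddCommGroup V] [Module ℝ V]
    (c : Fin (Q + 1) → Fin (Q + 1) → ℝ) (hc : ∀ a b, c b a = -c a b)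
    (s : ℕ → ℕ → ℝ) (hs : ∀ a b, s b a = s a b) (l : ℕ → ℝ) (g : ℕ → V)
    (hk : ∀ S, ∑ a : Fin (Q + 1), ∑ b : Fin (Q + 1),
      (if (a : ℕ) + (b : ℕ) = S then ((a : ℝ) - (b : ℕ)) * c a b else 0) = 0) :
    ∑ a : Fin (Q + 1), ∑ b : Fin (Q + 1),
      (c a b * (s (a : ℕ) (b : ℕ)
        + l ((a : ℕ) + (b : ℕ)) * ((a : ℝ) - (b : ℕ)))) • g ((a : ℕ) + (b : ℕ)) = 0 := by
  simp only [mul_add, add_smul, sum_add_distrib]
  have h1 : ∑ a : Fin (Q + 1), ∑ b : Fin (Q + 1),
      (c a b * s (a : ℕ) (b : ℕ)) • g ((a : ℕ) + (b : ℕ)) = 0 := by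
    set T := ∑ a : Fin (Q + 1), ∑ b : Fin (Q + 1),
      (c a b * s (a : ℕ) (b : ℕ)) • g ((a : ℕ) + (b : ℕ)) with hT
    have hneg : T = -T := by
      conv_lhs => rw [hT, sum_comm]
      rw [hT, ← sum_neg_distrib]
      refine sum_congr rfl fun a _ => ?_
      rw [← sum_neg_distrib]
      refine sum_congr rfl fun b _ => ?_
      rw [hc, hs, add_comm (b : ℕ), neg_mul, neg_smul]
    have : (2 : ℝ) • T = 0 := by
      rw [two_smul]
      nth_rewrite 2 [hneg]
      exact add_neg_cancel T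
    exact (smul_eq_zero.mp this).resolve_left (by norm_num)
  rw [h1, zero_add]
  calc _ = ∑ a : Fin (Q + 1), ∑ b : Fin (Q + 1), ∑ S ∈ range (2 * Q + 1),
        (if (a : ℕ) + (b : ℕ) = S then ((a : ℝ) - (b : ℕ)) * c a b else 0)
          • (l S • g S) := by
        refine sum_congr rfl fun a _ => sum_congr rfl fun b _ => ?_
        rw [sum_eq_single ((a : ℕ) + (b : ℕ)) (fun S _ hS => by rw [if_neg (Ne.symm hS), zero_smul])
          (fun h => absurd (mem_range.mpr (by omega)) h), if_pos rfl, smul_smul]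
        congr 1
        ring
    _ = ∑ S ∈ range (2 * Q + 1), (∑ a : Fin (Q + 1), ∑ b : Fin (Q + 1),
        (if (a : ℕ) + (b : ℕ) = S then ((a : ℝ) - (b : ℕ)) * c a b else 0))
          • (l S • g S) := by
        simp only [sum_smul]
        conv_rhs => rw [sum_comm]
        exact sum_congr rfl fun a _ => sum_comm
    _ = 0 := by simp [hk]

/-- Dehomogenised polynomial of a tensor. -/
noncomputable def tensorPoly {Q N : ℕ} (ψ : Config Q N → ℝ) : MvPolynomial (Fin N) ℝ :=
  ∑ x, monomial (expo x) (ψ x * rootProd x)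

theorem coeff_tensorPoly {Q N : ℕ} (ψ : Config Q N → ℝ) (x : Config Q N) :
    coeff (expo x) (tensorPoly ψ) = ψ x * rootProd x := by
  rw [tensorPoly, coeff_sum, sum_eq_single x]
  · rw [coeff_monomial, if_pos rfl]
  · intro y _ hy
    rw [coeff_monomial, if_neg fun e => hy (expo_injective e)]
  · simp

theorem rename_tensorPoly {Q N : ℕ} {ψ : Config Q N → ℝ} (hψ : IsAnti ψ)
    (σ : Equiv.Perm (Fin N)) :
    rename σ (tensorPoly ψ) = ((σ.sign : ℤ) : MvPolynomial (Fin N) ℝ) * tensorPoly ψ := by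
  rw [tensorPoly, map_sum, mul_sum,
    ← sum_config_comp σ (fun x => rename σ (monomial (expo x) (ψ x * rootProd x)))]
  refine sum_congr rfl fun x _ => ?_
  rw [rename_monomial, expo_mapDomain, rootProd_comp, hψ σ,
    show ((σ.sign : ℤ) : MvPolynomial (Fin N) ℝ) = C ((σ.sign : ℤ) : ℝ) from
      (map_intCast (C : ℝ →+* MvPolynomial (Fin N) ℝ) _).symm, C_mul_monomial, mul_assoc]

theorem degreeOf_tensorPoly {Q N : ℕ} (ψ : Config Q N → ℝ) (i : Fin N) :
    degreeOf i (tensorPoly ψ) ≤ Q := by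
  refine (degreeOf_sum_le _ _ _).trans (Finset.sup_le fun x _ => ?_)
  by_cases h : ψ x * rootProd x = 0
  · simp [h]
  · rw [degreeOf_eq_sup, support_monomial, if_neg h, Finset.sup_singleton, expo_apply]
    exact Nat.lt_succ_iff.mp (x i).isLt

theorem cube01_dvd_tensorPoly {Q M : ℕ} {ψ : Config Q (M + 2) → ℝ} (hψ : IsAnti ψ)
    (hk : ∀ (r : Config Q M) S, ∑ a : Fin (Q + 1), ∑ b : Fin (Q + 1),
      (if (a : ℕ) + (b : ℕ) = S then ((a : ℝ) - (b : ℕ))
        * (ψ (Fin.cons a (Fin.cons b r)) * rootProd (Fin.cons a (Fin.cons b r) : Config Q (M + 2)))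
      else 0) = 0) :
    (X 0 - X 1) ^ 3 ∣ tensorPoly ψ := by
  set u : MvPolynomial (Fin (M + 2)) ℝ := X 0 - X 1 with hu
  let rest : Config Q M → MvPolynomial (Fin (M + 2)) ℝ := fun r =>
    ∏ l, X l.succ.succ ^ (r l : ℕ)
  let c : Config Q M → Fin (Q + 1) → Fin (Q + 1) → ℝ := fun r a b =>
    ψ (Fin.cons a (Fin.cons b r)) * rootProd (Fin.cons a (Fin.cons b r) : Config Q (M + 2))
  have hc : ∀ r a b, c r b a = -c r a b := fun r a b => by
    simp only [c, reduce_cons_swap01 hψ a b r, rootProd_cons]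
    ring
  let T : ℕ → MvPolynomial (Fin (M + 2)) ℝ := fun a =>
    X 1 ^ a + (a : MvPolynomial (Fin (M + 2)) ℝ) * X 1 ^ (a - 1) * u
      + (a.choose 2 : MvPolynomial (Fin (M + 2)) ℝ) * X 1 ^ (a - 2) * u ^ 2
  have hP : tensorPoly ψ = ∑ a : Fin (Q + 1), ∑ b : Fin (Q + 1), ∑ r : Config Q M,
      c r a b • (X 0 ^ (a : ℕ) * X 1 ^ (b : ℕ) * rest r) := by
    simp only [tensorPoly, sum_cons]
    refine sum_congr rfl fun a _ => sum_congr rfl fun b _ => sum_congr rfl fun r _ => ?_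
    rw [monomial_eq, smul_eq_C_mul]
    congr 1
    rw [Finsupp.prod_fintype _ _ (fun i => pow_zero _), Fin.prod_univ_succ, Fin.prod_univ_succ]
    simp [rest, expo_apply, mul_assoc]
  have hdiv : ∀ a : ℕ, u ^ 3 ∣ (X 0 : MvPolynomial (Fin (M + 2)) ℝ) ^ a - T a := fun a => by
    have := cube_dvd_expand (X 1 : MvPolynomial (Fin (M + 2)) ℝ) u a
    rwa [show (X 1 : MvPolynomial (Fin (M + 2)) ℝ) + u = X 0 by rw [hu]; ring] at this
  have hzero : ∀ r, ∑ a : Fin (Q + 1), ∑ b : Fin (Q + 1),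
      c r a b • (T (a : ℕ) * X 1 ^ (b : ℕ) * rest r) = 0 := by
    intro r
    have hterm : ∀ (a b : Fin (Q + 1)), c r a b • (T (a : ℕ) * X 1 ^ (b : ℕ) * rest r)
        = (c r a b * (1 + 0 * ((a : ℝ) - (b : ℕ)))) • (X 1 ^ ((a : ℕ) + (b : ℕ)) * rest r)
          + (c r a b * ((((a : ℕ) : ℝ) + (b : ℕ)) / 2 + 1 / 2 * ((a : ℝ) - (b : ℕ))))
              • (X 1 ^ ((a : ℕ) + (b : ℕ) - 1) * u * rest r)
          + (c r a b * ((((a : ℕ) : ℝ) - (b : ℕ)) ^ 2 / 8
                + (((a : ℕ) : ℝ) + (b : ℕ)) ^ 2 / 8 - (((a : ℕ) : ℝ) + (b : ℕ)) / 4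
              + ((((a : ℕ) + (b : ℕ) : ℕ) : ℝ) / 4 - 1 / 4) * ((a : ℝ) - (b : ℕ))))
              • (X 1 ^ ((a : ℕ) + (b : ℕ) - 2) * u ^ 2 * rest r) := by
      intro a b
      simp only [smul_eq_C_mul, T]
      generalize (a : ℕ) = a'
      generalize (b : ℕ) = b'
      have e1 : (a' : MvPolynomial (Fin (M + 2)) ℝ) * X 1 ^ (a' - 1) * X 1 ^ b'
          = C (a' : ℝ) * X 1 ^ (a' + b' - 1) := by
        rw [map_natCast]
        cases a' with
        | zero => simp
        | succ a' =>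
          rw [mul_assoc, ← pow_add, show a' + 1 - 1 + b' = a' + 1 + b' - 1 by omega]
      have e2 : (a'.choose 2 : MvPolynomial (Fin (M + 2)) ℝ) * X 1 ^ (a' - 2) * X 1 ^ b'
          = C ((a' : ℝ) * ((a' : ℝ) - 1) / 2) * X 1 ^ (a' + b' - 2) := by
        rw [← Nat.cast_choose_two, map_natCast]
        rcases Nat.lt_or_ge a' 2 with h | h
        · simp [Nat.choose_eq_zero_of_lt h]
        · rw [mul_assoc, ← pow_add, show a' - 2 + b' = a' + b' - 2 by omega]
      have i1 : ((a' : ℝ) + b') / 2 + 1 / 2 * ((a' : ℝ) - b') = a' := by ring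
      have i2 : ((a' : ℝ) - b') ^ 2 / 8 + ((a' : ℝ) + b') ^ 2 / 8 - ((a' : ℝ) + b') / 4
          + (((a' + b' : ℕ) : ℝ) / 4 - 1 / 4) * ((a' : ℝ) - b')
          = (a' : ℝ) * ((a' : ℝ) - 1) / 2 := by push_cast; ring
      rw [i1, i2]
      generalize c r a b = cv
      rw [zero_mul, add_zero, mul_one, map_mul, map_mul, pow_add]
      linear_combination (C cv * u * rest r) * e1 + (C cv * u ^ 2 * rest r) * e2
    simp only [hterm, sum_add_distrib]
    rw [sum_anti_smul_zero (c r) (hc r) (fun _ _ => 1) (fun _ _ => rfl) (fun _ => 0)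
      (fun S => X 1 ^ S * rest r) (hk r)]
    rw [sum_anti_smul_zero (c r) (hc r) (fun a b => ((a : ℝ) + b) / 2) (fun a b => by ring)
      (fun _ => 1 / 2) (fun S => X 1 ^ (S - 1) * u * rest r) (hk r)]
    rw [sum_anti_smul_zero (c r) (hc r)
      (fun a b => ((a : ℝ) - b) ^ 2 / 8 + ((a : ℝ) + b) ^ 2 / 8 - ((a : ℝ) + b) / 4)
      (fun a b => by ring) (fun S => (S : ℝ) / 4 - 1 / 4)
      (fun S => X 1 ^ (S - 2) * u ^ 2 * rest r) (hk r)]
    simp
  have hsplit : tensorPoly ψ = ∑ r : Config Q M, ∑ a : Fin (Q + 1), ∑ b : Fin (Q + 1),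
      c r a b • ((X 0 ^ (a : ℕ) - T (a : ℕ)) * X 1 ^ (b : ℕ) * rest r) := by
    simp only [sub_mul, smul_sub, sum_sub_distrib, hzero, sub_zero]
    rw [hP]
    conv_lhs => enter [2, a]; rw [sum_comm]
    rw [sum_comm]
  rw [hsplit]
  refine dvd_sum fun r _ => dvd_sum fun a _ => dvd_sum fun b _ => ?_
  rw [smul_eq_C_mul]
  exact dvd_mul_of_dvd_right (dvd_mul_of_dvd_left (dvd_mul_of_dvd_left (hdiv _) _) _) _

/-- A kernel vector is divisible by the Laughlin polynomial, at every flux. -/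
theorem kernel_dvd {Q M : ℕ} (hQ2 : 2 ≤ Q) {ψ : Config Q (M + 2) → ℝ}
    (hψ : IsAnti ψ) (h0 : HR Q (M + 2) ψ = 0) : laughlinPoly (M + 2) ∣ tensorPoly ψ := by
  have he := (reduce_energy (M := M) hQ2 hψ).2.1
  rw [h0, dotProduct_zero] at he
  have hC : ((M + 2).choose 2 : ℝ) ≠ 0 := by
    exact_mod_cast (Nat.choose_pos (by omega : 2 ≤ M + 2)).ne'
  have hφ : ∀ m r, reduce ψ m r = 0 := by
    intro m r
    have hz : nsqR (reduce ψ) = 0 := (mul_eq_zero.mp he.symm).resolve_left hC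
    rw [nsqR, sum_eq_zero_iff_of_nonneg (fun _ _ => sum_nonneg fun _ _ => sq_nonneg _)] at hz
    have h2 := (sum_eq_zero_iff_of_nonneg (fun _ _ => sq_nonneg _)).mp (hz m (mem_univ m)) r
      (mem_univ r)
    exact pow_eq_zero_iff two_ne_zero |>.mp h2
  have hk : ∀ (r : Config Q M) S, ∑ a : Fin (Q + 1), ∑ b : Fin (Q + 1),
      (if (a : ℕ) + (b : ℕ) = S then ((a : ℝ) - (b : ℕ))
        * (ψ (Fin.cons a (Fin.cons b r)) * rootProd (Fin.cons a (Fin.cons b r) : Config Q (M + 2)))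
      else 0) = 0 := by
    intro r S
    by_cases hS : 1 ≤ S ∧ S ≤ 2 * Q - 1
    · set m : Fin (2 * Q - 2 + 1) := ⟨S - 1, by omega⟩ with hm
      have hK : Real.sqrt ((2 * Q : ℝ) * (2 * Q - 2).choose (m : ℕ)) ≠ 0 := by
        refine (Real.sqrt_pos.mpr ?_).ne'
        have h1 : 0 < (2 * Q - 2).choose (m : ℕ) := Nat.choose_pos (by simp [hm]; omega)
        have h2 : (0 : ℝ) < Q := by exact_mod_cast (show 0 < Q by omega)
        have h3 : (0 : ℝ) < ((2 * Q - 2).choose (m : ℕ) : ℕ) := by exact_mod_cast h1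
        positivity
      calc _ = (rootProd r * Real.sqrt ((2 * Q : ℝ) * (2 * Q - 2).choose (m : ℕ)))
            * reduce ψ m r := by
            simp only [reduce, mul_sum]
            refine sum_congr rfl fun a _ => sum_congr rfl fun b _ => ?_
            have e : (m : ℕ) + 1 = S := by simp [hm]; omega
            simp only [pairIso, g1, e]
            split_ifs with h
            · rw [rootProd_cons, rootProd_cons, Real.sqrt_mul (Nat.cast_nonneg _)]
              field_simp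
            · simp
        _ = 0 := by rw [hφ, mul_zero]
    · refine sum_eq_zero fun a _ => sum_eq_zero fun b _ => ?_
      split_ifs with h
      · have := a.isLt
        have := b.isLt
        have e : (a : ℕ) = (b : ℕ) := by omega
        rw [show (a : ℝ) = ((b : ℕ) : ℝ) by exact_mod_cast e, sub_self, zero_mul]
      · rfl
  have h01 := cube01_dvd_tensorPoly hψ hk
  have hall : ∀ i j : Fin (M + 2), i < j → (X i - X j) ^ 3 ∣ tensorPoly ψ := by
    intro i j hij
    obtain ⟨σ, rfl, rfl⟩ := exists_perm_pair hij.ne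
    have h := map_dvd (rename σ) h01
    rw [map_pow, map_sub, rename_X, rename_X, rename_tensorPoly hψ] at h
    rcases Int.units_eq_one_or σ.sign with e | e
    · simpa [e] using h
    · simpa [e] using h
  exact laughlinPoly_dvd hall

/-- D3: the antisymmetric kernel is spanned by the Laughlin vector. -/
theorem kernel_eq_laughlin {N : ℕ} (hN : 2 ≤ N) {ψ : Config (3 * (N - 1)) N → ℝ}
    (hψ : IsAnti ψ) (h0 : HR (3 * (N - 1)) N ψ = 0) : ∃ c : ℝ, ψ = c • laughlin N := by
  obtain ⟨M, rfl⟩ : ∃ M, N = M + 2 := ⟨N - 2, by omega⟩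
  obtain ⟨R, hR⟩ := kernel_dvd (by omega) hψ h0
  obtain ⟨c, hc⟩ : ∃ c : ℝ, R = C c := by
    refine ⟨coeff 0 R, eq_C_of_degreeOf_zero fun i => ?_⟩
    by_cases hR0 : R = 0
    · simp [hR0]
    · have hd := degreeOf_tensorPoly ψ i
      rw [hR, degreeOf_mul_eq (laughlinPoly_ne_zero _) hR0, degreeOf_laughlinPoly] at hd
      omega
  refine ⟨c, funext fun x => ?_⟩
  have h := coeff_tensorPoly ψ x
  rw [hR, hc, mul_comm (laughlinPoly (M + 2)), coeff_C_mul] at h
  rw [Pi.smul_apply, smul_eq_mul, laughlin_eq, ← mul_div_assoc,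
    eq_div_iff (rootProd_pos x).ne']
  exact h.symm

end P359
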