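import Vale.Agent.P359.Basic
import Vale.Agent.P359.ReduceEnergy
import Vale.Agent.P359.Kernel

/-!
P359, piece D1/D4: `H² ≥ δ H` on antisymmetric tensors gives `H ≥ δ (1 - P_L)`.
-/

namespace P359

open Finset Matrix
open scoped BigOperators

theorem HR_add (Q N : ℕ) (ψ η : Config Q N → ℝ) : HR Q N (ψ + η) = HR Q N ψ + HR Q N η := by
  funext x
  simp [HR, mul_add, sum_add_distrib]

theorem HR_smul (Q N : ℕ) (c : ℝ) (ψ : Config Q N → ℝ) : HR Q N (c • ψ) = c • HR Q N ψ := by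
  funext x
  simp only [HR, Pi.smul_apply, smul_eq_mul, mul_sum]
  refine sum_congr rfl fun i _ => sum_congr rfl fun j _ => sum_congr rfl fun a _ =>
    sum_congr rfl fun b _ => ?_
  ring

/-- Antisymmetric tensors as a subspace. -/
def antiSub (Q N : ℕ) : Submodule ℝ (Config Q N → ℝ) where
  carrier := {ψ | IsAnti ψ}
  add_mem' {a b} ha hb σ x := by
    simp only [Pi.add_apply, ha σ x, hb σ x]
    ring
  zero_mem' σ x := by simp
  smul_mem' c {a} ha σ x := by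
    simp only [Pi.smul_apply, smul_eq_mul, ha σ x]
    ring

theorem mem_antiSub {Q N : ℕ} {ψ : Config Q N → ℝ} : ψ ∈ antiSub Q N ↔ IsAnti ψ := Iff.rfl

/-- D1: symmetry on antisymmetric tensors. -/
theorem HR_symm {Q M : ℕ} (hQ : 1 ≤ Q) {η ψ : Config Q (M + 2) → ℝ} (hη : IsAnti η)
    (hψ : IsAnti ψ) : η ⬝ᵥ HR Q (M + 2) ψ = HR Q (M + 2) η ⬝ᵥ ψ := by
  rw [dotProduct_comm (HR Q (M + 2) η) ψ, dotProduct, dotProduct, sum_HR_eq hη hψ,
    sum_HR_eq hψ hη, energy_pairOp hQ, energy_pairOp hQ]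
  simp only [mul_comm (reduce η _ _)]

/-- D1: positivity on antisymmetric tensors. -/
theorem HR_nonneg {Q M : ℕ} (hQ : 2 ≤ Q) {ψ : Config Q (M + 2) → ℝ} (hψ : IsAnti ψ) :
    0 ≤ ψ ⬝ᵥ HR Q (M + 2) ψ := by
  rw [(reduce_energy hQ hψ).2.1]
  exact mul_nonneg (Nat.cast_nonneg _) (sum_nonneg fun _ _ => sum_nonneg fun _ _ => sq_nonneg _)

/-- D4, abstract real version. -/
theorem gap_of_sq {Q M : ℕ} (hQ : 2 ≤ Q) {L : Config Q (M + 2) → ℝ} (hLa : IsAnti L)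
    (hL0 : L ≠ 0) (hHL : HR Q (M + 2) L = 0)
    (huniq : ∀ ψ, IsAnti ψ → HR Q (M + 2) ψ = 0 → ∃ c : ℝ, ψ = c • L)
    {δ : ℝ} (hδ : 0 ≤ δ)
    (hsq : ∀ ψ, IsAnti ψ → δ * (ψ ⬝ᵥ HR Q (M + 2) ψ) ≤ nsq (HR Q (M + 2) ψ))
    {ψ : Config Q (M + 2) → ℝ} (hψ : IsAnti ψ) :
    δ * (ψ ⬝ᵥ ψ - (L ⬝ᵥ ψ) ^ 2 / (L ⬝ᵥ L)) ≤ ψ ⬝ᵥ HR Q (M + 2) ψ := by
  set S := antiSub Q (M + 2) with hS
  have hLS : L ∈ S := hLa
  have hLL : L ⬝ᵥ L ≠ 0 := fun h => hL0 (dotProduct_self_eq_zero.mp h)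
  have hQ1 : 1 ≤ Q := by omega
  let T : S →ₗ[ℝ] S :=
    { toFun := fun u => ⟨HR Q (M + 2) u + (L ⬝ᵥ (u : Config Q (M + 2) → ℝ)) • L,
        S.add_mem (HR_anti u.2) (S.smul_mem _ hLS)⟩
      map_add' := fun u v => Subtype.ext (by
        simp only [Submodule.coe_add, HR_add, dotProduct_add, add_smul]
        abel)
      map_smul' := fun c u => Subtype.ext (by
        simp only [Submodule.coe_smul, HR_smul, dotProduct_smul, smul_eq_mul,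
          RingHom.id_apply, smul_add, smul_smul]) }
  have hperp : ∀ u, IsAnti u → L ⬝ᵥ HR Q (M + 2) u = 0 := fun u hu => by
    rw [HR_symm hQ1 hLa hu, hHL, zero_dotProduct]
  have hinj : Function.Injective T := by
    rw [← LinearMap.ker_eq_bot, LinearMap.ker_eq_bot']
    intro u hu
    have h1 : HR Q (M + 2) u + (L ⬝ᵥ (u : Config Q (M + 2) → ℝ)) • L = 0 :=
      congrArg Subtype.val hu
    have h2 := congrArg (fun v => L ⬝ᵥ v) h1
    simp only [dotProduct_add, hperp _ u.2, dotProduct_smul, smul_eq_mul, zero_add,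
      dotProduct_zero, mul_eq_zero, hLL, or_false] at h2
    rw [h2, zero_smul, add_zero] at h1
    obtain ⟨c, hc⟩ := huniq _ u.2 h1
    rw [hc, dotProduct_smul, smul_eq_mul, mul_eq_zero, or_iff_left hLL] at h2
    exact Subtype.ext (by rw [hc, h2, zero_smul]; rfl)
  obtain ⟨⟨u, hu⟩, huψ⟩ := LinearMap.surjective_of_injective hinj ⟨ψ, hψ⟩
  have he : HR Q (M + 2) u + (L ⬝ᵥ u) • L = ψ := congrArg Subtype.val huψ
  set w := HR Q (M + 2) u with hw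
  set k := L ⬝ᵥ u
  have hwa : IsAnti w := HR_anti hu
  have hLw : L ⬝ᵥ w = 0 := hperp u hu
  have hwL : w ⬝ᵥ L = 0 := by rw [dotProduct_comm]; exact hLw
  have e1 : ψ ⬝ᵥ ψ - (L ⬝ᵥ ψ) ^ 2 / (L ⬝ᵥ L) = w ⬝ᵥ w := by
    rw [← he]
    simp only [dotProduct_add, add_dotProduct, dotProduct_smul, smul_dotProduct, hLw, hwL,
      smul_eq_mul]
    field_simp
    ring
  have e2 : ψ ⬝ᵥ HR Q (M + 2) ψ = w ⬝ᵥ HR Q (M + 2) w := by
    rw [← he, HR_add, HR_smul, hHL, smul_zero, add_zero, add_dotProduct, smul_dotProduct,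
      hperp w hwa, smul_zero, add_zero]
  rw [e1, e2]
  -- `0 ≤ ⟨w - δ u, H (w - δ u)⟩`
  have hd : IsAnti (w + (-δ) • u) := S.add_mem hwa (S.smul_mem _ hu)
  have h3 := HR_nonneg hQ hd
  have h4 := mul_le_mul_of_nonneg_left (hsq u hu) hδ
  simp only [HR_add, HR_smul, dotProduct_add, add_dotProduct, dotProduct_smul, smul_dotProduct,
    smul_eq_mul, ← hw] at h3
  rw [HR_symm hQ1 hu hwa, ← hw] at h3
  simp only [nsq, ← hw] at h4
  nlinarith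

theorem re_H (Q N : ℕ) (ψ : Config Q N → ℂ) (x : Config Q N) :
    (H Q N ψ x).re = HR Q N (fun y => (ψ y).re) x := by
  simp [H, HR, Complex.re_sum, Complex.mul_re]

theorem im_H (Q N : ℕ) (ψ : Config Q N → ℂ) (x : Config Q N) :
    (H Q N ψ x).im = HR Q N (fun y => (ψ y).im) x := by
  simp [H, HR, Complex.im_sum, Complex.mul_im]

theorem isAnti_re {Q N : ℕ} {ψ : Config Q N → ℂ} (hψ : IsAnti ψ) :
    IsAnti (fun x => (ψ x).re) := fun σ x => by simp [hψ σ x]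

theorem isAnti_im {Q N : ℕ} {ψ : Config Q N → ℂ} (hψ : IsAnti ψ) :
    IsAnti (fun x => (ψ x).im) := fun σ x => by simp [hψ σ x]

/-- D4: the gap for complex antisymmetric tensors at the Laughlin flux. -/
theorem gap_complex {N : ℕ} (hN : 2 ≤ N) {δ : ℝ} (hδ : 0 ≤ δ)
    (hsq : ∀ ψ : Config (3 * (N - 1)) N → ℝ, IsAnti ψ →
      δ * (ψ ⬝ᵥ HR (3 * (N - 1)) N ψ) ≤ nsq (HR (3 * (N - 1)) N ψ))
    {ψ : Config (3 * (N - 1)) N → ℂ} (hψ : IsAnti ψ) :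
    δ * (∑ x, ‖ψ x‖ ^ 2 - ‖∑ x, (laughlin N x : ℂ) * ψ x‖ ^ 2 / ∑ x, laughlin N x ^ 2)
      ≤ (∑ x, (starRingEnd ℂ) (ψ x) * H (3 * (N - 1)) N ψ x).re := by
  obtain ⟨M, rfl⟩ : ∃ M, N = M + 2 := ⟨N - 2, by omega⟩
  have key := fun φ (hφ : IsAnti φ) => gap_of_sq (ψ := φ) (by omega) (laughlin_anti (M + 2))
    (laughlin_ne_zero _) (HR_laughlin hN) (fun φ hφ h0 => kernel_eq_laughlin hN hφ h0) hδ hsq hφ
  have h1 := key _ (isAnti_re hψ)
  have h2 := key _ (isAnti_im hψ)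
  have en : ∑ x, ‖ψ x‖ ^ 2 = ((fun x => (ψ x).re) ⬝ᵥ fun x => (ψ x).re)
      + ((fun x => (ψ x).im) ⬝ᵥ fun x => (ψ x).im) := by
    simp only [dotProduct, ← sum_add_distrib]
    refine sum_congr rfl fun x _ => ?_
    rw [Complex.sq_norm, Complex.normSq_apply]
  have eL : ‖∑ x, (laughlin (M + 2) x : ℂ) * ψ x‖ ^ 2
      = (laughlin (M + 2) ⬝ᵥ fun x => (ψ x).re) ^ 2
        + (laughlin (M + 2) ⬝ᵥ fun x => (ψ x).im) ^ 2 := by
    rw [Complex.sq_norm, Complex.normSq_apply]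
    simp [dotProduct, Complex.re_sum, Complex.im_sum, sq]
  have eH : (∑ x, (starRingEnd ℂ) (ψ x) * H (3 * (M + 2 - 1)) (M + 2) ψ x).re
      = ((fun x => (ψ x).re) ⬝ᵥ HR (3 * (M + 2 - 1)) (M + 2) fun x => (ψ x).re)
        + ((fun x => (ψ x).im) ⬝ᵥ HR (3 * (M + 2 - 1)) (M + 2) fun x => (ψ x).im) := by
    simp [dotProduct, Complex.re_sum, Complex.mul_re, re_H, im_H, sum_add_distrib]
  have eLL : ∑ x, laughlin (M + 2) x ^ 2 = laughlin (M + 2) ⬝ᵥ laughlin (M + 2) := by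
    simp [dotProduct, sq]
  rw [en, eL, eH, eLL, add_div]
  linarith

end P359
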