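import Vale.Agent.P359.CertDefs
import Vale.Agent.P359.MajorantThree
import Vale.Agent.P359.ChanTail
import Vale.Agent.P359.Killed
import Vale.Agent.P359.Tail1
import Vale.Agent.P359.Wrap

/-!
P359: assembly. A valid certificate whose sectors are eventually nonnegative gives the gap at the
Laughlin flux with an explicit constant.
-/

namespace P359

open Matrix Finset Filter Topology
open scoped BigOperators

/-- Square with a constant, where the image degree is only propositionally the source degree. -/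
theorem square_expand_row {A A' B M : ℕ} (α : ℝ) (G : ∀ a : ℕ, Matrix (Two a B) (Two A B) ℝ)
    (h : α = 0 ∨ A' = A) (φ : Reduced A B M) :
    0 ≤ α ^ 2 * nsqR φ + E1 ((2 * α) • G A + (G A')ᵀ * G A') φ
      + E2 ((act3 (G A'))ᵀ * act4 (G A')) φ := by
  rcases h with rfl | rfl
  · have := square_expand (G A') φ
    simpa using this
  · exact square_expand_const α (G A') φ

theorem quad_mul_transpose_of_mulVec {ι κ : Type*} [Fintype ι] [Fintype κ] (K : Matrix κ ι ℝ)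
    (v : ι → ℝ) : quad (Kᵀ * K) v = nsq (K *ᵥ v) := by
  rw [quad, ← mulVec_mulVec, dotProduct_mulVec, vecMul_transpose, nsq]

namespace Cert

variable (C : Cert)

/-- Row `s` with image impurity degree `A'`. -/
noncomputable def rowOp (Q : ℕ) (s : Fin C.S) (A' : ℕ) :
    Matrix (Two A' Q) (Two (2 * Q - 2) Q) ℝ :=
  ∑ n ∈ C.chans s, ((C.g s n : ℝ) * Real.sqrt Q ^ (n + C.img s n)) •
    (chan A' Q (2 * Q - 2 + Q - 2 * n) (C.img s n) *
      (chan (2 * Q - 2) Q (2 * Q - 2 + Q - 2 * n) n)ᵀ)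

theorem G_eq_rowOp (Q : ℕ) (s : Fin C.S) : C.G Q s = C.rowOp Q s (C.degA Q s) := rfl

/-- One-body part of the square of row `s`. -/
noncomputable def oneRow (Q : ℕ) (s : Fin C.S) :
    Matrix (Two (2 * Q - 2) Q) (Two (2 * Q - 2) Q) ℝ :=
  (2 * (C.α s : ℝ)) • C.rowOp Q s (2 * Q - 2) + (C.G Q s)ᵀ * C.G Q s

/-- One-body value of row `s` on channel `n`, at flux `Q`. -/
noncomputable def rowVal (Q : ℕ) (s : Fin C.S) (n : ℕ) : ℝ :=
  if n ∈ C.chans s then
    (if C.shift s = 0 then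
      2 * (C.α s : ℝ) * (C.g s n : ℝ) * ((Q : ℝ) ^ n * nsq (hwVec (2 * Q - 2) Q n)) else 0)
    + (C.g s n : ℝ) ^ 2 * ((Q : ℝ) ^ n * nsq (hwVec (2 * Q - 2) Q n))
      * ((Q : ℝ) ^ C.img s n * nsq (hwVec (C.degA Q s) Q (C.img s n)))
  else 0

/-- One-body remainder, with a multiple of the killed channels. -/
noncomputable def remOne (Q : ℕ) (c : ℝ) : Matrix (Two (2 * Q - 2) Q) (Two (2 * Q - 2) Q) ℝ :=
  (-2 : ℝ) • swapK Q - ∑ s, C.oneRow Q s + c • killedProj Q
    - ∑ n ∈ range (C.N0 + 1), ((C.v n : ℝ) / C.t3) • chanP Q n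

/-- Two-body remainder, symmetrised. -/
noncomputable def remTwo (Q : ℕ) : Matrix (Three (2 * Q - 2) Q) (Three (2 * Q - 2) Q) ℝ :=
  (1 / 2 : ℝ) • restK (2 * Q - 2) Q
    - (1 / 2 : ℝ) • ∑ s, ((act3 (C.G Q s))ᵀ * act4 (C.G Q s)
        + (act4 (C.G Q s))ᵀ * act3 (C.G Q s))
    + ((C.Λ : ℝ) / 2) • (act3 (killedProj Q) + act4 (killedProj Q))
    + ∑ n ∈ range (C.N0 + 1), ((C.v n : ℝ) / 2) •
        (chanTail (2 * Q - 2) Q C.t3 (chanP Q n)
          + (chanTail (2 * Q - 2) Q C.t3 (chanP Q n)).submatrix (swapEl _ Q) (swapEl _ Q))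

/-- The gap delivered by the certificate. -/
noncomputable def delta : ℝ :=
  1 - ∑ s, (C.α s : ℝ) ^ 2 - (C.ε1 : ℝ) / C.t1 - (C.ε2 : ℝ) / (C.t2 : ℝ) ^ 2

variable {C}

theorem mem_chans_iff {s : Fin C.S} {n : ℕ} :
    n ∈ C.chans s ↔ n ≤ C.N0 ∧ (0 : ℤ) ≤ n + C.shift s := by
  simp [chans]

theorem img_cast {s : Fin C.S} {n : ℕ} (hn : n ∈ C.chans s) :
    (C.img s n : ℤ) = n + C.shift s :=
  Int.toNat_of_nonneg (mem_chans_iff.1 hn).2

theorem chans_bound (hV : C.Valid) {s : Fin C.S} {n : ℕ} (hn : n ∈ C.chans s) :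
    n ≤ 28 ∧ C.img s n ≤ 30 := by
  have h1 := (mem_chans_iff.1 hn).1
  have h2 := hV.N0_le.2
  have h3 := img_cast hn
  have h4 := abs_le.1 (hV.shift_le s)
  omega

theorem degA_cast (hV : C.Valid) {Q : ℕ} (hQ : 40 ≤ Q) (s : Fin C.S) :
    (C.degA Q s : ℤ) = ((2 * Q - 2 : ℕ) : ℤ) + 2 * C.shift s := by
  have h4 := abs_le.1 (hV.shift_le s)
  exact Int.toNat_of_nonneg (by omega)

theorem row_side (hV : C.Valid) {Q : ℕ} (hQ : 40 ≤ Q) {s : Fin C.S} {n : ℕ} (hn : n ∈ C.chans s) :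
    n ≤ 2 * Q - 2 ∧ n ≤ Q ∧ C.img s n ≤ C.degA Q s ∧ C.img s n ≤ Q ∧
      2 * Q - 2 + Q - 2 * n + 2 * n = 2 * Q - 2 + Q ∧
      2 * Q - 2 + Q - 2 * n + 2 * C.img s n = C.degA Q s + Q := by
  have h1 := chans_bound hV hn
  have h2 := degA_cast hV hQ s
  have h3 := img_cast hn
  have h4 := abs_le.1 (hV.shift_le s)
  omega

theorem rowOp_intertwines (hV : C.Valid) {Q : ℕ} (hQ : 40 ≤ Q) (s : Fin C.S) {A' : ℕ}
    (hA' : A' = C.degA Q s) :
    Intertwines wt2 (raise2 (2 * Q - 2) Q) wt2 (raise2 A' Q) (C.shift s) (C.rowOp Q s A') := by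
  subst hA'
  refine Intertwines.sum _ fun n hn => ?_
  obtain ⟨h1, h2, h3, h4, h5, h6⟩ := row_side hV hQ hn
  refine ((((chan_intertwines h6 h3 h4).comp (chan_intertwines h5 h1 h2).transpose).cast
    ?_).smul _)
  have := img_cast hn
  omega

theorem G_intertwines (hV : C.Valid) {Q : ℕ} (hQ : 40 ≤ Q) (s : Fin C.S) :
    Intertwines wt2 (raise2 (2 * Q - 2) Q) wt2 (raise2 (C.degA Q s) Q) (C.shift s) (C.G Q s) :=
  rowOp_intertwines hV hQ s rfl

theorem degA_eq_of_shift_zero {Q : ℕ} {s : Fin C.S} (h : C.shift s = 0) :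
    C.degA Q s = 2 * Q - 2 := by
  simp [degA, h]

theorem img_eq_of_shift_zero {s : Fin C.S} {n : ℕ} (h : C.shift s = 0) : C.img s n = n := by
  simp [img, h]

theorem oneRow_intertwines (hV : C.Valid) {Q : ℕ} (hQ : 40 ≤ Q) (s : Fin C.S) :
    Intertwines wt2 (raise2 (2 * Q - 2) Q) wt2 (raise2 (2 * Q - 2) Q) 0 (C.oneRow Q s) := by
  refine Intertwines.add ?_ (((G_intertwines hV hQ s).transpose.comp
    (G_intertwines hV hQ s)).cast (by ring))
  by_cases h : C.shift s = 0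
  · exact ((rowOp_intertwines hV hQ s (degA_eq_of_shift_zero h).symm).cast h).smul _
  · rw [hV.alpha_zero s h, Rat.cast_zero, mul_zero, zero_smul]
    exact Intertwines.zero

theorem oneRow_transpose (hV : C.Valid) (Q : ℕ) (s : Fin C.S) :
    (C.oneRow Q s)ᵀ = C.oneRow Q s := by
  rw [oneRow, transpose_add, transpose_mul, transpose_transpose]
  congr 1
  by_cases h : C.shift s = 0
  · simp only [transpose_smul, rowOp, transpose_sum, transpose_mul, transpose_transpose,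
      img_eq_of_shift_zero h]
  · rw [hV.alpha_zero s h, Rat.cast_zero, mul_zero, zero_smul, transpose_zero]

theorem chan_pair_hwVec {A A' B D n n' m : ℕ} (hD : D + 2 * n = A + B) (hA : n ≤ A) (hB : n ≤ B)
    (hmA : m ≤ A) (hmB : m ≤ B) :
    (chan A' B D n' * (chan A B D n)ᵀ) *ᵥ hwVec A B m =
      if n = m then nsq (hwVec A B n) • hwVec A' B n' else 0 := by
  rw [← mulVec_mulVec]
  split_ifs with h
  · subst h
    rw [chan_transpose_hwVec_self hA hB,
      show (Pi.single 0 (nsq (hwVec A B n)) : Fin (D + 1) → ℝ)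
        = nsq (hwVec A B n) • (Pi.single 0 1) by rw [← Pi.single_smul, smul_eq_mul, mul_one],
      mulVec_smul, chan_mulVec_zero]
  · rw [chan_transpose_hwVec_ne hD hA hB hmA hmB (Ne.symm h), mulVec_zero]

theorem rowOp_hwVec (hV : C.Valid) {Q : ℕ} (hQ : 40 ≤ Q) (s : Fin C.S) (A' : ℕ) {n : ℕ}
    (hn : n ≤ Q) :
    C.rowOp Q s A' *ᵥ hwVec (2 * Q - 2) Q n =
      if n ∈ C.chans s then
        ((C.g s n : ℝ) * Real.sqrt Q ^ (n + C.img s n) * nsq (hwVec (2 * Q - 2) Q n)) •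
          hwVec A' Q (C.img s n)
      else 0 := by
  have e : ∀ m ∈ C.chans s, (((C.g s m : ℝ) * Real.sqrt Q ^ (m + C.img s m)) •
      (chan A' Q (2 * Q - 2 + Q - 2 * m) (C.img s m) *
        (chan (2 * Q - 2) Q (2 * Q - 2 + Q - 2 * m) m)ᵀ)) *ᵥ hwVec (2 * Q - 2) Q n =
      if m = n then ((C.g s m : ℝ) * Real.sqrt Q ^ (m + C.img s m)
        * nsq (hwVec (2 * Q - 2) Q m)) • hwVec A' Q (C.img s m) else 0 := fun m hm => by
    obtain ⟨h1, h2, -, -, h5, -⟩ := row_side hV hQ hm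
    rw [smul_mulVec, chan_pair_hwVec h5 h1 h2 (by omega) hn]
    split_ifs
    · rw [smul_smul]
    · rw [smul_zero]
  rw [rowOp, sum_mulVec, Finset.sum_congr rfl e, Finset.sum_ite_eq']

theorem quad_oneRow_hwVec (hV : C.Valid) {Q : ℕ} (hQ : 40 ≤ Q) (s : Fin C.S) {n : ℕ}
    (hn : n ≤ Q) :
    quad (C.oneRow Q s) (hwVec (2 * Q - 2) Q n) =
      C.rowVal Q s n * nsq (hwVec (2 * Q - 2) Q n) := by
  have e1 : quad (C.oneRow Q s) (hwVec (2 * Q - 2) Q n) =
      2 * (C.α s : ℝ) * (hwVec (2 * Q - 2) Q n ⬝ᵥ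
          (C.rowOp Q s (2 * Q - 2) *ᵥ hwVec (2 * Q - 2) Q n))
        + nsq (C.G Q s *ᵥ hwVec (2 * Q - 2) Q n) := by
    rw [oneRow, quad, add_mulVec, dotProduct_add, ← quad, ← quad, quad_mul_transpose_of_mulVec,
      quad, smul_mulVec, dotProduct_smul, smul_eq_mul]
  rw [e1, G_eq_rowOp, rowOp_hwVec hV hQ s _ hn, rowOp_hwVec hV hQ s _ hn, rowVal]
  by_cases hc : n ∈ C.chans s
  · have hQ0 : (0 : ℝ) ≤ Q := Nat.cast_nonneg _
    have hsq : ∀ k, Real.sqrt Q ^ (2 * k) = (Q : ℝ) ^ k := fun k => by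
      rw [pow_mul, Real.sq_sqrt hQ0]
    simp only [if_pos hc, dotProduct_smul, smul_dotProduct, smul_eq_mul, nsq]
    have hp : Real.sqrt Q ^ (n + C.img s n) * Real.sqrt Q ^ (n + C.img s n)
        = (Q : ℝ) ^ n * (Q : ℝ) ^ C.img s n := by
      rw [← pow_add, show n + C.img s n + (n + C.img s n) = 2 * (n + C.img s n) by ring, hsq,
        pow_add]
    by_cases h : C.shift s = 0
    · rw [if_pos h, img_eq_of_shift_zero h]
      rw [img_eq_of_shift_zero h] at hp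
      have h2 : Real.sqrt Q ^ (n + n) = (Q : ℝ) ^ n := by rw [← two_mul, hsq]
      rw [h2] at hp ⊢
      linear_combination (0 : ℝ) * hp
    · rw [if_neg h, hV.alpha_zero s h]
      push_cast
      linear_combination ((C.g s n : ℝ) ^ 2
        * (hwVec (2 * Q - 2) Q n ⬝ᵥ hwVec (2 * Q - 2) Q n) ^ 2
        * (hwVec (C.degA Q s) Q (C.img s n) ⬝ᵥ hwVec (C.degA Q s) Q (C.img s n))) * hp
  · simp [if_neg hc, nsq]

theorem killedProj_transpose (Q : ℕ) : (killedProj Q)ᵀ = killedProj Q := by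
  simp [killedProj, transpose_sum, transpose_mul]

theorem killedProj_intertwines {Q : ℕ} (hQ : 3 ≤ Q) :
    Intertwines wt2 (raise2 (2 * Q - 2) Q) wt2 (raise2 (2 * Q - 2) Q) 0 (killedProj Q) := by
  refine Intertwines.sum _ fun n hn => ?_
  have hn3 : n ≤ 3 := by
    simp only [killedCh, Finset.mem_insert, Finset.mem_singleton] at hn
    omega
  have h := chan_intertwines (A := 2 * Q - 2) (B := Q) (D := 2 * Q - 2 + Q - 2 * n) (n := n)
    (by omega) (by omega) (by omega)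
  exact ((h.comp h.transpose).cast (by ring)).smul _

theorem killedProj_hwVec {Q : ℕ} (hQ : 3 ≤ Q) {n : ℕ} (hn : n ≤ Q) :
    killedProj Q *ᵥ hwVec (2 * Q - 2) Q n =
      if n ∈ killedCh then hwVec (2 * Q - 2) Q n else 0 := by
  have e : ∀ m ∈ killedCh, ((nsq (hwVec (2 * Q - 2) Q m))⁻¹ •
      (chan (2 * Q - 2) Q (2 * Q - 2 + Q - 2 * m) m *
        (chan (2 * Q - 2) Q (2 * Q - 2 + Q - 2 * m) m)ᵀ)) *ᵥ hwVec (2 * Q - 2) Q n =
      if m = n then hwVec (2 * Q - 2) Q m else 0 := fun m hm => by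
    have hm3 : m ≤ 3 := by
      simp only [killedCh, Finset.mem_insert, Finset.mem_singleton] at hm
      omega
    rw [smul_mulVec, chan_pair_hwVec (by omega) (by omega) (by omega) (by omega) hn]
    split_ifs
    · rw [smul_smul, inv_mul_cancel₀ (nsq_hwVec_pos (by omega)).ne', one_smul]
    · rw [smul_zero]
  rw [killedProj, sum_mulVec, Finset.sum_congr rfl e, Finset.sum_ite_eq']

theorem quad_killedProj_hwVec {Q : ℕ} (hQ : 3 ≤ Q) {n : ℕ} (hn : n ≤ Q) :
    quad (killedProj Q) (hwVec (2 * Q - 2) Q n) =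
      if n ∈ killedCh then nsq (hwVec (2 * Q - 2) Q n) else 0 := by
  rw [quad, killedProj_hwVec hQ hn]
  split_ifs
  · rfl
  · rw [dotProduct_zero]

theorem E1_killedProj {Q M : ℕ} (hQ : 3 ≤ Q) {ψ : Config Q (M + 2) → ℝ} (hψ : IsAnti ψ) :
    E1 (killedProj Q) (reduce ψ) = 0 := by
  rw [killedProj, E1_sum]
  refine Finset.sum_eq_zero fun n hn => ?_
  simp only [killedCh, Finset.mem_insert, Finset.mem_singleton] at hn
  rw [E1_smul, killed_chan hQ hψ hn (by omega), mul_zero]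

theorem chanP_transpose (Q n : ℕ) : (chanP Q n)ᵀ = chanP Q n := by
  simp [chanP, transpose_mul]

theorem chanP_intertwines {Q n : ℕ} (hQ : n + 2 ≤ Q) :
    Intertwines wt2 (raise2 (2 * Q - 2) Q) wt2 (raise2 (2 * Q - 2) Q) 0 (chanP Q n) := by
  have h := chan_intertwines (A := 2 * Q - 2) (B := Q) (D := 2 * Q - 2 + Q - 2 * n) (n := n)
    (by omega) (by omega) (by omega)
  exact ((h.comp h.transpose).cast (by ring)).smul _

theorem chanP_idem {Q n : ℕ} (hQ : n + 2 ≤ Q) : (chanP Q n)ᵀ * chanP Q n = chanP Q n := by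
  rw [chanP_transpose]
  have hp := nsq_hwVec_pos (A := 2 * Q - 2) (show n ≤ Q by omega)
  have hg := chan_gram (A := 2 * Q - 2) (B := Q) (D := 2 * Q - 2 + Q - 2 * n) (n := n)
    (by omega) (by omega) (by omega)
  simp only [chanP, Matrix.smul_mul, Matrix.mul_smul, smul_smul]
  rw [Matrix.mul_assoc (chan (2 * Q - 2) Q (2 * Q - 2 + Q - 2 * n) n), ← Matrix.mul_assoc (chan
    (2 * Q - 2) Q (2 * Q - 2 + Q - 2 * n) n)ᵀ, hg, Matrix.smul_mul, Matrix.one_mul,
    Matrix.mul_smul, smul_smul]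
  congr 1
  field_simp

theorem quad_chanP_hwVec {Q k : ℕ} (hQ : k + 2 ≤ Q) {n : ℕ} (hn : n ≤ Q) :
    quad (chanP Q k) (hwVec (2 * Q - 2) Q n) =
      if k = n then nsq (hwVec (2 * Q - 2) Q n) else 0 := by
  rw [quad, chanP, smul_mulVec, chan_pair_hwVec (by omega) (by omega) (by omega) (by omega) hn]
  split_ifs with h
  · subst h
    rw [smul_smul, inv_mul_cancel₀ (nsq_hwVec_pos (by omega)).ne', one_smul]
    rfl
  · simp

theorem quad_remOne_hwVec (hV : C.Valid) {Q : ℕ} (hQ : 40 ≤ Q) (c : ℝ) {n : ℕ} (hn : n ≤ Q) :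
    quad (C.remOne Q c) (hwVec (2 * Q - 2) Q n) =
      (chanEig Q n - ∑ s, C.rowVal Q s n + (if n ∈ killedCh then c else 0)
          - (if n ≤ C.N0 then (C.v n : ℝ) / C.t3 else 0))
        * nsq (hwVec (2 * Q - 2) Q n) := by
  have e : quad (∑ s, C.oneRow Q s) (hwVec (2 * Q - 2) Q n) =
      (∑ s, C.rowVal Q s n) * nsq (hwVec (2 * Q - 2) Q n) := by
    rw [quad, sum_mulVec, dotProduct_sum, Finset.sum_mul]
    exact Finset.sum_congr rfl fun s _ => quad_oneRow_hwVec hV hQ s hn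
  have e2 := quad_swapK_hwVec (show 2 ≤ Q by omega) hn
  have e3 := quad_killedProj_hwVec (show 3 ≤ Q by omega) hn
  have e4 : quad (∑ k ∈ range (C.N0 + 1), ((C.v k : ℝ) / C.t3) • chanP Q k)
      (hwVec (2 * Q - 2) Q n) =
      (if n ≤ C.N0 then (C.v n : ℝ) / C.t3 else 0) * nsq (hwVec (2 * Q - 2) Q n) := by
    have hN := hV.N0_le.2
    rw [quad, sum_mulVec, dotProduct_sum]
    have e5 : ∀ k ∈ range (C.N0 + 1), hwVec (2 * Q - 2) Q n ⬝ᵥ
        ((((C.v k : ℝ) / C.t3) • chanP Q k) *ᵥ hwVec (2 * Q - 2) Q n) =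
        if k = n then (C.v k : ℝ) / C.t3 * nsq (hwVec (2 * Q - 2) Q n) else 0 := fun k hk => by
      rw [Finset.mem_range] at hk
      rw [smul_mulVec, dotProduct_smul, ← quad, quad_chanP_hwVec (by omega) hn, smul_eq_mul,
        mul_ite, mul_zero]
    rw [Finset.sum_congr rfl e5, Finset.sum_ite_eq']
    simp only [Finset.mem_range, Nat.lt_succ_iff, ite_mul, zero_mul]
  simp only [quad] at e e2 e3 e4
  simp only [quad, remOne, add_mulVec, sub_mulVec, smul_mulVec, dotProduct_add, dotProduct_sub,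
    dotProduct_smul, smul_eq_mul, e, e2, e3, e4]
  split_ifs <;> ring

theorem remOne_intertwines (hV : C.Valid) {Q : ℕ} (hQ : 40 ≤ Q) (c : ℝ) :
    Intertwines wt2 (raise2 (2 * Q - 2) Q) wt2 (raise2 (2 * Q - 2) Q) 0 (C.remOne Q c) :=
  ((((swapK_intertwines (by omega)).smul _).sub
    (Intertwines.sum _ fun s _ => oneRow_intertwines hV hQ s)).add
    ((killedProj_intertwines (by omega)).smul c)).sub
    (Intertwines.sum _ fun n hn => (chanP_intertwines (by
      have := hV.N0_le.2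
      rw [Finset.mem_range] at hn
      omega)).smul _)

theorem remOne_transpose (hV : C.Valid) (Q : ℕ) (c : ℝ) : (C.remOne Q c)ᵀ = C.remOne Q c := by
  simp only [remOne, transpose_add, transpose_sub, transpose_smul, transpose_sum,
    swapK_transpose, oneRow_transpose hV, killedProj_transpose, chanP_transpose]

theorem tendsto_degA_div (hV : C.Valid) (s : Fin C.S) :
    Tendsto (fun Q : ℕ => (C.degA Q s : ℝ) / Q) atTop (𝓝 2) := by
  have h1 : Tendsto (fun Q : ℕ => 2 + (2 * (C.shift s : ℝ) - 2) / Q) atTop (𝓝 (2 + 0)) :=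
    tendsto_const_nhds.add (tendsto_const_div_atTop_nhds_zero_nat _)
  rw [add_zero] at h1
  refine h1.congr' ?_
  filter_upwards [eventually_ge_atTop 40] with Q hQ
  have h : (C.degA Q s : ℤ) = 2 * (Q : ℤ) - 2 + 2 * C.shift s := by
    have := degA_cast hV hQ s
    omega
  have h' : (C.degA Q s : ℝ) = 2 * (Q : ℝ) - 2 + 2 * (C.shift s : ℝ) := by exact_mod_cast h
  have hQ' : (Q : ℝ) ≠ 0 := by
    have : (40 : ℝ) ≤ Q := by exact_mod_cast hQ
    linarith
  rw [h']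
  field_simp
  ring

theorem tendsto_sum_rowVal (hV : C.Valid) (n : ℕ) :
    Tendsto (fun Q : ℕ => ∑ s, C.rowVal Q s n) atTop (𝓝 (C.beta n : ℝ)) := by
  rw [beta, Rat.cast_sum, Finset.sum_filter]
  refine tendsto_finsetSum _ fun s _ => ?_
  simp only [rowVal]
  split_ifs with hc h
  · push_cast
    refine Tendsto.add (Tendsto.const_mul _ ?_) (Tendsto.mul (Tendsto.const_mul _ ?_) ?_)
    · exact tendsto_nsq_hwVec two_pos (by simpa using tendsto_two_mul_add_sub 0 2)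
        tendsto_self_div n
    · exact tendsto_nsq_hwVec two_pos (by simpa using tendsto_two_mul_add_sub 0 2)
        tendsto_self_div n
    · exact tendsto_nsq_hwVec two_pos (by simpa using tendsto_degA_div hV s) tendsto_self_div _
  · push_cast
    refine Tendsto.add tendsto_const_nhds (Tendsto.mul (Tendsto.const_mul _ ?_) ?_)
    · exact tendsto_nsq_hwVec two_pos (by simpa using tendsto_two_mul_add_sub 0 2)
        tendsto_self_div n
    · exact tendsto_nsq_hwVec two_pos (by simpa using tendsto_degA_div hV s) tendsto_self_div _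
  · exact tendsto_const_nhds

/-- The one-body remainder is above the majorant slack on every channel, for large flux. -/
theorem one_body_eventually (hV : C.Valid) : ∃ c : ℝ, ∀ᶠ Q : ℕ in atTop, ∀ n ≤ Q,
    -((C.ε1 : ℝ) * (1 / 2 * (1 - 2 * (C.t1 : ℝ)) ^ n)) ≤
      chanEig Q n - ∑ s, C.rowVal Q s n + (if n ∈ killedCh then c else 0)
        - (if n ≤ C.N0 then (C.v n : ℝ) / C.t3 else 0) := by
  set K : ℕ → ℝ := fun n => -((pEig n : ℚ) : ℝ) + (C.beta n : ℝ)
    + (if n ≤ C.N0 then (C.v n : ℝ) / C.t3 else 0) with hK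
  refine ⟨1 + ∑ n ∈ killedCh, |K n|, ?_⟩
  set c := 1 + ∑ n ∈ killedCh, |K n| with hc
  have ht1 : (C.t1 : ℝ) ≤ 1 / 5 := by
    have := (Rat.cast_le (K := ℝ)).2 hV.t1.2
    push_cast at this
    exact this
  have he1 : (0 : ℝ) < C.ε1 := by exact_mod_cast hV.eps1
  have slack : ∀ n : ℕ, 0 ≤ (C.ε1 : ℝ) * (1 / 2 * (1 - 2 * (C.t1 : ℝ)) ^ n) := fun n => by
    have : 0 ≤ (1 - 2 * (C.t1 : ℝ)) ^ n := pow_nonneg (by linarith) n
    positivity
  have small : ∀ n ∈ range 41, ∀ᶠ Q : ℕ in atTop,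
      -((C.ε1 : ℝ) * (1 / 2 * (1 - 2 * (C.t1 : ℝ)) ^ n)) ≤
        chanEig Q n - ∑ s, C.rowVal Q s n + (if n ∈ killedCh then c else 0)
          - (if n ≤ C.N0 then (C.v n : ℝ) / C.t3 else 0) := by
    intro n hn
    have h := ((tendsto_chanEig n).sub (tendsto_sum_rowVal hV n)).add_const
      (if n ∈ killedCh then c else 0)
    have e : (3 * (n : ℝ) - 1) * (-1 / 2 : ℝ) ^ n = ((pEig n : ℚ) : ℝ) := by
      simp [pEig]
    rw [e] at h
    refine (h.sub_const (if n ≤ C.N0 then (C.v n : ℝ) / C.t3 else 0)).eventually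
      (Ici_mem_nhds ?_)
    by_cases hk : n ∈ killedCh
    · rw [if_pos hk]
      have h1 : K n ≤ ∑ m ∈ killedCh, |K m| :=
        (le_abs_self _).trans (Finset.single_le_sum (f := fun m => |K m|) (fun m _ => abs_nonneg _) hk)
      have h2 := slack n
      simp only [hK] at h1 hc
      linarith
    · rw [if_neg hk]
      have h1 := (Rat.cast_lt (K := ℝ)).2
        (hV.one_body n (Nat.lt_succ_iff.1 (Finset.mem_range.1 hn)) hk)
      simp only [Rat.cast_add, apply_ite (Rat.cast : ℚ → ℝ), Rat.cast_div, Rat.cast_zero,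
        Rat.cast_mul, Rat.cast_pow, Rat.cast_sub, Rat.cast_one, Rat.cast_ofNat] at h1
      split_ifs at h1 ⊢ <;> linarith
  filter_upwards [(eventually_all_finset (range 41)).2 small, eventually_ge_atTop 51] with Q h hQ n hn
  by_cases h40 : n ≤ 40
  · exact h n (Finset.mem_range.2 (by omega))
  · have hz : ∀ s, C.rowVal Q s n = 0 := fun s => by
      rw [rowVal, if_neg fun hm => ?_]
      have := (chans_bound hV hm).1
      omega
    have hk : n ∉ killedCh := by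
      simp only [killedCh, Finset.mem_insert, Finset.mem_singleton]
      omega
    have h0 : ((40 : ℕ) : ℝ) * (51 / 100) ^ 40 ≤
        (C.ε1 : ℝ) / 6 * (1 - 2 * (C.t1 : ℝ)) ^ 40 := by
      have := (Rat.cast_le (K := ℝ)).2 hV.one_body_tail
      push_cast at this ⊢
      linarith
    have hb := abs_chanEig_tail (t := (C.t1 : ℝ)) hQ (by norm_num) (by linarith)
      (by push_cast; linarith) h0 (n := n) (by omega) hn
    have := neg_abs_le (chanEig Q n)
    have hN : ¬ n ≤ C.N0 := by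
      have := hV.N0_le.2
      omega
    simp only [hz, Finset.sum_const_zero, if_neg hk, if_neg hN, sub_zero, add_zero]
    linarith

theorem remTwo_intertwines (hV : C.Valid) {Q : ℕ} (hQ : 40 ≤ Q) :
    Intertwines wt3 (raise3 (2 * Q - 2) Q) wt3 (raise3 (2 * Q - 2) Q) 0 (C.remTwo Q) := by
  have hK := killedProj_intertwines (show 3 ≤ Q by omega)
  refine ((((restK_intertwines (by omega)).smul _).sub
    ((Intertwines.sum _ fun s _ => ?_).smul _)).add ((hK.act3.add hK.act4).smul _)).add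
    (Intertwines.sum _ fun n hn => ((?_ : Intertwines _ _ _ _ _ _).add
      (?_ : Intertwines _ _ _ _ _ _)).smul _)
  rotate_left
  · exact chanTail_intertwines (by omega) _ (chanP_intertwines (by
      have := hV.N0_le.2
      rw [Finset.mem_range] at hn
      omega))
  · exact (chanTail_intertwines (by omega) _ (chanP_intertwines (by
      have := hV.N0_le.2
      rw [Finset.mem_range] at hn
      omega))).swapEl
  have h := G_intertwines hV hQ s
  exact (h.cross h).add ((h.act4.transpose.comp h.act3).cast (by ring))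

theorem act4_transpose_eq {A A' B : ℕ} (G : Matrix (Two A' B) (Two A B) ℝ) :
    (act4 G)ᵀ = act4 Gᵀ := (act4_transpose' G).symm

theorem remTwo_transpose (Q : ℕ) : (C.remTwo Q)ᵀ = C.remTwo Q := by
  simp only [remTwo, transpose_add, transpose_sub, transpose_smul, transpose_sum, transpose_mul,
    transpose_transpose, restK_transpose, ← act3_transpose' (killedProj Q),
    ← act4_transpose' (killedProj Q), killedProj_transpose, transpose_submatrix, chanTail_transpose]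
  simp only [Finset.sum_add_distrib, smul_add]
  abel

theorem remTwo_swapEl (Q : ℕ) :
    (C.remTwo Q).submatrix (swapEl _ Q) (swapEl _ Q) = C.remTwo Q := by
  have hinv : ∀ p : Three (2 * Q - 2) Q, swapEl _ Q (swapEl _ Q p) = p := fun _ => rfl
  have hW : ∀ s, ((act4 (C.G Q s))ᵀ * act3 (C.G Q s)).submatrix (swapEl _ Q) (swapEl _ Q)
      = (act3 (C.G Q s))ᵀ * act4 (C.G Q s) := fun s => by
    rw [← cross_swapEl]
    ext p q
    simp only [submatrix_apply, hinv]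
  have h4 : (act4 (killedProj Q)).submatrix (swapEl _ Q) (swapEl _ Q) = act3 (killedProj Q) := by
    rw [act4_eq]
    ext p q
    simp only [submatrix_apply, hinv]
  have hsumN : ∀ (f : ℕ → Matrix (Three (2 * Q - 2) Q) (Three (2 * Q - 2) Q) ℝ),
      (∑ n ∈ range (C.N0 + 1), f n).submatrix (swapEl _ Q) (swapEl _ Q)
        = ∑ n ∈ range (C.N0 + 1), (f n).submatrix (swapEl _ Q) (swapEl _ Q) := fun f => by
    ext p q
    simp [Matrix.sum_apply]
  have hinv2 : ∀ X : Matrix (Three (2 * Q - 2) Q) (Three (2 * Q - 2) Q) ℝ,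
      (X.submatrix (swapEl _ Q) (swapEl _ Q)).submatrix (swapEl _ Q) (swapEl _ Q) = X := fun X => by
    ext p q
    simp only [submatrix_apply, hinv]
  have hsum : ∀ (f : Fin C.S → Matrix (Three (2 * Q - 2) Q) (Three (2 * Q - 2) Q) ℝ),
      (∑ s, f s).submatrix (swapEl _ Q) (swapEl _ Q)
        = ∑ s, (f s).submatrix (swapEl _ Q) (swapEl _ Q) := fun f => by
    ext p q
    simp [Matrix.sum_apply]
  simp only [remTwo, submatrix_add, submatrix_sub, submatrix_smul, Pi.add_apply, Pi.sub_apply,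
    Pi.smul_apply, hsum, hsumN, hinv2, restK_swapEl, hW, cross_swapEl, h4, ← act4_eq]
  simp only [Finset.sum_add_distrib, smul_add]
  abel

theorem quad_transpose {ι : Type*} [Fintype ι] (K : Matrix ι ι ℝ) (v : ι → ℝ) :
    quad Kᵀ v = quad K v := by
  rw [quad, quad, mulVec_transpose, dotProduct_comm, dotProduct_mulVec]

theorem quad_act4_eq_act3 {A B : ℕ} (K : Matrix (Two A B) (Two A B) ℝ) {F : Three A B → ℝ}
    (hanti : ∀ a b e, F (a, b, e) = -F (a, e, b)) : quad (act4 K) F = quad (act3 K) F := by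
  rw [quad_act4, quad_act3]
  refine Finset.sum_congr rfl fun b _ => ?_
  rw [show (fun p : Two A B => F (p.1, b, p.2)) = -(fun p : Two A B => F (p.1, p.2, b)) from
    funext fun p => hanti p.1 b p.2]
  simp [quad, mulVec_neg]

theorem quad_remTwo_ge (hV : C.Valid) {Q L : ℕ} (hQ : 40 ≤ Q) (hS : C.SectorPos Q L) {F : Three (2 * Q - 2) Q → ℝ}
    (hF : Supp wt3 L F) (hJ : raise3 (2 * Q - 2) Q *ᵥ F = 0)
    (hanti : ∀ a b e, F (a, b, e) = -F (a, e, b)) :
    -((C.ε2 : ℝ) / 2 * (1 / 4 * (1 - 2 * (C.t2 : ℝ)) ^ (3 * L))) * nsq F ≤ quad (C.remTwo Q) F := by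
  have h := hS F hF hJ hanti
  have e4 := quad_act4_eq_act3 (killedProj Q) hanti
  have es : ∀ s, quad ((act4 (C.G Q s))ᵀ * act3 (C.G Q s)) F
      = quad ((act3 (C.G Q s))ᵀ * act4 (C.G Q s)) F := fun s => by
    rw [← quad_transpose ((act3 (C.G Q s))ᵀ * act4 (C.G Q s)), transpose_mul, transpose_transpose]
  have ht : (0 : ℝ) < C.t3 ∧ (C.t3 : ℝ) ≤ 1 / 5 := by
    have h1 := (Rat.cast_lt (K := ℝ)).2 hV.t3.1
    have h2 := (Rat.cast_le (K := ℝ)).2 hV.t3.2
    push_cast at h1 h2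
    exact ⟨h1, h2⟩
  have etail : ∀ n ∈ range (C.N0 + 1), (C.v n : ℝ) * C.tailW L * quad (act3 (chanP Q n)) F ≤
      (C.v n : ℝ) * quad (chanTail (2 * Q - 2) Q C.t3 (chanP Q n)) F := fun n hn => by
    have hN := hV.N0_le.2
    rw [Finset.mem_range] at hn
    have h1 := chanTail_lower (A := 2 * Q - 2) (B := Q) (by omega) ht.1.le ht.2
      (chanP_idem (n := n) (by omega)) (chanP_intertwines (by omega)) (L := L) F
      (fun p hp => hF p (by omega : wt3 p ≠ L))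
    have e : ((C.tailW L : ℚ) : ℝ) = (1 - 2 * (C.t3 : ℝ)) * (1 - 8 / 5 * (C.t3 : ℝ)) ^ L := by
      simp [tailW]
    rw [e, mul_assoc]
    exact mul_le_mul_of_nonneg_left h1 (by exact_mod_cast hV.v_nonneg n)
  have etsum := Finset.sum_le_sum etail
  have esw : ∀ n, quad ((chanTail (2 * Q - 2) Q C.t3 (chanP Q n)).submatrix (swapEl _ Q)
      (swapEl _ Q)) F = quad (chanTail (2 * Q - 2) Q C.t3 (chanP Q n)) F :=
    fun n => quad_chanTail_swap _ _ hanti
  have ehalf : ∑ n ∈ range (C.N0 + 1), (C.v n : ℝ) / 2 *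
      (quad (chanTail (2 * Q - 2) Q C.t3 (chanP Q n)) F
        + quad (chanTail (2 * Q - 2) Q C.t3 (chanP Q n)) F)
      = ∑ n ∈ range (C.N0 + 1), (C.v n : ℝ) * quad (chanTail (2 * Q - 2) Q C.t3 (chanP Q n)) F :=
    Finset.sum_congr rfl fun n _ => by ring
  simp only [margin] at h
  push_cast at h
  simp only [quad] at e4 es h esw etsum ehalf
  simp only [quad, remTwo, add_mulVec, sub_mulVec, smul_mulVec, sum_mulVec, dotProduct_add,
    dotProduct_sub, dotProduct_smul, dotProduct_sum, smul_eq_mul, es, e4, esw,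
    Finset.sum_add_distrib]
  rw [ehalf]
  linarith

theorem E2_remTwo {Q M : ℕ} (hQ : 3 ≤ Q) {ψ : Config Q (M + 2) → ℝ} (hψ : IsAnti ψ) :
    E2 (C.remTwo Q) (reduce ψ) = 1 / 2 * E2 (restK (2 * Q - 2) Q) (reduce ψ)
      - ∑ s, E2 ((act3 (C.G Q s))ᵀ * act4 (C.G Q s)) (reduce ψ)
      + ∑ n ∈ range (C.N0 + 1),
          (C.v n : ℝ) * E2 (chanTail (2 * Q - 2) Q C.t3 (chanP Q n)) (reduce ψ) := by
  have e : ∀ s, E2 ((act4 (C.G Q s))ᵀ * act3 (C.G Q s)) (reduce ψ)
      = E2 ((act3 (C.G Q s))ᵀ * act4 (C.G Q s)) (reduce ψ) := fun s => by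
    rw [← cross_swapEl, E2_swapEl]
  rw [remTwo, E2_add, E2_add, E2_sub, E2_smul, E2_smul, E2_smul, E2_sum, E2_sum, E2_add, E2_act3,
    E2_act4, E1_killedProj hQ hψ]
  have et : ∀ n ∈ range (C.N0 + 1), E2 (((C.v n : ℝ) / 2) •
      (chanTail (2 * Q - 2) Q C.t3 (chanP Q n)
        + (chanTail (2 * Q - 2) Q C.t3 (chanP Q n)).submatrix (swapEl _ Q) (swapEl _ Q)))
      (reduce ψ) = (C.v n : ℝ) * E2 (chanTail (2 * Q - 2) Q C.t3 (chanP Q n)) (reduce ψ) :=
    fun n _ => by rw [E2_smul, E2_add, E2_swapEl]; ring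
  rw [Finset.sum_congr rfl et]
  simp only [E2_add, e, Finset.sum_add_distrib]
  ring

theorem E1_remOne {Q M : ℕ} (hQ : 3 ≤ Q) (c : ℝ) {ψ : Config Q (M + 2) → ℝ} (hψ : IsAnti ψ) :
    E1 (C.remOne Q c) (reduce ψ) = -2 * E1 (swapK Q) (reduce ψ)
      - ∑ s, E1 (C.oneRow Q s) (reduce ψ)
      - ∑ n ∈ range (C.N0 + 1), (C.v n : ℝ) / C.t3 * E1 (chanP Q n) (reduce ψ) := by
  rw [remOne, E1_sub, E1_add, E1_sub, E1_smul, E1_smul, E1_sum, E1_sum, E1_killedProj hQ hψ]
  simp only [E1_smul]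
  ring

theorem square_row (hV : C.Valid) {Q M : ℕ} (s : Fin C.S) (φ : Reduced (2 * Q - 2) Q M) :
    0 ≤ (C.α s : ℝ) ^ 2 * nsqR φ + E1 (C.oneRow Q s) φ
      + E2 ((act3 (C.G Q s))ᵀ * act4 (C.G Q s)) φ := by
  refine square_expand_row (C.α s : ℝ) (C.rowOp Q s) ?_ φ
  by_cases h : C.shift s = 0
  · exact Or.inr (degA_eq_of_shift_zero h)
  · exact Or.inl (by rw [hV.alpha_zero s h, Rat.cast_zero])

theorem delta_pos (hV : C.Valid) : 0 < C.delta := by
  have h := (Rat.cast_lt (K := ℝ)).2 hV.gap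
  push_cast at h
  rw [delta]
  linarith

/-- `‖Hψ‖² ≥ δ ⟨ψ, Hψ⟩` for all large fluxes and all particle numbers. -/
theorem sq_gap (hV : C.Valid) (hS : ∀ᶠ Q : ℕ in atTop, ∀ L, C.SectorPos Q L) :
    ∃ Q0 : ℕ, ∀ Q ≥ Q0, ∀ (M : ℕ) (ψ : Config Q (M + 2) → ℝ), IsAnti ψ →
      C.delta * (ψ ⬝ᵥ HR Q (M + 2) ψ) ≤ nsq (HR Q (M + 2) ψ) := by
  obtain ⟨c, hc⟩ := one_body_eventually hV
  obtain ⟨Q0, h0⟩ := eventually_atTop.1 (hc.and (hS.and (eventually_ge_atTop 51)))
  refine ⟨Q0, fun Q hQ M ψ hψ => ?_⟩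
  obtain ⟨h1, h2, h51⟩ := h0 Q hQ
  obtain ⟨hanti, hen, hsq⟩ := reduce_energy (show 2 ≤ Q by omega) hψ
  set φ := reduce ψ with hφ
  have hn : 0 ≤ nsqR φ := Finset.sum_nonneg fun _ _ => Finset.sum_nonneg fun _ _ => sq_nonneg _
  have hBA : Q ≤ 2 * Q - 2 := by omega
  have he1 : (0 : ℝ) < C.ε1 := by exact_mod_cast hV.eps1
  have he2 : (0 : ℝ) < C.ε2 := by exact_mod_cast hV.eps2
  have ht1a : (0 : ℝ) < C.t1 := by exact_mod_cast hV.t1.1
  have ht2a : (0 : ℝ) < C.t2 := by exact_mod_cast hV.t2.1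
  have ht1b : (C.t1 : ℝ) ≤ 1 / 5 := by
    have := (Rat.cast_le (K := ℝ)).2 hV.t1.2
    push_cast at this
    exact this
  have ht2b : (C.t2 : ℝ) ≤ 1 / 5 := by
    have := (Rat.cast_le (K := ℝ)).2 hV.t2.2
    push_cast at this
    linarith
  have b1 := E1_tail_lower hBA ht1a ht1b he1.le (remOne_transpose hV Q c)
    (remOne_intertwines hV (by omega) c) (fun n hnQ => by
      rw [quad_remOne_hwVec hV (by omega) c hnQ]
      exact mul_le_mul_of_nonneg_right (h1 n hnQ) (nsq_nonneg _)) hanti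
  have b2 := E2_tail_lower hBA ht2a ht2b (half_pos he2).le (remTwo_transpose Q)
    (remTwo_intertwines hV (by omega)) (remTwo_swapEl Q)
    (fun m F hF hJ ha => quad_remTwo_ge hV (by omega) (h2 m) hF hJ ha) hanti
  rw [E1_remOne (by omega) c hψ, ← hφ] at b1
  rw [E2_remTwo (by omega) hψ, ← hφ] at b2
  have b3 : 0 ≤ (∑ s, (C.α s : ℝ) ^ 2) * nsqR φ + ∑ s, E1 (C.oneRow Q s) φ
      + ∑ s, E2 ((act3 (C.G Q s))ᵀ * act4 (C.G Q s)) φ := by
    rw [Finset.sum_mul, ← Finset.sum_add_distrib, ← Finset.sum_add_distrib]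
    exact Finset.sum_nonneg fun s _ => square_row hV s φ
  have b4 : ∑ n ∈ range (C.N0 + 1), (C.v n : ℝ) * E2 (chanTail (2 * Q - 2) Q C.t3 (chanP Q n)) φ
      ≤ ∑ n ∈ range (C.N0 + 1), (C.v n : ℝ) / C.t3 * E1 (chanP Q n) φ := by
    refine Finset.sum_le_sum fun n hn => ?_
    rw [Finset.mem_range] at hn
    have hN := hV.N0_le.2
    have ht3a : (0 : ℝ) < C.t3 := by exact_mod_cast hV.t3.1
    have ht3b : (C.t3 : ℝ) ≤ 1 := by
      have := (Rat.cast_le (K := ℝ)).2 hV.t3.2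
      push_cast at this
      linarith
    refine (mul_le_mul_of_nonneg_left (E2_chanTail_le hBA ht3a ht3b (chanP_idem (by omega)) hanti)
      (by exact_mod_cast hV.v_nonneg n)).trans (le_of_eq ?_)
    ring
  have key : C.delta * nsqR φ ≤ nsqR φ - 2 * E1 (swapK Q) φ
      + 1 / 2 * E2 (restK (2 * Q - 2) Q) φ := by
    have e : C.delta * nsqR φ = nsqR φ - (∑ s, (C.α s : ℝ) ^ 2) * nsqR φ
        + -((C.ε1 : ℝ) / C.t1) * nsqR φ
        + -(2 * ((C.ε2 : ℝ) / 2) / (C.t2 : ℝ) ^ 2) * nsqR φ := by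
      rw [delta]; ring
    linarith
  have h3 := mul_le_mul_of_nonneg_left key (Nat.cast_nonneg ((M + 2).choose 2) : (0 : ℝ) ≤ _)
  rw [hen, hsq]
  linarith

/-- The gap at the Laughlin flux from a certificate. -/
theorem gap_of_cert (hV : C.Valid) (hS : ∀ᶠ Q : ℕ in atTop, ∀ L, C.SectorPos Q L) :
    ∃ δ : ℝ, 0 < δ ∧ ∃ N0 : ℕ, ∀ N ≥ N0, ∀ ψ : Config (3 * (N - 1)) N → ℂ, IsAnti ψ →
      δ * (∑ x, ‖ψ x‖ ^ 2 - ‖∑ x, (laughlin N x : ℂ) * ψ x‖ ^ 2 / ∑ x, laughlin N x ^ 2)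
        ≤ (∑ x, (starRingEnd ℂ) (ψ x) * H (3 * (N - 1)) N ψ x).re := by
  obtain ⟨Q0, h0⟩ := sq_gap hV hS
  refine ⟨C.delta, delta_pos hV, Q0 + 2, fun N hN ψ hψ =>
    gap_complex (by omega) (delta_pos hV).le (fun φ hφ => ?_) hψ⟩
  obtain ⟨M, rfl⟩ : ∃ M, N = M + 2 := ⟨N - 2, by omega⟩
  exact h0 _ (by omega) M φ hφ

end Cert

end P359
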