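import Mathlib

/-!
Shared definitions for P359 (gap of the spherical Laughlin Hamiltonian).

Coordinates: `U_Q` has the orthonormal basis `e_a = √(C(Q,a)) u^a v^(Q-a)`, `a : Fin (Q+1)`.
In the auxiliary pair/triple spaces `a` is also the weight deficit; the lowering of deficits
`raise A` is `d/dz` on dehomogenised polynomials of degree `≤ A` with `|z^a|² = 1/C(A,a)`.
-/

namespace P359

open Matrix
open scoped BigOperators

/-- One-particle configurations of `N` particles. -/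
abbrev Config (Q N : ℕ) := Fin N → Fin (Q + 1)

/-- Antisymmetric tensors. -/
def IsAnti {Q N : ℕ} {R : Type*} [Ring R] (ψ : Config Q N → R) : Prop :=
  ∀ (σ : Equiv.Perm (Fin N)) (x : Config Q N), ψ (x ∘ σ) = ((σ.sign : ℤ) : R) * ψ x

/-- Orthonormal coordinates of the spin `Q-1` vector of total weight `a+b` in `U_Q ⊗ U_Q`
(not normalised). -/
noncomputable def g1 (Q a b : ℕ) : ℝ :=
  ((a : ℝ) - b) * Real.sqrt ((Q.choose a : ℝ) * Q.choose b)

/-- Matrix of the orthogonal projection onto the spin `Q-1` component of `U_Q ⊗ U_Q`. -/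
noncomputable def P1 (Q a b a' b' : ℕ) : ℝ :=
  if a + b = a' + b' then
    g1 Q a b * g1 Q a' b' / ((2 * Q : ℝ) * (2 * Q - 2).choose (a + b - 1))
  else 0

/-- `H_{N,Q} = ∑_{i<j} P^{(1)}_{ij}` acting on tensors, real scalars. -/
noncomputable def HR (Q N : ℕ) (ψ : Config Q N → ℝ) : Config Q N → ℝ := fun x =>
  ∑ i : Fin N, ∑ j ∈ Finset.univ.filter (fun j => i < j),
    ∑ a : Fin (Q + 1), ∑ b : Fin (Q + 1),
      P1 Q (x i) (x j) a b * ψ (Function.update (Function.update x i a) j b)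

/-- The same operator on complex tensors. -/
noncomputable def H (Q N : ℕ) (ψ : Config Q N → ℂ) : Config Q N → ℂ := fun x =>
  ∑ i : Fin N, ∑ j ∈ Finset.univ.filter (fun j => i < j),
    ∑ a : Fin (Q + 1), ∑ b : Fin (Q + 1),
      (P1 Q (x i) (x j) a b : ℂ) * ψ (Function.update (Function.update x i a) j b)

/-- The Laughlin vector `∏_{i<j} (u_i v_j - u_j v_i)^3` at `Q = 3(N-1)`, in orthonormal
coordinates: coefficient of the dehomogenised polynomial over `∏ √(C(Q,x_i))`. -/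
noncomputable def laughlin (N : ℕ) : Config (3 * (N - 1)) N → ℝ := fun x =>
  MvPolynomial.coeff (Finsupp.equivFunOnFinite.symm fun i => (x i : ℕ))
      (∏ i : Fin N, ∏ j ∈ Finset.univ.filter (fun j => i < j),
        (MvPolynomial.X i - MvPolynomial.X j : MvPolynomial (Fin N) ℝ) ^ 3)
    / ∏ i, Real.sqrt ((3 * (N - 1)).choose (x i : ℕ) : ℝ)

/-! ### Pair and triple spaces -/

/-- Impurity of degree `A` and one electron of degree `B`. -/
abbrev Two (A B : ℕ) := Fin (A + 1) × Fin (B + 1)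

/-- Impurity and two electrons. -/
abbrev Three (A B : ℕ) := Fin (A + 1) × Fin (B + 1) × Fin (B + 1)

abbrev wt2 {A B : ℕ} (p : Two A B) : ℕ := p.1 + p.2

abbrev wt3 {A B : ℕ} (p : Three A B) : ℕ := p.1 + p.2.1 + p.2.2

/-- Quadratic form of a real matrix. -/
def quad {ι : Type*} [Fintype ι] (K : Matrix ι ι ℝ) (v : ι → ℝ) : ℝ := v ⬝ᵥ (K *ᵥ v)

/-- Squared norm. -/
def nsq {ι : Type*} [Fintype ι] (v : ι → ℝ) : ℝ := v ⬝ᵥ v

/-- Raising operator `J₊` of `U_A`. -/
noncomputable def raise (A : ℕ) : Matrix (Fin (A + 1)) (Fin (A + 1)) ℝ := fun a a' =>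
  if (a' : ℕ) = a + 1 then Real.sqrt (((a : ℝ) + 1) * ((A : ℝ) - a)) else 0

/-- `J₊` of impurity and electron. -/
noncomputable def raise2 (A B : ℕ) : Matrix (Two A B) (Two A B) ℝ := fun p q =>
  (if p.2 = q.2 then raise A p.1 q.1 else 0) + (if p.1 = q.1 then raise B p.2 q.2 else 0)

/-- `J₊` of impurity and two electrons. -/
noncomputable def raise3 (A B : ℕ) : Matrix (Three A B) (Three A B) ℝ := fun p q =>
  (if p.2 = q.2 then raise A p.1 q.1 else 0)
    + (if p.1 = q.1 ∧ p.2.2 = q.2.2 then raise B p.2.1 q.2.1 else 0)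
    + (if p.1 = q.1 ∧ p.2.1 = q.2.1 then raise B p.2.2 q.2.2 else 0)

/-- A linear map which shifts weights by `d` and intertwines `J₊` and `J₋`. -/
structure Intertwines {ι κ : Type*} [Fintype ι] [Fintype κ] (w : ι → ℕ) (J : Matrix ι ι ℝ)
    (w' : κ → ℕ) (J' : Matrix κ κ ℝ) (d : ℤ) (K : Matrix κ ι ℝ) : Prop where
  weight : ∀ i j, K i j ≠ 0 → (w' i : ℤ) = w j + d
  up : J' * K = K * J
  down : J'ᵀ * K = K * Jᵀ

/-- Coefficient of `Z^a z^b` in the image of `R^m` under the channel map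
`U_(A+B-2n) → U_A ⊗ U_B`, i.e. `(Z-z)^n` times the polarisation of `R^m`. -/
noncomputable def chanCoef (A B n a b m : ℕ) : ℝ :=
  ∑ i ∈ Finset.range (n + 1),
    if i ≤ a ∧ n - i ≤ b ∧ a + b = m + n then
      (-1 : ℝ) ^ (n - i) * n.choose i * (A - n).choose (a - i) * (B - n).choose (b - (n - i))
        / (A + B - 2 * n).choose m
    else 0

/-- The channel map `U_D → U_A ⊗ U_B`, for `D + 2 n = A + B`, orthonormal coordinates;
`e_0` goes to `(Z-z)^n`. -/
noncomputable def chan (A B D n : ℕ) : Matrix (Two A B) (Fin (D + 1)) ℝ := fun p m =>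
  chanCoef A B n p.1 p.2 m * Real.sqrt (D.choose (m : ℕ))
    / Real.sqrt ((A.choose (p.1 : ℕ) : ℝ) * B.choose (p.2 : ℕ))

/-- The vector `(Z-z)^n` in orthonormal coordinates. -/
noncomputable def hwVec (A B n : ℕ) : Two A B → ℝ := fun p =>
  if (p.1 : ℕ) + p.2 = n then
    (-1 : ℝ) ^ (p.2 : ℕ) * n.choose (p.1 : ℕ)
      / Real.sqrt ((A.choose (p.1 : ℕ) : ℝ) * B.choose (p.2 : ℕ))
  else 0

/-- The isometry `U_(2Q-2) → U_Q ⊗ U_Q` with range the spin `Q-1` component. -/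
noncomputable def pairIso (Q : ℕ) : Matrix (Two Q Q) (Fin (2 * Q - 2 + 1)) ℝ := fun p m =>
  if (p.1 : ℕ) + p.2 = m + 1 then
    g1 Q p.1 p.2 / Real.sqrt ((2 * Q : ℝ) * (2 * Q - 2).choose (m : ℕ))
  else 0

/-- `pairIsoᵀ S₂₃ pairIso` on impurity and electron. -/
noncomputable def swapK (Q : ℕ) : Matrix (Two (2 * Q - 2) Q) (Two (2 * Q - 2) Q) ℝ :=
  fun p q => ∑ a : Fin (Q + 1), pairIso Q (a, q.2) p.1 * pairIso Q (a, p.2) q.1

/-- `P^{(1)}` on the two electrons of a triple. -/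
noncomputable def restK (A Q : ℕ) : Matrix (Three A Q) (Three A Q) ℝ := fun p q =>
  if p.1 = q.1 then P1 Q p.2.1 p.2.2 q.2.1 q.2.2 else 0

/-! ### Reduced states and their energies -/

/-- Impurity of degree `A` with `M` electrons of degree `B`. -/
abbrev Reduced (A B M : ℕ) := Fin (A + 1) → Config B M → ℝ

def nsqR {A B M : ℕ} (φ : Reduced A B M) : ℝ := ∑ a, ∑ x, φ a x ^ 2

def IsAntiR {A B M : ℕ} (φ : Reduced A B M) : Prop := ∀ a, IsAnti (φ a)

/-- Project particles `0,1` on the pair. -/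
noncomputable def reduce {Q M : ℕ} (ψ : Config Q (M + 2) → ℝ) : Reduced (2 * Q - 2) Q M :=
  fun m x => ∑ a : Fin (Q + 1), ∑ b : Fin (Q + 1),
    pairIso Q (a, b) m * ψ (Fin.cons a (Fin.cons b x))

/-- `∑_k ⟨φ, K(k) φ⟩`. -/
def E1 {A B M : ℕ} (K : Matrix (Two A B) (Two A B) ℝ) (φ : Reduced A B M) : ℝ :=
  ∑ k : Fin M, ∑ a, ∑ x : Config B M, ∑ q : Two A B,
    φ a x * K (a, x k) q * φ q.1 (Function.update x k q.2)

/-- `∑_{k ≠ l} ⟨φ, T(k,l) φ⟩`. -/
def E2 {A B M : ℕ} (T : Matrix (Three A B) (Three A B) ℝ) (φ : Reduced A B M) : ℝ :=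
  ∑ k : Fin M, ∑ l ∈ Finset.univ.filter (fun l => l ≠ k), ∑ a, ∑ x : Config B M,
    ∑ q : Three A B, φ a x * T (a, x k, x l) q
      * φ q.1 (Function.update (Function.update x k q.2.1) l q.2.2)

/-- `G(3)` on triples, for `G` a map from the pair space with impurity `A` to that with `A'`. -/
def act3 {A A' B : ℕ} (G : Matrix (Two A' B) (Two A B) ℝ) :
    Matrix (Three A' B) (Three A B) ℝ := fun p q =>
  if p.2.2 = q.2.2 then G (p.1, p.2.1) (q.1, q.2.1) else 0

/-- `G(4)` on triples. -/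
def act4 {A A' B : ℕ} (G : Matrix (Two A' B) (Two A B) ℝ) :
    Matrix (Three A' B) (Three A B) ℝ := fun p q =>
  if p.2.1 = q.2.1 then G (p.1, p.2.2) (q.1, q.2.2) else 0

/-- A Gram representation of the partial transpose (electron slot) together with the value
of the partial trace. -/
def PauliBound {A B : ℕ} (Y : Matrix (Two A B) (Two A B) ℝ) (c : ℝ) : Prop :=
  ∃ (r : ℕ) (R : Fin r → Matrix (Fin (A + 1)) (Fin (B + 1)) ℝ),
    (∀ p q : Two A B, Y p q = ∑ i, R i p.1 q.2 * R i q.1 p.2) ∧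
    ∀ a a' : Fin (A + 1), ∑ b, Y (a, b) (a', b) = if a = a' then c else 0

/-- `√(C(A-j,a-c) C(j,c) / C(A,a))`: splitting `U_A → U_(A-j) ⊗ U_j`. -/
noncomputable def split (A j a c : ℕ) : ℝ :=
  if c ≤ a then
    Real.sqrt (((A - j).choose (a - c) : ℝ) * j.choose c / A.choose a)
  else 0

/-- Symmetrised exchange of `j` electron spinors with `j` impurity spinors. -/
noncomputable def exch (A B j : ℕ) : Matrix (Two A B) (Two A B) ℝ := fun p q =>
  ∑ c ∈ Finset.range (j + 1), ∑ c' ∈ Finset.range (j + 1),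
    if (p.1 : ℕ) + c' = q.1 + c ∧ (p.2 : ℕ) + c = q.2 + c' then
      split A j p.1 c * split B j q.2 c * (split A j q.1 c' * split B j p.2 c')
    else 0

/-- The majorant: symmetrised `∏_{i ≤ B} ((1-t) + t·Swap_i)`. -/
noncomputable def majorant (A B : ℕ) (t : ℝ) : Matrix (Two A B) (Two A B) ℝ :=
  ∑ j ∈ Finset.range (B + 1), ((B.choose j : ℝ) * (1 - t) ^ (B - j) * t ^ j) • exch A B j

end P359
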