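import Vale.Agent.P359.Basic

/-!
P359: tools for finite blocks with a strictly positive rational limit.

* `eventually_quad_nonneg`: entrywise convergence to a positive definite matrix.
* `quad_lower_of_dominant`: a Gram part plus a strictly diagonally dominant remainder.
-/

namespace P359

open Matrix Filter Topology
open scoped BigOperators

theorem abs_quad_le {ι : Type*} [Fintype ι] (E : Matrix ι ι ℝ) (x : ι → ℝ) :
    |quad E x| ≤ (∑ i, ∑ j, |E i j|) * nsq x := by
  have hx : ∀ i, x i * x i ≤ nsq x := fun i =>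
    Finset.single_le_sum (f := fun j => x j * x j) (fun j _ => mul_self_nonneg _)
      (Finset.mem_univ i)
  have h : quad E x = ∑ i, ∑ j, x i * (E i j * x j) := by
    simp [quad, dotProduct, mulVec, Finset.mul_sum]
  rw [h, Finset.sum_mul]
  refine (Finset.abs_sum_le_sum_abs _ _).trans (Finset.sum_le_sum fun i _ => ?_)
  rw [Finset.sum_mul]
  refine (Finset.abs_sum_le_sum_abs _ _).trans (Finset.sum_le_sum fun j _ => ?_)
  have h1 := hx i
  have h2 := hx j
  have h3 : |x i * x j| ≤ nsq x := by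
    rw [abs_le]
    constructor <;> nlinarith [mul_self_nonneg (x i - x j), mul_self_nonneg (x i + x j)]
  rw [show x i * (E i j * x j) = E i j * (x i * x j) by ring, abs_mul]
  exact mul_le_mul_of_nonneg_left h3 (abs_nonneg _)

theorem eventually_quad_nonneg {ι : Type*} [Fintype ι] {l : Filter ℕ}
    {M : ℕ → Matrix ι ι ℝ} {M₀ : Matrix ι ι ℝ} {c : ℝ} (hc : 0 < c)
    (hpos : ∀ x, c * nsq x ≤ quad M₀ x)
    (hlim : ∀ i j, Tendsto (fun Q => M Q i j) l (𝓝 (M₀ i j))) :
    ∀ᶠ Q in l, ∀ x, 0 ≤ quad (M Q) x := by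
  have h : Tendsto (fun Q => ∑ i, ∑ j, |(M Q - M₀) i j|) l (𝓝 0) := by
    have : Tendsto (fun Q => ∑ i, ∑ j, |(M Q - M₀) i j|) l
        (𝓝 (∑ _i : ι, ∑ _j : ι, (0 : ℝ))) := by
      refine tendsto_finsetSum _ fun i _ => tendsto_finsetSum _ fun j _ => ?_
      have h1 := ((hlim i j).sub_const (M₀ i j)).abs
      simpa using h1
    simpa using this
  filter_upwards [h.eventually (gt_mem_nhds hc)] with Q hQ x
  have h1 := abs_quad_le (M Q - M₀) x
  have h2 : quad (M Q) x = quad M₀ x + quad (M Q - M₀) x := by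
    simp [quad, Matrix.sub_mulVec, dotProduct_sub]
  have h3 : (0 : ℝ) ≤ nsq x := Finset.sum_nonneg fun i _ => mul_self_nonneg (x i)
  have h4 := abs_le.1 h1
  have := hpos x
  nlinarith [mul_le_mul_of_nonneg_right hQ.le h3]

/-- A strictly diagonally dominant symmetric matrix is positive. -/
theorem quad_lower_dominant {ι : Type*} [Fintype ι] [DecidableEq ι] {D : Matrix ι ι ℝ} {c : ℝ}
    (hs : ∀ i j, D i j = D j i)
    (hd : ∀ i, c + ∑ j ∈ Finset.univ.erase i, |D i j| ≤ D i i) (x : ι → ℝ) :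
    c * nsq x ≤ quad D x := by
  have hb : ∀ i, ∑ j ∈ Finset.univ.erase i, (-|D i j| * ((x i * x i + x j * x j) / 2))
      ≤ ∑ j ∈ Finset.univ.erase i, x i * (D i j * x j) := fun i => by
    refine Finset.sum_le_sum fun j _ => ?_
    rw [show x i * (D i j * x j) = D i j * (x i * x j) by ring]
    rcases abs_cases (D i j) with ⟨h, hp⟩ | ⟨h, hp⟩ <;> rw [h] <;>
      nlinarith [mul_self_nonneg (x i - x j), mul_self_nonneg (x i + x j)]
  have hswap : ∑ i, ∑ j ∈ Finset.univ.erase i, |D i j| * (x j * x j)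
      = ∑ i, ∑ j ∈ Finset.univ.erase i, |D i j| * (x i * x i) := by
    rw [Finset.sum_comm' (t' := Finset.univ) (s' := fun j => Finset.univ.erase j)
      (fun i j => by simp [eq_comm])]
    exact Finset.sum_congr rfl fun i _ => Finset.sum_congr rfl fun j _ => by rw [hs j i]
  have h : quad D x = ∑ i, (x i * (D i i * x i) + ∑ j ∈ Finset.univ.erase i,
      x i * (D i j * x j)) := by
    simp only [quad, dotProduct, mulVec, Finset.mul_sum]
    exact Finset.sum_congr rfl fun i _ =>
      (Finset.add_sum_erase _ _ (Finset.mem_univ i)).symm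
  rw [h, Finset.sum_add_distrib, nsq, dotProduct, Finset.mul_sum]
  have h1 := Finset.sum_le_sum (s := Finset.univ) fun i _ => hb i
  have h2 : ∑ i, ∑ j ∈ Finset.univ.erase i, (-|D i j| * ((x i * x i + x j * x j) / 2))
      = -∑ i, (∑ j ∈ Finset.univ.erase i, |D i j|) * (x i * x i) := by
    have : ∀ i, ∑ j ∈ Finset.univ.erase i, (-|D i j| * ((x i * x i + x j * x j) / 2))
        = -(1 / 2) * ∑ j ∈ Finset.univ.erase i, |D i j| * (x i * x i)
          + -(1 / 2) * ∑ j ∈ Finset.univ.erase i, |D i j| * (x j * x j) := fun i => by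
      rw [Finset.mul_sum, Finset.mul_sum, ← Finset.sum_add_distrib]
      exact Finset.sum_congr rfl fun j _ => by ring
    simp only [this, Finset.sum_add_distrib, ← Finset.mul_sum, hswap, Finset.sum_mul]
    ring
  have h3 : ∑ i, (c * (x i * x i) + (∑ j ∈ Finset.univ.erase i, |D i j|) * (x i * x i))
      ≤ ∑ i, x i * (D i i * x i) := Finset.sum_le_sum fun i _ => by
    have := mul_le_mul_of_nonneg_right (hd i) (mul_self_nonneg (x i))
    linarith
  rw [Finset.sum_add_distrib] at h3
  linarith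

/-- Positivity certificate: a Gram matrix plus a strictly dominant remainder. -/
theorem quad_lower_of_dominant {ι κ : Type*} [Fintype ι] [DecidableEq ι] [Fintype κ]
    {K : Matrix ι ι ℝ} (R : Matrix κ ι ℝ) {c : ℝ} (hs : ∀ i j, K i j = K j i)
    (hd : ∀ i, c + ∑ j ∈ Finset.univ.erase i, |(K - Rᵀ * R) i j| ≤ (K - Rᵀ * R) i i)
    (x : ι → ℝ) : c * nsq x ≤ quad K x := by
  have hsym : ∀ i j, (K - Rᵀ * R) i j = (K - Rᵀ * R) j i := fun i j => by
    simp only [Matrix.sub_apply, Matrix.mul_apply, Matrix.transpose_apply, hs i j, mul_comm]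
  have h1 := quad_lower_dominant hsym hd x
  have h2 : quad (Rᵀ * R) x = nsq (R *ᵥ x) := by
    rw [quad, nsq, ← mulVec_mulVec, dotProduct_mulVec, vecMul_transpose]
  have h3 : quad K x = quad (K - Rᵀ * R) x + quad (Rᵀ * R) x := by
    simp [quad, Matrix.sub_mulVec, dotProduct_sub]
  have h4 : 0 ≤ nsq (R *ᵥ x) := Finset.sum_nonneg fun i _ => mul_self_nonneg _
  linarith

end P359
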