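import Vale.Agent.P359.Basic

/-!
P359, piece C1: highest weights for `sl₂` in coordinates.

* a symmetric, weight preserving matrix commuting with `J₊` is positive as soon as it is positive
  on highest weight vectors;
* closure properties of `Intertwines`;
* the channel maps intertwine the raising and lowering operators;
* highest weight vectors of two and three particles.
-/

namespace P359

open Matrix
open scoped BigOperators Kronecker

/-- `v` is supported on weight `m`. -/
def Supp {ι : Type*} (w : ι → ℕ) (m : ℕ) (v : ι → ℝ) : Prop := ∀ i, w i ≠ m → v i = 0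

/-! ### Closure properties of intertwiners -/

section Closure

variable {ι κ μ : Type*} [Fintype ι] [Fintype κ] [Fintype μ]
variable {w : ι → ℕ} {J : Matrix ι ι ℝ} {w' : κ → ℕ} {J' : Matrix κ κ ℝ}
variable {w'' : μ → ℕ} {J'' : Matrix μ μ ℝ}

theorem Intertwines.transpose {d : ℤ} {K : Matrix κ ι ℝ} (h : Intertwines w J w' J' d K) :
    Intertwines w' J' w J (-d) Kᵀ where
  weight i j hij := by
    have := h.weight j i hij
    omega
  up := by
    have := congrArg Matrix.transpose h.down
    simpa [Matrix.transpose_mul] using this.symm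
  down := by
    have := congrArg Matrix.transpose h.up
    simpa [Matrix.transpose_mul] using this.symm

theorem Intertwines.comp {d e : ℤ} {K : Matrix κ ι ℝ} {M : Matrix μ κ ℝ}
    (hM : Intertwines w' J' w'' J'' e M) (hK : Intertwines w J w' J' d K) :
    Intertwines w J w'' J'' (d + e) (M * K) where
  weight i j hij := by
    obtain ⟨k, -, hk⟩ := Finset.exists_ne_zero_of_sum_ne_zero hij
    have h1 := hM.weight i k (left_ne_zero_of_mul hk)
    have h2 := hK.weight k j (right_ne_zero_of_mul hk)
    omega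
  up := by rw [← Matrix.mul_assoc, hM.up, Matrix.mul_assoc, hK.up, ← Matrix.mul_assoc]
  down := by rw [← Matrix.mul_assoc, hM.down, Matrix.mul_assoc, hK.down, ← Matrix.mul_assoc]

theorem Intertwines.add {d : ℤ} {K M : Matrix κ ι ℝ} (hK : Intertwines w J w' J' d K)
    (hM : Intertwines w J w' J' d M) : Intertwines w J w' J' d (K + M) where
  weight i j hij := by
    by_cases h : K i j = 0
    · exact hM.weight i j (by simpa [h] using hij)
    · exact hK.weight i j h
  up := by rw [Matrix.mul_add, Matrix.add_mul, hK.up, hM.up]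
  down := by rw [Matrix.mul_add, Matrix.add_mul, hK.down, hM.down]

theorem Intertwines.smul {d : ℤ} {K : Matrix κ ι ℝ} (hK : Intertwines w J w' J' d K) (c : ℝ) :
    Intertwines w J w' J' d (c • K) where
  weight i j hij := hK.weight i j fun h => hij (by simp [h])
  up := by rw [Matrix.mul_smul, Matrix.smul_mul, hK.up]
  down := by rw [Matrix.mul_smul, Matrix.smul_mul, hK.down]

theorem Intertwines.zero {d : ℤ} : Intertwines w J w' J' d (0 : Matrix κ ι ℝ) where
  weight _ _ h := absurd rfl h
  up := by simp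
  down := by simp

theorem Intertwines.sub {d : ℤ} {K M : Matrix κ ι ℝ} (hK : Intertwines w J w' J' d K)
    (hM : Intertwines w J w' J' d M) : Intertwines w J w' J' d (K - M) := by
  simpa [sub_eq_add_neg] using hK.add (hM.smul (-1))

theorem Intertwines.sum {σ : Type*} {d : ℤ} (s : Finset σ) {K : σ → Matrix κ ι ℝ}
    (h : ∀ a ∈ s, Intertwines w J w' J' d (K a)) : Intertwines w J w' J' d (∑ a ∈ s, K a) :=
  Finset.sum_induction K (fun M => Intertwines w J w' J' d M) (fun _ _ => Intertwines.add)
    Intertwines.zero h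

theorem Intertwines.one [DecidableEq ι] : Intertwines w J w J 0 (1 : Matrix ι ι ℝ) where
  weight i j hij := by
    by_cases h : i = j
    · simp [h]
    · exact absurd (Matrix.one_apply_ne h) hij
  up := by simp
  down := by simp

theorem Intertwines.cast {d e : ℤ} {K : Matrix κ ι ℝ} (h : Intertwines w J w' J' d K)
    (hde : d = e) : Intertwines w J w' J' e K := hde ▸ h

theorem Intertwines.mulVec_ker {d : ℤ} {K : Matrix κ ι ℝ} (h : Intertwines w J w' J' d K)
    {v : ι → ℝ} (hv : J *ᵥ v = 0) : J' *ᵥ (K *ᵥ v) = 0 := by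
  rw [mulVec_mulVec, h.up, ← mulVec_mulVec, hv, mulVec_zero]

theorem Intertwines.supp {d : ℤ} {K : Matrix κ ι ℝ} (h : Intertwines w J w' J' d K) {m m' : ℕ}
    (hm : (m' : ℤ) = m + d) {v : ι → ℝ} (hv : Supp w m v) : Supp w' m' (K *ᵥ v) := by
  intro i hi
  refine Finset.sum_eq_zero fun j _ => ?_
  by_cases hK : K i j = 0
  · simp [hK]
  · have := h.weight i j hK
    have hj : w j ≠ m := by omega
    simp [hv j hj]

theorem Intertwines.submatrix {ι' κ' : Type*} [Fintype ι'] [Fintype κ'] {d : ℤ}
    {K : Matrix κ ι ℝ} (h : Intertwines w J w' J' d K) (e : ι' ≃ ι) (f : κ' ≃ κ) :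
    Intertwines (fun i => w (e i)) (J.submatrix e e) (fun i => w' (f i)) (J'.submatrix f f) d
      (K.submatrix f e) where
  weight i j hij := h.weight (f i) (e j) hij
  up := by rw [submatrix_mul_equiv, submatrix_mul_equiv, h.up]
  down := by
    rw [transpose_submatrix, transpose_submatrix, submatrix_mul_equiv, submatrix_mul_equiv,
      h.down]

/-- `J₊` on a tensor product. -/
def jsum [DecidableEq ι] [DecidableEq κ] (J : Matrix ι ι ℝ) (J' : Matrix κ κ ℝ) :
    Matrix (ι × κ) (ι × κ) ℝ := J ⊗ₖ (1 : Matrix κ κ ℝ) + (1 : Matrix ι ι ℝ) ⊗ₖ J'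

omit [Fintype ι] [Fintype κ] in
theorem jsum_transpose [DecidableEq ι] [DecidableEq κ] :
    (jsum J J')ᵀ = jsum Jᵀ J'ᵀ := by
  simp [jsum, Matrix.transpose_add, ← Matrix.kroneckerMap_transpose]

theorem Intertwines.kronRight [DecidableEq ι] [DecidableEq κ] [DecidableEq μ] {d : ℤ}
    {K : Matrix κ ι ℝ} (h : Intertwines w J w' J' d K) :
    Intertwines (fun p : ι × μ => w p.1 + w'' p.2) (jsum J J'')
      (fun p : κ × μ => w' p.1 + w'' p.2) (jsum J' J'') d (K ⊗ₖ (1 : Matrix μ μ ℝ)) where
  weight i j hij := by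
    simp only [kroneckerMap_apply] at hij
    have h1 := h.weight i.1 j.1 (left_ne_zero_of_mul hij)
    have h2 : i.2 = j.2 := by
      by_contra hne
      exact right_ne_zero_of_mul hij (Matrix.one_apply_ne hne)
    simp only [h2]
    push_cast
    linarith
  up := by
    simp only [jsum, Matrix.add_mul, Matrix.mul_add, ← mul_kronecker_mul, Matrix.one_mul,
      Matrix.mul_one, h.up]
  down := by
    simp only [jsum_transpose]
    simp only [jsum, Matrix.add_mul, Matrix.mul_add, ← mul_kronecker_mul, Matrix.one_mul,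
      Matrix.mul_one, h.down]

theorem Intertwines.kronLeft [DecidableEq ι] [DecidableEq κ] [DecidableEq μ] {d : ℤ}
    {K : Matrix κ ι ℝ} (h : Intertwines w J w' J' d K) :
    Intertwines (fun p : μ × ι => w'' p.1 + w p.2) (jsum J'' J)
      (fun p : μ × κ => w'' p.1 + w' p.2) (jsum J'' J') d ((1 : Matrix μ μ ℝ) ⊗ₖ K) where
  weight i j hij := by
    simp only [kroneckerMap_apply] at hij
    have h1 := h.weight i.2 j.2 (right_ne_zero_of_mul hij)
    have h2 : i.1 = j.1 := by
      by_contra hne
      exact left_ne_zero_of_mul hij (Matrix.one_apply_ne hne)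
    simp only [h2]
    push_cast
    linarith
  up := by
    simp only [jsum, Matrix.add_mul, Matrix.mul_add, ← mul_kronecker_mul, Matrix.one_mul,
      Matrix.mul_one, h.up]
  down := by
    simp only [jsum_transpose]
    simp only [jsum, Matrix.add_mul, Matrix.mul_add, ← mul_kronecker_mul, Matrix.one_mul,
      Matrix.mul_one, h.down]

end Closure

/-! ### The highest weight criterion -/

section Criterion

variable {ι : Type*} [Fintype ι] [DecidableEq ι] {w : ι → ℕ} {J K : Matrix ι ι ℝ}

omit [DecidableEq ι] in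
theorem quad_eq_of_eigen {v : ι → ℝ} {a : ℝ} (h : K *ᵥ v = a • v) :
    quad K v = a * nsq v := by
  simp [quad, nsq, h]

omit [DecidableEq ι] in
theorem nsq_nonneg (v : ι → ℝ) : 0 ≤ nsq v :=
  Finset.sum_nonneg fun i _ => mul_self_nonneg (v i)

omit [DecidableEq ι] in
theorem nsq_eq_zero {v : ι → ℝ} : nsq v = 0 ↔ v = 0 := dotProduct_self_eq_zero

omit [DecidableEq ι] in
/-- Negative eigenvectors of weight `≤ L` force a negative highest weight value. -/
theorem eigen_supp_eq_zero (hJ : ∀ i j, J i j ≠ 0 → w j = w i + 1) (hcomm : J * K = K * J)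
    {S : Matrix ι ι ℝ} (hSJ : S * J = J * S) {L : ℕ}
    (hhw : ∀ m ≤ L, ∀ v, Supp w m v → J *ᵥ v = 0 → S *ᵥ v = v → 0 ≤ quad K v)
    {a : ℝ} (ha : a < 0) :
    ∀ m ≤ L, ∀ v, Supp w m v → K *ᵥ v = a • v → S *ᵥ v = v → v = 0 := by
  intro m
  induction m using Nat.strong_induction_on with
  | _ m ih =>
    intro hm v hv he hS
    have hJv : J *ᵥ v = 0 := by
      have hz : ∀ i, w i + 1 ≠ m → (J *ᵥ v) i = 0 := fun i hi =>
        Finset.sum_eq_zero fun j _ => by
          by_cases h : J i j = 0
          · simp [h]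
          · simp [hv j (by rw [hJ i j h]; exact hi)]
      rcases Nat.eq_zero_or_pos m with rfl | hpos
      · exact funext fun i => hz i (by omega)
      · refine ih (m - 1) (by omega) (by omega) _ (fun i hi => hz i (by omega)) ?_ ?_
        · rw [mulVec_mulVec, ← hcomm, ← mulVec_mulVec, he, mulVec_smul]
        · rw [mulVec_mulVec, hSJ, ← mulVec_mulVec, hS]
    have h0 := hhw m hm v hv hJv hS
    rw [quad_eq_of_eigen he] at h0
    have hn := nsq_nonneg v
    exact nsq_eq_zero.1 (le_antisymm (by nlinarith) hn)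

/-- C1a, with a symmetric involution `S` commuting with everything. -/
theorem criterion_sym (hJ : ∀ i j, J i j ≠ 0 → w j = w i + 1)
    (hw : ∀ i j, K i j ≠ 0 → w i = w j) (hK : Kᵀ = K) (hcomm : J * K = K * J)
    {S : Matrix ι ι ℝ} (hS : Sᵀ = S) (hS2 : S * S = 1) (hSw : ∀ i j, S i j ≠ 0 → w i = w j)
    (hSJ : S * J = J * S) (hSK : S * K = K * S) {L : ℕ}
    (hhw : ∀ m ≤ L, ∀ v, Supp w m v → J *ᵥ v = 0 → S *ᵥ v = v → 0 ≤ quad K v)
    (v : ι → ℝ) (hv : ∀ i, L < w i → v i = 0) (hSv : S *ᵥ v = v) : 0 ≤ quad K v := by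
  set M : Matrix ι ι ℝ := diagonal fun i => if w i ≤ L then 1 else 0 with hM
  set P₀ : Matrix ι ι ℝ := (1 / 2 : ℝ) • (1 + S) with hP
  set K₂ : Matrix ι ι ℝ := (P₀ * M)ᵀ * K * (P₀ * M) with hK₂
  have hMK : M * K = K * M := by
    ext i j
    by_cases h : K i j = 0
    · simp [hM, diagonal_mul, mul_diagonal, h]
    · simp [hM, diagonal_mul, mul_diagonal, hw i j h, mul_comm]
  have hMS : M * S = S * M := by
    ext i j
    by_cases h : S i j = 0
    · simp [hM, diagonal_mul, mul_diagonal, h]
    · simp [hM, diagonal_mul, mul_diagonal, hSw i j h, mul_comm]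
  have hMM : M * M = M := by simp [hM, diagonal_mul_diagonal]
  have hMt : Mᵀ = M := diagonal_transpose _
  have hMP : M * P₀ = P₀ * M := by
    simp [hP, Matrix.mul_add, Matrix.add_mul, hMS]
  have hPK : P₀ * K = K * P₀ := by
    simp [hP, Matrix.mul_add, Matrix.add_mul, hSK]
  have hPt : P₀ᵀ = P₀ := by simp [hP, hS]
  have hPP : P₀ * P₀ = P₀ := by
    simp only [hP, Matrix.smul_mul, Matrix.mul_smul, Matrix.mul_add, Matrix.add_mul,
      Matrix.one_mul, Matrix.mul_one, hS2]
    module
  have hfix : ∀ u, (∀ i, L < w i → u i = 0) → S *ᵥ u = u → (P₀ * M) *ᵥ u = u := by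
    intro u hu hSu
    have : M *ᵥ u = u := by
      funext i
      by_cases h : w i ≤ L
      · simp [hM, mulVec_diagonal, h]
      · simp [hM, mulVec_diagonal, h, hu i (by omega)]
    rw [← mulVec_mulVec, this, hP, smul_mulVec, add_mulVec, one_mulVec, hSu]
    module
  have hherm : K₂.IsHermitian := by
    show K₂ᴴ = K₂
    rw [conjTranspose_eq_transpose_of_trivial, hK₂]
    simp [Matrix.transpose_mul, hK, Matrix.mul_assoc]
  have hpsd : K₂.PosSemidef := by
    rw [hherm.posSemidef_iff_eigenvalues_nonneg]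
    intro k
    by_contra hk
    simp only [Pi.zero_apply, not_le] at hk
    set a := hherm.eigenvalues k with hadef
    set u : ι → ℝ := ⇑(hherm.eigenvectorBasis k) with hudef
    have he : K₂ *ᵥ u = a • u := hherm.mulVec_eigenvectorBasis k
    have hK₂' : K₂ = (P₀ * M) * K := by
      rw [hK₂, Matrix.transpose_mul, hPt, hMt, hMP]
      calc P₀ * M * K * (P₀ * M)
          = P₀ * (M * K) * P₀ * M := by simp only [Matrix.mul_assoc]
        _ = P₀ * K * (M * P₀) * M := by rw [hMK]; simp only [Matrix.mul_assoc]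
        _ = P₀ * (K * P₀) * (M * M) := by rw [hMP]; simp only [Matrix.mul_assoc]
        _ = (P₀ * P₀) * (K * M) := by rw [← hPK, hMM]; simp only [Matrix.mul_assoc]
        _ = P₀ * M * K := by rw [hPP, ← hMK]; simp only [Matrix.mul_assoc]
    have hPMfix : (P₀ * M) *ᵥ u = u := by
      have h1 : (P₀ * M) *ᵥ (K₂ *ᵥ u) = K₂ *ᵥ u := by
        rw [mulVec_mulVec, hK₂', ← Matrix.mul_assoc]
        congr 2
        calc P₀ * M * (P₀ * M) = P₀ * (M * P₀) * M := by simp only [Matrix.mul_assoc]
          _ = P₀ * P₀ * (M * M) := by rw [hMP]; simp only [Matrix.mul_assoc]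
          _ = P₀ * M := by rw [hPP, hMM]
      rw [he, mulVec_smul] at h1
      exact smul_right_injective _ (ne_of_lt hk) h1
    have hMu : M *ᵥ u = u := by
      conv_lhs => rw [← hPMfix]
      rw [mulVec_mulVec, ← Matrix.mul_assoc, hMP, Matrix.mul_assoc, hMM, hPMfix]
    have hPu : P₀ *ᵥ u = u := by
      conv_lhs => rw [← hPMfix]
      rw [mulVec_mulVec, ← Matrix.mul_assoc, hPP, hPMfix]
    have hSu : S *ᵥ u = u := by
      have : S * P₀ = P₀ := by
        simp only [hP, Matrix.mul_smul, Matrix.mul_add, Matrix.mul_one, hS2, add_comm S]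
      conv_lhs => rw [← hPu]
      rw [mulVec_mulVec, this, hPu]
    have hKu : K *ᵥ u = a • u := by
      rw [← he, hK₂', ← mulVec_mulVec]
      have : K *ᵥ u = (P₀ * M) *ᵥ (K *ᵥ u) := by
        rw [mulVec_mulVec, Matrix.mul_assoc, hMK, ← Matrix.mul_assoc, hPK, Matrix.mul_assoc,
          ← mulVec_mulVec, hPMfix]
      exact this
    -- weight components are eigenvectors too
    have hu0 : u = 0 := by
      funext i
      by_cases hi : w i ≤ L
      · set D : Matrix ι ι ℝ := diagonal fun j => if w j = w i then 1 else 0 with hD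
        have hDK : D * K = K * D := by
          ext p q
          by_cases h : K p q = 0
          · simp [hD, diagonal_mul, mul_diagonal, h]
          · simp [hD, diagonal_mul, mul_diagonal, hw p q h, mul_comm]
        have hDS : D * S = S * D := by
          ext p q
          by_cases h : S p q = 0
          · simp [hD, diagonal_mul, mul_diagonal, h]
          · simp [hD, diagonal_mul, mul_diagonal, hSw p q h, mul_comm]
        have h0 := eigen_supp_eq_zero hJ hcomm hSJ hhw hk (w i) hi (D *ᵥ u)
          (fun j hj => by simp [hD, mulVec_diagonal, hj])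
          (by rw [mulVec_mulVec, ← hDK, ← mulVec_mulVec, hKu, mulVec_smul])
          (by rw [mulVec_mulVec, ← hDS, ← mulVec_mulVec, hSu])
        simpa [hD, mulVec_diagonal] using congrFun h0 i
      · have := congrFun hMu i
        simpa [hM, mulVec_diagonal, hi] using this.symm
    exact (hherm.eigenvectorBasis.orthonormal.ne_zero k) (by
      ext i
      exact congrFun hu0 i)
  have := hpsd.dotProduct_mulVec_nonneg v
  rw [star_trivial, hK₂, Matrix.mul_assoc, ← mulVec_mulVec, dotProduct_mulVec,
    vecMul_transpose, ← mulVec_mulVec v K, hfix v hv hSv] at this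
  exact this

/-- C1a: positivity on highest weight vectors of weight `≤ L` gives positivity up to weight `L`. -/
theorem criterion (hJ : ∀ i j, J i j ≠ 0 → w j = w i + 1)
    (hw : ∀ i j, K i j ≠ 0 → w i = w j) (hK : Kᵀ = K) (hcomm : J * K = K * J) {L : ℕ}
    (hhw : ∀ m ≤ L, ∀ v, Supp w m v → J *ᵥ v = 0 → 0 ≤ quad K v)
    (v : ι → ℝ) (hv : ∀ i, L < w i → v i = 0) : 0 ≤ quad K v :=
  criterion_sym hJ hw hK hcomm (S := 1) Matrix.transpose_one (mul_one 1)
    (fun i j h => by
      by_cases hij : i = j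
      · rw [hij]
      · exact absurd (Matrix.one_apply_ne hij) h)
    (by simp) (by simp) (fun m hm v hv hj _ => hhw m hm v hv hj) v hv (one_mulVec v)

end Criterion

/-! ### Weights, raising operators -/

theorem raise_weight {A : ℕ} (i j : Fin (A + 1)) (h : raise A i j ≠ 0) :
    (j : ℕ) = i + 1 := by
  unfold raise at h
  split_ifs at h with h1
  · exact h1
  · exact absurd rfl h

theorem raise2_eq_jsum (A B : ℕ) : raise2 A B = jsum (raise A) (raise B) := by
  ext ⟨a, b⟩ ⟨a', b'⟩
  simp [raise2, jsum, kroneckerMap_apply, Matrix.one_apply, mul_ite, ite_mul]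

theorem raise2_weight {A B : ℕ} (i j : Two A B) (h : raise2 A B i j ≠ 0) :
    wt2 j = wt2 i + 1 := by
  obtain ⟨a, b⟩ := i
  obtain ⟨a', b'⟩ := j
  rw [raise2_eq_jsum] at h
  simp only [jsum, Matrix.add_apply, kroneckerMap_apply] at h
  show (a' : ℕ) + b' = a + b + 1
  by_cases hb : b = b'
  · subst hb
    by_cases ha : a = a'
    · subst ha
      exfalso
      apply h
      have h1 : raise A a a = 0 := by simp [raise]
      have h2 : raise B b b = 0 := by simp [raise]
      simp [h1, h2]
    · have := raise_weight a a' (fun h0 => h (by simp [h0, Matrix.one_apply_ne ha]))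
      omega
  · by_cases ha : a = a'
    · subst ha
      have := raise_weight b b' (fun h0 => h (by simp [h0, Matrix.one_apply_ne hb]))
      omega
    · exact absurd (by simp [Matrix.one_apply_ne ha, Matrix.one_apply_ne hb]) h

/-! ### One-variable coefficient calculus -/

theorem sqrt_raise_mul {A k : ℕ} (hk : k < A) :
    Real.sqrt (((k : ℝ) + 1) * ((A : ℝ) - k)) * Real.sqrt (A.choose k)
      = ((k : ℝ) + 1) * Real.sqrt (A.choose (k + 1)) := by
  have h1 : ((A.choose (k + 1) : ℝ)) * ((k : ℝ) + 1) = A.choose k * ((A : ℝ) - k) := by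
    have := congrArg (Nat.cast : ℕ → ℝ) (Nat.choose_succ_right_eq A k)
    push_cast [Nat.cast_sub hk.le] at this
    linarith
  have h0 : (0 : ℝ) ≤ ((k : ℝ) + 1) := by positivity
  conv_rhs => rw [← Real.sqrt_sq h0, ← Real.sqrt_mul (by positivity)]
  rw [← Real.sqrt_mul (by
    have : (k : ℝ) ≤ A := by exact_mod_cast hk.le
    nlinarith)]
  congr 1
  rw [sq, mul_assoc ((k : ℝ) + 1) _ (A.choose (k + 1) : ℝ),
    mul_comm ((k : ℝ) + 1) (A.choose (k + 1) : ℝ), h1]
  ring

theorem sqrt_choose_pos {A k : ℕ} (hk : k ≤ A) : 0 < Real.sqrt (A.choose k : ℝ) :=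
  Real.sqrt_pos.2 (by exact_mod_cast Nat.choose_pos hk)

theorem choose_succ_mul_real (n k : ℕ) :
    ((k : ℝ) + 1) * n.choose (k + 1) = ((n : ℝ) - k) * n.choose k := by
  rcases le_or_gt k n with h | h
  · have := congrArg (Nat.cast : ℕ → ℝ) (Nat.choose_succ_right_eq n k)
    push_cast [Nat.cast_sub h] at this
    linarith
  · simp [Nat.choose_eq_zero_of_lt h, Nat.choose_eq_zero_of_lt (show n < k + 1 by omega)]

/-- `raise A` is `d/dz` on coefficients. -/
theorem raise_mulVec_coef {A : ℕ} (c : ℕ → ℝ) (hc : c (A + 1) = 0) (a : Fin (A + 1)) :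
    (raise A *ᵥ fun a' => c a' / Real.sqrt (A.choose (a' : ℕ))) a
      = ((a : ℝ) + 1) * c (a + 1) / Real.sqrt (A.choose (a : ℕ)) := by
  rcases Nat.lt_or_ge (a : ℕ) A with ha | ha
  · simp only [mulVec, dotProduct]
    rw [Finset.sum_eq_single (⟨a + 1, by omega⟩ : Fin (A + 1))]
    · have h1 := sqrt_choose_pos ha.le
      have h2 := sqrt_choose_pos (show (a : ℕ) + 1 ≤ A by omega)
      simp only [raise, if_true]
      field_simp
      linear_combination (c (a + 1)) * sqrt_raise_mul ha
    · intro b _ hb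
      have : ¬ (b : ℕ) = a + 1 := fun h => hb (Fin.ext (by simpa using h))
      simp [raise, this]
    · simp
  · have ha' : (a : ℕ) = A := by omega
    rw [ha', hc, mul_zero, zero_div]
    simp only [mulVec, dotProduct]
    refine Finset.sum_eq_zero fun b _ => ?_
    have : ¬ (b : ℕ) = a + 1 := by omega
    simp [raise, this]

/-- `(raise A)ᵀ` is `A z - z² d/dz` on coefficients. -/
theorem raise_transpose_mulVec_coef {A : ℕ} (c : ℕ → ℝ) (a : Fin (A + 1)) :
    ((raise A)ᵀ *ᵥ fun a' => c a' / Real.sqrt (A.choose (a' : ℕ))) a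
      = (if (a : ℕ) = 0 then 0 else ((A : ℝ) - a + 1) * c (a - 1))
          / Real.sqrt (A.choose (a : ℕ)) := by
  rcases Nat.eq_zero_or_pos (a : ℕ) with ha | ha
  · rw [if_pos ha, zero_div]
    simp only [mulVec, dotProduct]
    refine Finset.sum_eq_zero fun b _ => ?_
    have : ¬ (a : ℕ) = b + 1 := by omega
    simp [raise, this]
  · obtain ⟨k, hk⟩ : ∃ k, (a : ℕ) = k + 1 := ⟨a - 1, by omega⟩
    have hkA : k < A := by omega
    rw [if_neg (by omega)]
    simp only [mulVec, dotProduct]
    rw [Finset.sum_eq_single (⟨k, by omega⟩ : Fin (A + 1))]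
    · have h1 := sqrt_choose_pos hkA.le
      have h2 := sqrt_choose_pos (show k + 1 ≤ A by omega)
      have h3 := sqrt_raise_mul hkA
      have h4 : Real.sqrt (((k : ℝ) + 1) * ((A : ℝ) - k)) ^ 2 = ((k : ℝ) + 1) * ((A : ℝ) - k) :=
        Real.sq_sqrt (by
          have : (k : ℝ) ≤ A := by exact_mod_cast hkA.le
          nlinarith)
      simp only [Matrix.transpose_apply, raise, hk, if_true, add_tsub_cancel_right]
      push_cast
      field_simp
      have h5 : Real.sqrt (((k : ℝ) + 1) * ((A : ℝ) - k)) * Real.sqrt (A.choose (k + 1))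
          = ((A : ℝ) - k) * Real.sqrt (A.choose k) := by
        have hk1 : ((k : ℝ) + 1) ≠ 0 := by positivity
        apply mul_left_cancel₀ hk1
        linear_combination (-Real.sqrt (((k : ℝ) + 1) * ((A : ℝ) - k))) * h3
          + Real.sqrt (A.choose k) * h4
      linear_combination (c k) * h5
    · intro b _ hb
      have : ¬ (a : ℕ) = b + 1 := fun h => hb (Fin.ext (show (b : ℕ) = k by omega))
      simp [raise, this]
    · simp

/-- The orthonormal coordinates of a two-variable coefficient function. -/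
noncomputable def coefVec (A B : ℕ) (c : ℕ → ℕ → ℝ) : Two A B → ℝ := fun p =>
  c p.1 p.2 / Real.sqrt ((A.choose (p.1 : ℕ) : ℝ) * B.choose (p.2 : ℕ))

theorem coefVec_eq (A B : ℕ) (c : ℕ → ℕ → ℝ) (a : Fin (A + 1)) (b : Fin (B + 1)) :
    coefVec A B c (a, b)
      = c a b / Real.sqrt (A.choose (a : ℕ)) / Real.sqrt (B.choose (b : ℕ)) := by
  rw [coefVec, Real.sqrt_mul (Nat.cast_nonneg _), div_div]

theorem kron_sum_mulVec {ι κ : Type*} [Fintype ι] [Fintype κ] [DecidableEq ι] [DecidableEq κ]
    (J : Matrix ι ι ℝ) (J' : Matrix κ κ ℝ) (v : ι × κ → ℝ) (a : ι) (b : κ) :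
    (jsum J J' *ᵥ v) (a, b)
      = (J *ᵥ fun a' => v (a', b)) a + (J' *ᵥ fun b' => v (a, b')) b := by
  simp only [mulVec, dotProduct]
  rw [Fintype.sum_prod_type]
  simp [jsum, Matrix.one_apply, add_mul, Finset.sum_add_distrib, ite_mul]

theorem raise2_coefVec {A B : ℕ} (c : ℕ → ℕ → ℝ) (hA : ∀ b, c (A + 1) b = 0)
    (hB : ∀ a, c a (B + 1) = 0) :
    raise2 A B *ᵥ coefVec A B c = coefVec A B (fun a b =>
      ((a : ℝ) + 1) * c (a + 1) b + ((b : ℝ) + 1) * c a (b + 1)) := by
  funext ⟨a, b⟩
  rw [raise2_eq_jsum, kron_sum_mulVec, coefVec_eq]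
  simp only [coefVec_eq]
  have e1 : (fun a' : Fin (A + 1) => c a' b / Real.sqrt (A.choose (a' : ℕ))
      / Real.sqrt (B.choose (b : ℕ)))
      = (Real.sqrt (B.choose (b : ℕ)))⁻¹ •
        (fun a' : Fin (A + 1) => c a' b / Real.sqrt (A.choose (a' : ℕ))) := by
    funext a'
    simp [div_eq_inv_mul]
  have e2 : (fun b' : Fin (B + 1) => c a b' / Real.sqrt (A.choose (a : ℕ))
      / Real.sqrt (B.choose (b' : ℕ)))
      = (Real.sqrt (A.choose (a : ℕ)))⁻¹ •
        (fun b' : Fin (B + 1) => c a b' / Real.sqrt (B.choose (b' : ℕ))) := by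
    funext b'
    simp only [Pi.smul_apply, smul_eq_mul]
    ring
  rw [e1, e2, mulVec_smul, mulVec_smul, Pi.smul_apply, Pi.smul_apply,
    raise_mulVec_coef (fun k => c k b) (hA b), raise_mulVec_coef (fun k => c a k) (hB a),
    smul_eq_mul, smul_eq_mul]
  ring

theorem raise2_transpose_coefVec {A B : ℕ} (c : ℕ → ℕ → ℝ) :
    (raise2 A B)ᵀ *ᵥ coefVec A B c = coefVec A B (fun a b =>
      (if a = 0 then 0 else ((A : ℝ) - a + 1) * c (a - 1) b)
        + if b = 0 then 0 else ((B : ℝ) - b + 1) * c a (b - 1)) := by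
  funext ⟨a, b⟩
  rw [raise2_eq_jsum, jsum_transpose, kron_sum_mulVec, coefVec_eq]
  simp only [coefVec_eq]
  have e1 : (fun a' : Fin (A + 1) => c a' b / Real.sqrt (A.choose (a' : ℕ))
      / Real.sqrt (B.choose (b : ℕ)))
      = (Real.sqrt (B.choose (b : ℕ)))⁻¹ •
        (fun a' : Fin (A + 1) => c a' b / Real.sqrt (A.choose (a' : ℕ))) := by
    funext a'
    simp [div_eq_inv_mul]
  have e2 : (fun b' : Fin (B + 1) => c a b' / Real.sqrt (A.choose (a : ℕ))
      / Real.sqrt (B.choose (b' : ℕ)))
      = (Real.sqrt (A.choose (a : ℕ)))⁻¹ •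
        (fun b' : Fin (B + 1) => c a b' / Real.sqrt (B.choose (b' : ℕ))) := by
    funext b'
    simp only [Pi.smul_apply, smul_eq_mul]
    ring
  rw [e1, e2, mulVec_smul, mulVec_smul, Pi.smul_apply, Pi.smul_apply,
    raise_transpose_mulVec_coef (fun k => c k b), raise_transpose_mulVec_coef (fun k => c a k),
    smul_eq_mul, smul_eq_mul]
  ring

/-! ### The channel maps -/

theorem chanCoef_support {A B n a b m : ℕ} (hA : n ≤ A) (hB : n ≤ B)
    (h : chanCoef A B n a b m ≠ 0) : a + b = m + n ∧ a ≤ A ∧ b ≤ B := by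
  obtain ⟨i, hi, hne⟩ := Finset.exists_ne_zero_of_sum_ne_zero h
  rw [Finset.mem_range] at hi
  split_ifs at hne with hc
  · obtain ⟨hia, hib, hab⟩ := hc
    have h1 : (A - n).choose (a - i) ≠ 0 := fun h0 => hne (by simp [h0])
    have h2 : (B - n).choose (b - (n - i)) ≠ 0 := fun h0 => hne (by simp [h0])
    rw [Ne, Nat.choose_eq_zero_iff, not_lt] at h1 h2
    omega
  · exact absurd rfl hne

theorem chanCoef_zero (A B a b m : ℕ) :
    chanCoef A B 0 a b m
      = if a + b = m then (A.choose a : ℝ) * B.choose b / (A + B).choose m else 0 := by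
  simp [chanCoef]

/-- Shift of the first index. -/
def shiftL (c : ℕ → ℕ → ℝ) (a b : ℕ) : ℝ := if a = 0 then 0 else c (a - 1) b

/-- Shift of the second index. -/
def shiftR (c : ℕ → ℕ → ℝ) (a b : ℕ) : ℝ := if b = 0 then 0 else c a (b - 1)

/-- `(Z - z)^(n+1) = (Z - z) (Z - z)^n`. -/
theorem chanCoef_succ (A B n a b m : ℕ) :
    chanCoef (A + 1) (B + 1) (n + 1) a b m
      = shiftL (fun a b => chanCoef A B n a b m) a b
        - shiftR (fun a b => chanCoef A B n a b m) a b := by
  set f : ℕ → ℕ → ℝ := fun i j =>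
    if i ≤ a ∧ j ≤ b ∧ a + b = m + (n + 1) then
      (-1 : ℝ) ^ j * (A - n).choose (a - i) * (B - n).choose (b - j)
        / (A + B - 2 * n).choose m
    else 0 with hf
  have hS : A + 1 + (B + 1) - 2 * (n + 1) = A + B - 2 * n := by omega
  have hl : chanCoef (A + 1) (B + 1) (n + 1) a b m
      = ∑ i ∈ Finset.range (n + 2), ((n + 1).choose i : ℝ) * f i (n + 1 - i) := by
    unfold chanCoef
    refine Finset.sum_congr rfl fun i _ => ?_
    simp only [hf, hS, show A + 1 - (n + 1) = A - n by omega,
      show B + 1 - (n + 1) = B - n by omega]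
    split_ifs <;> ring
  have h1 : (∑ i ∈ Finset.range (n + 1), (n.choose i : ℝ) * f (i + 1) (n - i))
      = shiftL (fun a b => chanCoef A B n a b m) a b := by
    unfold shiftL
    rcases Nat.eq_zero_or_pos a with rfl | ha
    · simp [hf]
    · rw [if_neg (by omega)]
      unfold chanCoef
      refine Finset.sum_congr rfl fun i _ => ?_
      simp only [hf, show a - (i + 1) = a - 1 - i by omega]
      have hc : (i + 1 ≤ a ∧ n - i ≤ b ∧ a + b = m + (n + 1))
          ↔ (i ≤ a - 1 ∧ n - i ≤ b ∧ a - 1 + b = m + n) := by omega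
      simp only [hc]
      split_ifs <;> ring
  have h2 : (∑ i ∈ Finset.range (n + 1), (n.choose i : ℝ) * f i (n + 1 - i))
      = -shiftR (fun a b => chanCoef A B n a b m) a b := by
    unfold shiftR
    rcases Nat.eq_zero_or_pos b with rfl | hb
    · simp only [if_true, neg_zero]
      refine Finset.sum_eq_zero fun i hi => ?_
      rw [Finset.mem_range] at hi
      simp only [hf]
      rw [if_neg (by omega), mul_zero]
    · rw [if_neg (by omega)]
      unfold chanCoef
      rw [← Finset.sum_neg_distrib]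
      refine Finset.sum_congr rfl fun i hi => ?_
      rw [Finset.mem_range] at hi
      simp only [hf, show n + 1 - i = n - i + 1 by omega,
        show b - (n - i + 1) = b - 1 - (n - i) by omega]
      have hc : (i ≤ a ∧ n - i + 1 ≤ b ∧ a + b = m + (n + 1))
          ↔ (i ≤ a ∧ n - i ≤ b - 1 ∧ a + (b - 1) = m + n) := by omega
      simp only [hc, pow_succ]
      split_ifs <;> ring
  rw [hl, Finset.sum_choose_succ_mul f n, h1, h2]
  ring

/-- `∂_Z + ∂_z` on a channel. -/
theorem chanCoef_up : ∀ (n A B : ℕ), n ≤ A → n ≤ B → ∀ a b m : ℕ, m + 2 * n ≤ A + B →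
    ((a : ℝ) + 1) * chanCoef A B n (a + 1) b m + ((b : ℝ) + 1) * chanCoef A B n a (b + 1) m
      = (m : ℝ) * chanCoef A B n a b (m - 1) := by
  intro n
  induction n with
  | zero =>
    intro A B _ _ a b m hmD
    simp only [chanCoef_zero]
    rcases Nat.eq_zero_or_pos m with rfl | hm
    · simp
    · obtain ⟨k, rfl⟩ : ∃ k, m = k + 1 := ⟨m - 1, by omega⟩
      by_cases hs : a + b = k
      · subst hs
        simp only [add_tsub_cancel_right, if_true,
          show a + 1 + b = a + b + 1 by omega, show a + (b + 1) = a + b + 1 by omega]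
        have e1 := choose_succ_mul_real A a
        have e2 := choose_succ_mul_real B b
        have e3 := choose_succ_mul_real (A + B) (a + b)
        rcases le_or_gt (a + b + 1) (A + B) with hle | hgt
        · have p1 : ((A + B).choose (a + b + 1) : ℝ) ≠ 0 := by
            exact_mod_cast (Nat.choose_pos hle).ne'
          have p0 : ((A + B).choose (a + b) : ℝ) ≠ 0 := by
            exact_mod_cast (Nat.choose_pos (show a + b ≤ A + B by omega)).ne'
          push_cast at e3 ⊢
          field_simp
          linear_combination ((A + B).choose (a + b) : ℝ) * (B.choose b) * e1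
            + ((A + B).choose (a + b) : ℝ) * (A.choose a) * e2
            - (A.choose a : ℝ) * (B.choose b) * e3
        · omega
      · simp [show ¬ a + 1 + b = k + 1 by omega, show ¬ a + (b + 1) = k + 1 by omega, hs]
  | succ n ih =>
    intro A B hA hB a b m hmD
    obtain ⟨A, rfl⟩ : ∃ k, A = k + 1 := ⟨A - 1, by omega⟩
    obtain ⟨B, rfl⟩ : ∃ k, B = k + 1 := ⟨B - 1, by omega⟩
    have h := fun a b => ih A B (by omega) (by omega) a b m (by omega)
    simp only [chanCoef_succ, shiftL, shiftR]
    rcases a with - | a <;> rcases b with - | b <;>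
      simp only [Nat.succ_ne_zero, if_false, if_true, add_tsub_cancel_right] <;> push_cast
    · linear_combination (0 : ℝ) * h 0 0
    · have := h 0 b
      push_cast at this
      linear_combination -this
    · have := h a 0
      push_cast at this
      linear_combination this
    · have h1 := h a (b + 1)
      have h2 := h (a + 1) b
      push_cast at h1 h2
      linear_combination h1 - h2

/-- `(A Z - Z² ∂_Z) + (B z - z² ∂_z)` on a channel. -/
theorem chanCoef_down : ∀ (n A B : ℕ), n ≤ A → n ≤ B → ∀ a b m : ℕ,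
    ((A : ℝ) - a + 1) * shiftL (fun a b => chanCoef A B n a b m) a b
      + ((B : ℝ) - b + 1) * shiftR (fun a b => chanCoef A B n a b m) a b
      = ((A : ℝ) + B - 2 * n - m) * chanCoef A B n a b (m + 1) := by
  intro n
  induction n with
  | zero =>
    intro A B _ _ a b m
    simp only [chanCoef_zero, shiftL, shiftR]
    by_cases hs : a + b = m + 1
    · simp only [hs, if_true]
      have hL : ((A : ℝ) - a + 1) * (if a = 0 then 0 else
          if a - 1 + b = m then (A.choose (a - 1) : ℝ) * B.choose b / (A + B).choose m else 0)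
          = (a : ℝ) * A.choose a * B.choose b / (A + B).choose m := by
        rcases a with - | a
        · simp
        · rw [if_neg (Nat.succ_ne_zero a), if_pos (by omega), add_tsub_cancel_right]
          push_cast
          rw [choose_succ_mul_real A a]
          ring
      have hR : ((B : ℝ) - b + 1) * (if b = 0 then 0 else
          if a + (b - 1) = m then (A.choose a : ℝ) * B.choose (b - 1) / (A + B).choose m else 0)
          = (A.choose a : ℝ) * ((b : ℝ) * B.choose b) / (A + B).choose m := by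
        rcases b with - | b
        · simp
        · rw [if_neg (Nat.succ_ne_zero b), if_pos (by omega), add_tsub_cancel_right]
          push_cast
          rw [choose_succ_mul_real B b]
          ring
      rw [hL, hR]
      have hsR : (a : ℝ) + b = m + 1 := by exact_mod_cast hs
      have e3 := choose_succ_mul_real (A + B) m
      push_cast at e3 ⊢
      rcases le_or_gt (m + 1) (A + B) with hle | hgt
      · have p1 : ((A + B).choose (m + 1) : ℝ) ≠ 0 := by
          exact_mod_cast (Nat.choose_pos hle).ne'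
        have p0 : ((A + B).choose m : ℝ) ≠ 0 := by
          exact_mod_cast (Nat.choose_pos (show m ≤ A + B by omega)).ne'
        field_simp
        linear_combination (A.choose a : ℝ) * (B.choose b) * ((A + B).choose (m + 1)) * hsR
          + (A.choose a : ℝ) * (B.choose b) * e3
      · rcases le_or_gt a A with ha | ha
        · rcases le_or_gt b B with hb | hb
          · omega
          · simp [Nat.choose_eq_zero_of_lt hb]
        · simp [Nat.choose_eq_zero_of_lt ha]
    · have h1 : a ≠ 0 → ¬ a - 1 + b = m := by omega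
      have h2 : b ≠ 0 → ¬ a + (b - 1) = m := by omega
      simp +contextual [hs, h1, h2]
  | succ n ih =>
    intro A B hA hB a b m
    obtain ⟨A, rfl⟩ : ∃ k, A = k + 1 := ⟨A - 1, by omega⟩
    obtain ⟨B, rfl⟩ : ∃ k, B = k + 1 := ⟨B - 1, by omega⟩
    have h := ih A B (by omega) (by omega)
    simp only [shiftL, shiftR] at h
    simp only [chanCoef_succ, shiftL, shiftR]
    rcases a with - | a <;> rcases b with - | b <;>
      simp only [Nat.succ_ne_zero, if_false, if_true, add_tsub_cancel_right] <;> push_cast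
    · ring
    · have := h 0 b m
      simp only [if_true] at this
      push_cast at this
      rcases b with - | b <;>
        simp only [Nat.succ_ne_zero, if_false, if_true, add_tsub_cancel_right] at this ⊢ <;>
        push_cast at this ⊢ <;> linear_combination -this
    · have := h a 0 m
      simp only [if_true] at this
      push_cast at this
      rcases a with - | a <;>
        simp only [Nat.succ_ne_zero, if_false, if_true, add_tsub_cancel_right] at this ⊢ <;>
        push_cast at this ⊢ <;> linear_combination this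
    · have h1 := h a (b + 1) m
      have h2 := h (a + 1) b m
      simp only [Nat.succ_ne_zero, if_false, add_tsub_cancel_right] at h1 h2
      push_cast at h1 h2
      rcases a with - | a <;> rcases b with - | b <;>
        simp only [Nat.succ_ne_zero, if_false, if_true, add_tsub_cancel_right] at h1 h2 ⊢ <;>
        push_cast at h1 h2 ⊢ <;> linear_combination h1 - h2

theorem chan_col (A B D n : ℕ) (m : Fin (D + 1)) :
    (fun p => chan A B D n p m)
      = Real.sqrt (D.choose (m : ℕ)) • coefVec A B (fun a b => chanCoef A B n a b m) := by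
  funext p
  simp only [chan, coefVec, Pi.smul_apply, smul_eq_mul]
  ring

theorem chan_eq (A B D n : ℕ) (p : Two A B) (m : Fin (D + 1)) :
    chan A B D n p m
      = Real.sqrt (D.choose (m : ℕ)) * coefVec A B (fun a b => chanCoef A B n a b m) p :=
  congrFun (chan_col A B D n m) p

theorem chan_weight {A B D n : ℕ} (hA : n ≤ A) (hB : n ≤ B) (p : Two A B) (m : Fin (D + 1))
    (h : chan A B D n p m ≠ 0) : wt2 p = m + n := by
  have : chanCoef A B n p.1 p.2 m ≠ 0 := fun h0 => h (by simp [chan, h0])
  exact (chanCoef_support hA hB this).1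

/-- C1c: the channel maps intertwine. -/
theorem chan_intertwines {A B D n : ℕ} (hD : D + 2 * n = A + B) (hA : n ≤ A) (hB : n ≤ B) :
    Intertwines (fun m : Fin (D + 1) => (m : ℕ)) (raise D) wt2 (raise2 A B) n (chan A B D n) where
  weight p m h := by
    have := chan_weight hA hB p m h
    omega
  up := by
    ext p m
    obtain ⟨a, b⟩ := p
    have hsA : ∀ b', chanCoef A B n (A + 1) b' m = 0 := fun b' => by
      by_contra h
      have := (chanCoef_support hA hB h).2.1
      omega
    have hsB : ∀ a', chanCoef A B n a' (B + 1) m = 0 := fun a' => by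
      by_contra h
      have := (chanCoef_support hA hB h).2.2
      omega
    have hl : (raise2 A B * chan A B D n) (a, b) m
        = (raise2 A B *ᵥ fun p => chan A B D n p m) (a, b) := rfl
    rw [hl, chan_col, mulVec_smul, raise2_coefVec _ hsA hsB, Pi.smul_apply, smul_eq_mul,
      coefVec, Matrix.mul_apply]
    rw [chanCoef_up n A B hA hB a b m (by omega)]
    rcases Nat.eq_zero_or_pos (m : ℕ) with hm | hm
    · rw [hm]
      simp only [Nat.cast_zero, zero_mul, zero_div, mul_zero]
      refine (Finset.sum_eq_zero fun k _ => ?_).symm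
      have : ¬ (m : ℕ) = k + 1 := by omega
      simp [raise, this]
    · obtain ⟨k, hk⟩ : ∃ k, (m : ℕ) = k + 1 := ⟨m - 1, by omega⟩
      rw [Finset.sum_eq_single (⟨k, by omega⟩ : Fin (D + 1))]
      · have h3 := sqrt_raise_mul (show k < D by omega)
        simp only [chan_eq, coefVec, raise, hk, if_true, add_tsub_cancel_right]
        push_cast
        linear_combination (-(chanCoef A B n a b k
          / Real.sqrt ((A.choose (a : ℕ) : ℝ) * B.choose (b : ℕ)))) * h3
      · intro j _ hj
        have : ¬ (m : ℕ) = j + 1 := fun h => hj (Fin.ext (show (j : ℕ) = k by omega))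
        simp [raise, this]
      · simp
  down := by
    ext p m
    obtain ⟨a, b⟩ := p
    have hl : ((raise2 A B)ᵀ * chan A B D n) (a, b) m
        = ((raise2 A B)ᵀ *ᵥ fun p => chan A B D n p m) (a, b) := rfl
    rw [hl, chan_col, mulVec_smul, raise2_transpose_coefVec, Pi.smul_apply, smul_eq_mul,
      coefVec, Matrix.mul_apply]
    have hd := chanCoef_down n A B hA hB a b m
    simp only [shiftL, shiftR, mul_ite, mul_zero] at hd
    have hDR : ((A : ℝ) + B - 2 * n) = D := by
      have : ((D + 2 * n : ℕ) : ℝ) = ((A + B : ℕ) : ℝ) := by rw [hD]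
      push_cast at this
      linarith
    rw [hDR] at hd
    rw [hd]
    rcases Nat.lt_or_ge (m : ℕ) D with hm | hm
    · rw [Finset.sum_eq_single (⟨m + 1, by omega⟩ : Fin (D + 1))]
      · have h4 : Real.sqrt (((m : ℝ) + 1) * ((D : ℝ) - m)) ^ 2
            = ((m : ℝ) + 1) * ((D : ℝ) - m) := Real.sq_sqrt (by
          have : (m : ℝ) ≤ D := by exact_mod_cast hm.le
          nlinarith)
        have h3 := sqrt_raise_mul hm
        have h5 : Real.sqrt (((m : ℝ) + 1) * ((D : ℝ) - m)) * Real.sqrt (D.choose ((m : ℕ) + 1))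
            = ((D : ℝ) - m) * Real.sqrt (D.choose (m : ℕ)) := by
          apply mul_left_cancel₀ (show ((m : ℝ) + 1) ≠ 0 by positivity)
          linear_combination (-Real.sqrt (((m : ℝ) + 1) * ((D : ℝ) - m))) * h3
            + Real.sqrt (D.choose (m : ℕ)) * h4
        simp only [chan_eq, coefVec, Matrix.transpose_apply, raise, if_true]
        linear_combination (-(chanCoef A B n a b (m + 1)
          / Real.sqrt ((A.choose (a : ℕ) : ℝ) * B.choose (b : ℕ)))) * h5
      · intro j _ hj
        have : ¬ (j : ℕ) = m + 1 := fun h => hj (Fin.ext h)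
        simp [raise, this]
      · simp
    · have : (m : ℕ) = D := by omega
      rw [this, sub_self, zero_mul, zero_div, mul_zero]
      refine (Finset.sum_eq_zero fun j _ => ?_).symm
      have : ¬ (j : ℕ) = m + 1 := by omega
      simp [raise, this]

/-! ### Highest weight vectors of two particles -/

theorem chanCoef_bottom {A B n : ℕ} (a b : ℕ) :
    chanCoef A B n a b 0 = if a + b = n then (-1 : ℝ) ^ b * n.choose a else 0 := by
  unfold chanCoef
  by_cases hs : a + b = n
  · rw [if_pos hs, Finset.sum_eq_single a]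
    · rw [if_pos (by omega)]
      simp [show n - a = b by omega]
    · intro i hi hne
      rw [if_neg (by rw [Finset.mem_range] at hi; omega)]
    · intro h
      simp only [Finset.mem_range] at h
      omega
  · rw [if_neg hs]
    refine Finset.sum_eq_zero fun i _ => ?_
    rw [if_neg (by omega)]

theorem hwVec_eq (A B n : ℕ) :
    hwVec A B n = coefVec A B (fun a b => chanCoef A B n a b 0) := by
  funext p
  simp only [hwVec, coefVec, chanCoef_bottom]
  split_ifs <;> simp

theorem chan_mulVec_zero (A B D n : ℕ) :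
    chan A B D n *ᵥ Pi.single 0 1 = hwVec A B n := by
  rw [Matrix.mulVec_single_one, hwVec_eq]
  funext p
  simp [chan_eq]

theorem hwVec_supp (A B n : ℕ) : Supp (wt2 : Two A B → ℕ) n (hwVec A B n) := fun p hp => by
  simp only [hwVec]
  rw [if_neg hp]

theorem hwVec_ker {A B n : ℕ} (hA : n ≤ A) (hB : n ≤ B) : raise2 A B *ᵥ hwVec A B n = 0 := by
  obtain ⟨D, hD⟩ : ∃ D, D + 2 * n = A + B := ⟨A + B - 2 * n, by omega⟩
  rw [← chan_mulVec_zero A B D n]
  refine (chan_intertwines hD hA hB).mulVec_ker ?_
  rw [Matrix.mulVec_single_one]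
  funext i
  simp [raise]

theorem hwVec_zero_entry {A B n : ℕ} (hB : n ≤ B) :
    hwVec A B n (0, ⟨n, by omega⟩) = (-1 : ℝ) ^ n / Real.sqrt (B.choose n) := by
  simp [hwVec]

theorem nsq_hwVec_pos {A B n : ℕ} (hB : n ≤ B) : 0 < nsq (hwVec A B n) := by
  rcases (nsq_nonneg (hwVec A B n)).lt_or_eq with h | h
  · exact h
  · have := congrFun (nsq_eq_zero.1 h.symm) (0, ⟨n, by omega⟩)
    rw [hwVec_zero_entry hB] at this
    have h2 := sqrt_choose_pos hB
    simp [h2.ne'] at this

/-- The scalar by which a highest weight vector is a multiple of `hwVec`. -/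
noncomputable def hwScalar (A B m : ℕ) (v : Two A B → ℝ) : ℝ :=
  if h : m ≤ B then (-1 : ℝ) ^ m * Real.sqrt (B.choose m) * v (0, ⟨m, by omega⟩) else 0

theorem hw_rec {A B m : ℕ} {v : Two A B → ℝ} (hJ : raise2 A B *ᵥ v = 0)
    (hv : Supp wt2 m v) :
    ∀ (a : ℕ) (ha : a ≤ A) (b : ℕ) (hb : b ≤ B), a + b = m →
      v (⟨a, by omega⟩, ⟨b, by omega⟩) * Real.sqrt ((A.choose a : ℝ) * B.choose b)
        = hwScalar A B m v * ((-1 : ℝ) ^ b * m.choose a) := by
  set c : ℕ → ℕ → ℝ := fun a b =>
    if h : a ≤ A ∧ b ≤ B then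
      v (⟨a, by omega⟩, ⟨b, by omega⟩) * Real.sqrt ((A.choose a : ℝ) * B.choose b)
    else 0 with hc
  have hcv : coefVec A B c = v := by
    funext ⟨a, b⟩
    have h1 : 0 < Real.sqrt ((A.choose (a : ℕ) : ℝ) * B.choose (b : ℕ)) := by
      have := Nat.choose_pos (show (a : ℕ) ≤ A by omega)
      have := Nat.choose_pos (show (b : ℕ) ≤ B by omega)
      apply Real.sqrt_pos.2
      positivity
    simp only [coefVec, hc]
    rw [dif_pos ⟨by omega, by omega⟩]
    field_simp
  have hrec : ∀ a b : ℕ, a ≤ A → b ≤ B →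
      ((a : ℝ) + 1) * c (a + 1) b + ((b : ℝ) + 1) * c a (b + 1) = 0 := by
    intro a b ha hb
    have h1 : 0 < Real.sqrt ((A.choose a : ℝ) * B.choose b) := by
      have := Nat.choose_pos ha
      have := Nat.choose_pos hb
      apply Real.sqrt_pos.2
      positivity
    have h := congrFun hJ (⟨a, by omega⟩, ⟨b, by omega⟩)
    rw [← hcv, raise2_coefVec c (fun b => by simp [hc]) (fun a => by simp [hc]), Pi.zero_apply,
      coefVec, div_eq_zero_iff] at h
    exact h.resolve_right h1.ne'
  have hc0 : ∀ b, b ≤ B → b = m → c 0 b = hwScalar A B m v * (-1 : ℝ) ^ b := by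
    rintro b hb rfl
    simp only [hc, hwScalar]
    rw [dif_pos ⟨by omega, hb⟩, dif_pos hb]
    have : ((-1 : ℝ) ^ b) * (-1) ^ b = 1 := by rw [← mul_pow]; norm_num
    simp only [Nat.choose_zero_right, Nat.cast_one, one_mul, Fin.mk_zero]
    linear_combination (-(v (0, ⟨b, by omega⟩) * Real.sqrt (B.choose b))) * this
  have key : ∀ a b : ℕ, a ≤ A → a + b = m →
      c a b = hwScalar A B m v * ((-1 : ℝ) ^ b * m.choose a) := by
    intro a
    induction a with
    | zero =>
      intro b _ hb
      simp only [Nat.choose_zero_right, Nat.cast_one, mul_one]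
      rcases le_or_gt b B with hbB | hbB
      · exact hc0 b hbB (by omega)
      · rw [show c 0 b = 0 by simp [hc, show ¬ b ≤ B by omega]]
        simp [hwScalar, show ¬ m ≤ B by omega]
    | succ a ih =>
      intro b ha hs
      have h1 := ih (b + 1) (by omega) (by omega)
      rcases le_or_gt b B with hbB | hbB
      · have h2 := hrec a b (by omega) hbB
        have e := choose_succ_mul_real m a
        have hm : (m : ℝ) - a = b + 1 := by
          have : ((a + 1 + b : ℕ) : ℝ) = m := by rw [hs]
          push_cast at this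
          linarith
        apply mul_left_cancel₀ (show ((a : ℝ) + 1) ≠ 0 by positivity)
        rw [hm] at e
        rw [h1, pow_succ] at h2
        linear_combination h2 - hwScalar A B m v * (-1 : ℝ) ^ b * e
      · rw [show c (a + 1) b = 0 by simp [hc, show ¬ b ≤ B by omega]]
        simp [hwScalar, show ¬ m ≤ B by omega]
  intro a ha b hb hs
  have := key a b ha hs
  simp only [hc] at this
  rwa [dif_pos ⟨ha, hb⟩] at this

/-- C1e: a highest weight vector of weight `m` is a multiple of `hwVec`. -/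
theorem hw_unique {A B m : ℕ} {v : Two A B → ℝ} (hv : Supp wt2 m v)
    (hJ : raise2 A B *ᵥ v = 0) : v = hwScalar A B m v • hwVec A B m := by
  funext ⟨a, b⟩
  simp only [Pi.smul_apply, smul_eq_mul, hwVec]
  split_ifs with hs
  · have h1 : 0 < Real.sqrt ((A.choose (a : ℕ) : ℝ) * B.choose (b : ℕ)) := by
      have := Nat.choose_pos (show (a : ℕ) ≤ A by omega)
      have := Nat.choose_pos (show (b : ℕ) ≤ B by omega)
      apply Real.sqrt_pos.2
      positivity
    have := hw_rec hJ hv a (by omega) b (by omega) hs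
    rw [← mul_div_assoc, eq_div_iff h1.ne']
    exact this
  · simp [hv (a, b) hs]

/-- C1e: no highest weight vectors above weight `B`. -/
theorem hw_eq_zero {A B m : ℕ} (hm : B < m) {v : Two A B → ℝ} (hv : Supp wt2 m v)
    (hJ : raise2 A B *ᵥ v = 0) : v = 0 := by
  rw [hw_unique hv hJ, hwScalar, dif_neg (by omega), zero_smul]

theorem hw_eq_zero' {A B m : ℕ} (hm : A < m) {v : Two A B → ℝ} (hv : Supp wt2 m v)
    (hJ : raise2 A B *ᵥ v = 0) : v = 0 := by
  rcases le_or_gt m B with hB | hB
  · have h := hw_rec hJ hv A le_rfl (m - A) (by omega) (by omega)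
    have hne : ((m.choose A : ℕ) : ℝ) ≠ 0 := by exact_mod_cast (Nat.choose_pos hm.le).ne'
    -- the recursion at `a = A` forces the last coefficient to vanish
    have hA := congrFun hJ (⟨A, by omega⟩, ⟨m - A - 1, by omega⟩)
    have hsingle : (raise2 A B *ᵥ v) (⟨A, by omega⟩, ⟨m - A - 1, by omega⟩)
        = raise B ⟨m - A - 1, by omega⟩ ⟨m - A, by omega⟩
            * v (⟨A, by omega⟩, ⟨m - A, by omega⟩) := by
      rw [raise2_eq_jsum, kron_sum_mulVec]
      have h0 : (raise A *ᵥ fun a' => v (a', (⟨m - A - 1, by omega⟩ : Fin (B + 1))))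
          ⟨A, by omega⟩ = 0 := by
        simp only [mulVec, dotProduct]
        refine Finset.sum_eq_zero fun j _ => ?_
        have : ¬ (j : ℕ) = A + 1 := by omega
        simp [raise, this]
      rw [h0, zero_add]
      simp only [mulVec, dotProduct]
      rw [Finset.sum_eq_single (⟨m - A, by omega⟩ : Fin (B + 1))]
      · intro j _ hj
        have : ¬ (j : ℕ) = m - A - 1 + 1 := fun h' =>
          hj (Fin.ext (show (j : ℕ) = m - A by omega))
        simp [raise, this]
      · simp
    rw [hsingle, Pi.zero_apply, mul_eq_zero] at hA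
    have hr : raise B ⟨m - A - 1, by omega⟩ ⟨m - A, by omega⟩ ≠ 0 := by
      simp only [raise]
      rw [if_pos (by omega)]
      apply ne_of_gt
      apply Real.sqrt_pos.2
      have : ((m - A - 1 : ℕ) : ℝ) < B := by exact_mod_cast (show m - A - 1 < B by omega)
      apply mul_pos <;> [positivity; linarith]
    rw [hA.resolve_left hr, zero_mul, eq_comm, mul_eq_zero] at h
    have hs0 : hwScalar A B m v = 0 := h.resolve_right (mul_ne_zero (by simp) hne)
    rw [hw_unique hv hJ, hs0, zero_smul]
  · exact hw_eq_zero hB hv hJ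

theorem chan_transpose_hwVec_self {A B D n : ℕ} (hA : n ≤ A) (hB : n ≤ B) :
    (chan A B D n)ᵀ *ᵥ hwVec A B n = Pi.single 0 (nsq (hwVec A B n)) := by
  funext k
  rcases Nat.eq_zero_or_pos (k : ℕ) with hk | hk
  · have : k = 0 := Fin.ext hk
    subst this
    rw [Pi.single_eq_same]
    refine Finset.sum_congr rfl fun p _ => ?_
    have := congrFun (chan_mulVec_zero A B D n) p
    rw [Matrix.mulVec_single_one] at this
    simp only [Matrix.transpose_apply]
    rw [← this]
    rfl
  · rw [Pi.single_eq_of_ne (fun h => by simp [h] at hk)]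
    refine Finset.sum_eq_zero fun p _ => ?_
    by_cases h : chan A B D n p k = 0
    · simp [h]
    · have hp : wt2 p ≠ n := by
        have := chan_weight hA hB p k h
        omega
      simp [hwVec_supp A B n p hp]

theorem raise_ker_weight {D k : ℕ} (hk : k ≠ 0) {u : Fin (D + 1) → ℝ}
    (hu : Supp (fun m : Fin (D + 1) => (m : ℕ)) k u) (hJ : raise D *ᵥ u = 0) : u = 0 := by
  funext i
  by_cases hi : (i : ℕ) = k
  · have h := congrFun hJ ⟨k - 1, by omega⟩
    simp only [mulVec, dotProduct] at h
    rw [Finset.sum_eq_single i (fun j _ hj => by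
      have : ¬ (j : ℕ) = k - 1 + 1 := fun h' => hj (Fin.ext (by omega))
      simp [raise, this]) (by simp), Pi.zero_apply, mul_eq_zero] at h
    refine h.resolve_left ?_
    simp only [raise]
    rw [if_pos (by omega)]
    apply ne_of_gt
    apply Real.sqrt_pos.2
    have : ((k - 1 : ℕ) : ℝ) < D := by exact_mod_cast (show k - 1 < D by omega)
    apply mul_pos <;> [positivity; linarith]
  · exact hu i hi

/-- C1e: distinct channels are orthogonal. -/
theorem chan_transpose_hwVec_ne {A B D n m : ℕ} (hD : D + 2 * n = A + B) (hA : n ≤ A) (hB : n ≤ B)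
    (hmA : m ≤ A) (hmB : m ≤ B) (hmn : m ≠ n) :
    (chan A B D n)ᵀ *ᵥ hwVec A B m = 0 := by
  have hT := (chan_intertwines hD hA hB).transpose
  rcases lt_or_ge m n with h | h
  · funext k
    refine Finset.sum_eq_zero fun p _ => ?_
    by_cases hp : chan A B D n p k = 0
    · simp [hp]
    · have hp' : wt2 p ≠ m := by
        have := chan_weight hA hB p k hp
        omega
      simp [hwVec_supp A B m p hp']
  · exact raise_ker_weight (k := m - n) (by omega)
      (hT.supp (m := m) (by omega) (hwVec_supp A B m)) (hT.mulVec_ker (hwVec_ker hmA hmB))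

theorem scalar_of_intertwines {D : ℕ} {X : Matrix (Fin (D + 1)) (Fin (D + 1)) ℝ}
    (h : Intertwines (fun m : Fin (D + 1) => (m : ℕ)) (raise D) (fun m : Fin (D + 1) => (m : ℕ))
      (raise D) 0 X) : X = X 0 0 • 1 := by
  have hoff : ∀ i j, i ≠ j → X i j = 0 := fun i j hij => by
    by_contra h0
    have := h.weight i j h0
    exact hij (Fin.ext (by omega))
  have hdiag : ∀ k (hk : k < D + 1), X ⟨k, hk⟩ ⟨k, hk⟩ = X 0 0 := by
    intro k
    induction k with
    | zero => intro _; rfl
    | succ k ih =>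
      intro hk
      rw [← ih (by omega)]
      have e := congrFun (congrFun h.up ⟨k, by omega⟩) ⟨k + 1, hk⟩
      simp only [Matrix.mul_apply] at e
      rw [Finset.sum_eq_single (⟨k + 1, hk⟩ : Fin (D + 1))
          (fun j _ hj => by rw [hoff j _ hj, mul_zero]) (by simp),
        Finset.sum_eq_single (⟨k, by omega⟩ : Fin (D + 1))
          (fun j _ hj => by rw [hoff _ j (Ne.symm hj), zero_mul]) (by simp),
        mul_comm (X ⟨k, by omega⟩ ⟨k, by omega⟩)] at e
      refine mul_left_cancel₀ ?_ e
      simp only [raise, if_true]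
      apply ne_of_gt
      apply Real.sqrt_pos.2
      have : (k : ℝ) < D := by exact_mod_cast (show k < D by omega)
      apply mul_pos <;> [positivity; linarith]
  ext i j
  by_cases hij : i = j
  · subst hij
    simp [hdiag i i.2]
  · simp [hoff i j hij, Matrix.one_apply_ne hij]

/-- The channel map is an isometry up to `nsq hwVec`. -/
theorem chan_gram {A B D n : ℕ} (hD : D + 2 * n = A + B) (hA : n ≤ A) (hB : n ≤ B) :
    (chan A B D n)ᵀ * chan A B D n = nsq (hwVec A B n) • 1 := by
  have h := chan_intertwines hD hA hB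
  rw [scalar_of_intertwines ((h.transpose.comp h).cast (by ring))]
  congr 1
  have := congrFun (chan_transpose_hwVec_self (D := D) hA hB) 0
  rw [← chan_mulVec_zero A B D n, mulVec_mulVec, Matrix.mulVec_single_one, chan_mulVec_zero,
    Pi.single_eq_same] at this
  simpa using this

/-! ### Three particles -/

/-- Reassociation `Three A B ≃ Two A B × Fin (B+1)`. -/
def assoc3 (A B : ℕ) : Three A B ≃ Two A B × Fin (B + 1) := (Equiv.prodAssoc _ _ _).symm

/-- Exchange of the two electrons. -/
def swapEl (A B : ℕ) : Three A B ≃ Three A B := Equiv.prodCongr (Equiv.refl _) (Equiv.prodComm _ _)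

@[simp] theorem swapEl_apply {A B : ℕ} (p : Three A B) : swapEl A B p = (p.1, p.2.2, p.2.1) := rfl

@[simp] theorem assoc3_apply {A B : ℕ} (p : Three A B) :
    assoc3 A B p = ((p.1, p.2.1), p.2.2) := rfl

theorem raise3_eq_left (A B : ℕ) :
    raise3 A B = (jsum (raise2 A B) (raise B)).submatrix (assoc3 A B) (assoc3 A B) := by
  ext ⟨a, b, e⟩ ⟨a', b', e'⟩
  simp only [raise3, jsum, raise2, submatrix_apply, assoc3_apply, Matrix.add_apply,
    kroneckerMap_apply, Matrix.one_apply, Prod.mk.injEq]
  split_ifs <;> first | ring1 | (exfalso; simp_all)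

theorem raise3_eq_right (A B : ℕ) : raise3 A B = jsum (raise A) (raise2 B B) := by
  ext ⟨a, b, e⟩ ⟨a', b', e'⟩
  simp only [raise3, jsum, raise2, Matrix.add_apply,
    kroneckerMap_apply, Matrix.one_apply, Prod.mk.injEq]
  split_ifs <;> first | ring1 | (exfalso; simp_all)

theorem raise3_swapEl (A B : ℕ) :
    (raise3 A B).submatrix (swapEl A B) (swapEl A B) = raise3 A B := by
  ext ⟨a, b, e⟩ ⟨a', b', e'⟩
  simp only [raise3, submatrix_apply, swapEl_apply, Prod.mk.injEq,
    and_comm (a := e = e') (b := b = b')]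
  by_cases h1 : b = b' <;> by_cases h2 : e = e' <;> by_cases h3 : a = a' <;>
    simp [h1, h2, h3, add_right_comm]

theorem wt3_swapEl {A B : ℕ} (p : Three A B) : wt3 (swapEl A B p) = wt3 p := by
  simp only [wt3, swapEl_apply]
  omega

theorem raise3_weight {A B : ℕ} (i j : Three A B) (h : raise3 A B i j ≠ 0) :
    wt3 j = wt3 i + 1 := by
  obtain ⟨a, b, e⟩ := i
  obtain ⟨a', b', e'⟩ := j
  rw [raise3_eq_right] at h
  simp only [jsum, Matrix.add_apply, kroneckerMap_apply] at h
  show (a' : ℕ) + b' + e' = a + b + e + 1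
  by_cases ha : raise A a a' * (1 : Matrix (Two B B) (Two B B) ℝ) (b, e) (b', e') = 0
  · rw [ha, zero_add] at h
    have h1 : a = a' := by
      by_contra hne
      exact h (by simp [Matrix.one_apply_ne hne])
    have h2 := raise2_weight (b, e) (b', e') (right_ne_zero_of_mul h)
    simp only [wt2] at h2
    subst h1
    omega
  · have h1 := raise_weight a a' (left_ne_zero_of_mul ha)
    have h2 : (b, e) = (b', e') := by
      by_contra hne
      exact right_ne_zero_of_mul ha (Matrix.one_apply_ne hne)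
    simp only [Prod.mk.injEq] at h2
    rw [← h2.1, ← h2.2]
    omega

theorem act3_eq {A A' B : ℕ} (G : Matrix (Two A' B) (Two A B) ℝ) :
    act3 G = (G ⊗ₖ (1 : Matrix (Fin (B + 1)) (Fin (B + 1)) ℝ)).submatrix (assoc3 A' B)
      (assoc3 A B) := by
  ext ⟨a, b, e⟩ ⟨a', b', e'⟩
  simp [act3, kroneckerMap_apply, Matrix.one_apply]

theorem act4_eq {A A' B : ℕ} (G : Matrix (Two A' B) (Two A B) ℝ) :
    act4 G = (act3 G).submatrix (swapEl A' B) (swapEl A B) := by
  ext ⟨a, b, e⟩ ⟨a', b', e'⟩
  simp only [act4, act3, submatrix_apply, swapEl_apply]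
  congr

theorem Intertwines.act3 {A A' B : ℕ} {d : ℤ} {G : Matrix (Two A' B) (Two A B) ℝ}
    (h : Intertwines wt2 (raise2 A B) wt2 (raise2 A' B) d G) :
    Intertwines wt3 (raise3 A B) wt3 (raise3 A' B) d (P359.act3 G) := by
  rw [act3_eq, raise3_eq_left, raise3_eq_left]
  exact (h.kronRight (w'' := fun b : Fin (B + 1) => (b : ℕ)) (J'' := raise B)).submatrix
    (assoc3 A B) (assoc3 A' B)

theorem Intertwines.swapEl {A A' B : ℕ} {d : ℤ} {G : Matrix (Three A' B) (Three A B) ℝ}
    (h : Intertwines wt3 (raise3 A B) wt3 (raise3 A' B) d G) :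
    Intertwines wt3 (raise3 A B) wt3 (raise3 A' B) d
      (G.submatrix (P359.swapEl A' B) (P359.swapEl A B)) := by
  have := h.submatrix (P359.swapEl A B) (P359.swapEl A' B)
  simpa only [wt3_swapEl, raise3_swapEl] using this

theorem Intertwines.act4 {A A' B : ℕ} {d : ℤ} {G : Matrix (Two A' B) (Two A B) ℝ}
    (h : Intertwines wt2 (raise2 A B) wt2 (raise2 A' B) d G) :
    Intertwines wt3 (raise3 A B) wt3 (raise3 A' B) d (P359.act4 G) := by
  rw [act4_eq]
  exact h.act3.swapEl

theorem Intertwines.cross {A A' B : ℕ} {d : ℤ} {G H : Matrix (Two A' B) (Two A B) ℝ}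
    (hG : Intertwines wt2 (raise2 A B) wt2 (raise2 A' B) d G)
    (hH : Intertwines wt2 (raise2 A B) wt2 (raise2 A' B) d H) :
    Intertwines wt3 (raise3 A B) wt3 (raise3 A B) 0 ((P359.act3 G)ᵀ * P359.act4 H) :=
  (hG.act3.transpose.comp hH.act4).cast (by ring)

theorem cross_swapEl {A A' B : ℕ} (G H : Matrix (Two A' B) (Two A B) ℝ) :
    ((act3 G)ᵀ * act4 H).submatrix (swapEl A B) (swapEl A B) = (act4 G)ᵀ * act3 H := by
  rw [act4_eq, act4_eq, transpose_submatrix,
    ← submatrix_mul_equiv _ _ (swapEl A B) (swapEl A' B) (swapEl A B)]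
  congr 1

/-- C1a on two particles: positivity on the `hwVec`s suffices. -/
theorem criterion2 {A B : ℕ} {K : Matrix (Two A B) (Two A B) ℝ} (hK : Kᵀ = K)
    (h : Intertwines wt2 (raise2 A B) wt2 (raise2 A B) 0 K) {L : ℕ}
    (hhw : ∀ n ≤ L, n ≤ A → n ≤ B → 0 ≤ quad K (hwVec A B n))
    (v : Two A B → ℝ) (hv : ∀ i, L < wt2 i → v i = 0) : 0 ≤ quad K v := by
  refine criterion raise2_weight (fun i j hij => ?_) hK h.up ?_ v hv
  · have := h.weight i j hij
    omega
  · intro m hm u hu hJ
    rcases le_or_gt m A with hA | hA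
    · rcases le_or_gt m B with hB | hB
      · rw [hw_unique hu hJ, quad, mulVec_smul, smul_dotProduct, dotProduct_smul, smul_eq_mul,
          smul_eq_mul, ← mul_assoc]
        exact mul_nonneg (mul_self_nonneg _) (hhw m hm hA hB)
      · simp [hw_eq_zero hB hu hJ, quad]
    · simp [hw_eq_zero' hA hu hJ, quad]

/-- C1a for antisymmetric pairs of electrons. -/
theorem criterion_anti3 {A B : ℕ} {K : Matrix (Three A B) (Three A B) ℝ} (hK : Kᵀ = K)
    (h : Intertwines wt3 (raise3 A B) wt3 (raise3 A B) 0 K)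
    (hs : K.submatrix (swapEl A B) (swapEl A B) = K) {L : ℕ}
    (hhw : ∀ m ≤ L, ∀ F, Supp wt3 m F → raise3 A B *ᵥ F = 0 →
      (∀ a b e, F (a, b, e) = -F (a, e, b)) → 0 ≤ quad K F)
    (F : Three A B → ℝ) (hF : ∀ i, L < wt3 i → F i = 0)
    (hanti : ∀ a b e, F (a, b, e) = -F (a, e, b)) : 0 ≤ quad K F := by
  set S : Matrix (Three A B) (Three A B) ℝ :=
    Matrix.of fun p q => if q = swapEl A B p then (-1 : ℝ) else 0 with hS
  have hinv : ∀ p, swapEl A B (swapEl A B p) = p := fun p => rfl
  have hSv : ∀ (u : Three A B → ℝ) a b e, (S *ᵥ u) (a, b, e) = -u (a, e, b) := by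
    intro u a b e
    simp only [mulVec, dotProduct]
    rw [Finset.sum_eq_single (swapEl A B (a, b, e))]
    · simp only [hS, Matrix.of_apply, swapEl_apply, if_true, neg_one_mul]
    · intro r _ hne
      simp only [hS, Matrix.of_apply, if_neg hne, zero_mul]
    · simp
  have hSmul : ∀ M : Matrix (Three A B) (Three A B) ℝ,
      M.submatrix (swapEl A B) (swapEl A B) = M → S * M = M * S := by
    intro M hM
    ext p q
    have hl : (S * M) p q = -M (swapEl A B p) q := by
      rw [Matrix.mul_apply, Finset.sum_eq_single (swapEl A B p)]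
      · simp only [hS, Matrix.of_apply, if_true, neg_one_mul]
      · intro r _ hne
        simp only [hS, Matrix.of_apply, if_neg hne, zero_mul]
      · simp
    have hr : (M * S) p q = -M p (swapEl A B q) := by
      rw [Matrix.mul_apply, Finset.sum_eq_single (swapEl A B q)]
      · simp [hS]
      · intro r _ hne
        have : ¬ q = swapEl A B r := fun h => hne (by rw [h, hinv])
        simp only [hS, Matrix.of_apply, if_neg this, mul_zero]
      · simp
    have := congrFun (congrFun hM p) (swapEl A B q)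
    rw [submatrix_apply, hinv] at this
    rw [hl, hr, this]
  refine criterion_sym raise3_weight (fun i j hij => ?_) hK h.up (S := S) ?_ ?_ ?_ ?_ ?_ ?_ F hF ?_
  · have := h.weight i j hij
    omega
  · ext p q
    have : (p = swapEl A B q) ↔ (q = swapEl A B p) :=
      ⟨fun h => by rw [h, hinv], fun h => by rw [h, hinv]⟩
    simp only [hS, Matrix.transpose_apply, Matrix.of_apply, this]
  · refine Matrix.ext_of_mulVec_single fun q => ?_
    funext ⟨a, b, e⟩
    rw [← mulVec_mulVec, hSv, hSv, neg_neg, one_mulVec]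
  · intro p q hne
    simp only [hS, Matrix.of_apply, ne_eq, ite_eq_right_iff, not_forall] at hne
    rw [hne.1, wt3_swapEl]
  · exact hSmul _ (raise3_swapEl A B)
  · exact hSmul _ hs
  · intro m hm u hu hJ hSu
    exact hhw m hm u hu hJ fun a b e => by
      conv_lhs => rw [← hSu]
      exact hSv u a b e
  · funext ⟨a, b, e⟩
    rw [hSv, ← hanti]

/-! ### The pair isometry -/

theorem chanCoef_one {q : ℕ} {a b m : ℕ} (hs : a + b = m + 1) :
    ((q : ℝ) + 1) * chanCoef (q + 1) (q + 1) 1 a b m
      = ((a : ℝ) - b) * ((q + 1).choose a : ℝ) * (q + 1).choose b / (q + q).choose m := by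
  have habs : ∀ k : ℕ, ((q : ℝ) + 1) * q.choose k = ((k : ℝ) + 1) * (q + 1).choose (k + 1) := by
    intro k
    have := congrArg (Nat.cast : ℕ → ℝ) (Nat.add_one_mul_choose_eq q k)
    push_cast at this
    linarith
  have hq : ∀ k : ℕ, ((q : ℝ) + 1) * q.choose k = ((q : ℝ) + 1 - k) * (q + 1).choose k := by
    intro k
    have h1 := choose_succ_mul_real (q + 1) k
    push_cast at h1
    linarith [habs k]
  have hq0 : ((q : ℝ) + 1) ≠ 0 := by positivity
  rw [chanCoef_succ]
  simp only [shiftL, shiftR, chanCoef_zero]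
  rcases a with - | a <;> rcases b with - | b <;>
    simp only [Nat.succ_ne_zero, if_false, if_true, add_tsub_cancel_right]
  · omega
  · rw [if_pos (by omega)]
    apply mul_left_cancel₀ hq0
    push_cast
    have e1 := hq 0
    have e2 := habs b
    push_cast at e1
    linear_combination (-((q : ℝ) + 1) * q.choose 0 / (q + q).choose m) * e2
      + (-((b : ℝ) + 1) * (q + 1).choose (b + 1) / (q + q).choose m) * e1
  · rw [if_pos (by omega)]
    apply mul_left_cancel₀ hq0
    push_cast
    have e1 := hq 0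
    have e2 := habs a
    push_cast at e1
    linear_combination (((q : ℝ) + 1) * q.choose 0 / (q + q).choose m) * e2
      + (((a : ℝ) + 1) * (q + 1).choose (a + 1) / (q + q).choose m) * e1
  · rw [if_pos (by omega), if_pos (by omega)]
    apply mul_left_cancel₀ hq0
    push_cast
    have e1 := habs a
    have e2 := hq (b + 1)
    have e3 := hq (a + 1)
    have e4 := habs b
    push_cast at e2 e3
    linear_combination (((q : ℝ) + 1) * q.choose (b + 1) / (q + q).choose m) * e1
      + (((a : ℝ) + 1) * (q + 1).choose (a + 1) / (q + q).choose m) * e2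
      - (((q : ℝ) + 1) * q.choose b / (q + q).choose m) * e3
      - (((q : ℝ) + 1 - (a + 1)) * (q + 1).choose (a + 1) / (q + q).choose m) * e4

/-- C1d: `pairIso` is a normalised channel map. -/
theorem pairIso_eq_chan {Q : ℕ} (hQ : 1 ≤ Q) :
    pairIso Q = ((Q : ℝ) / Real.sqrt (2 * Q)) • chan Q Q (2 * Q - 2) 1 := by
  obtain ⟨q, rfl⟩ : ∃ q, Q = q + 1 := ⟨Q - 1, by omega⟩
  ext ⟨a, b⟩ m
  simp only [pairIso, Matrix.smul_apply, smul_eq_mul]
  split_ifs with hs
  · have h1 := chanCoef_one (q := q) hs
    have hm : (m : ℕ) ≤ q + q := by omega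
    have hC : 0 < ((q + q).choose (m : ℕ) : ℝ) := by exact_mod_cast Nat.choose_pos hm
    have hD : 2 * (q + 1) - 2 = q + q := by omega
    have hca : 0 < ((q + 1).choose (a : ℕ) : ℝ) := by
      exact_mod_cast Nat.choose_pos (show (a : ℕ) ≤ q + 1 by omega)
    have hcb : 0 < ((q + 1).choose (b : ℕ) : ℝ) := by
      exact_mod_cast Nat.choose_pos (show (b : ℕ) ≤ q + 1 by omega)
    simp only [chan, g1, hD]
    push_cast at h1 ⊢
    rw [Real.sqrt_mul (by positivity : (0 : ℝ) ≤ 2 * ((q : ℝ) + 1))]
    set x := Real.sqrt (((q + 1).choose (a : ℕ) : ℝ) * (q + 1).choose (b : ℕ)) with hx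
    set y := Real.sqrt ((q + q).choose (m : ℕ) : ℝ) with hy
    set z := Real.sqrt (2 * ((q : ℝ) + 1)) with hz
    have hx0 : 0 < x := by positivity
    have hy0 : 0 < y := by positivity
    have hz0 : 0 < z := by positivity
    have hxx : x * x = ((q + 1).choose (a : ℕ) : ℝ) * (q + 1).choose (b : ℕ) :=
      Real.mul_self_sqrt (by positivity)
    have hyy : y * y = ((q + q).choose (m : ℕ) : ℝ) := Real.mul_self_sqrt hC.le
    rw [mul_assoc (((a : ℕ) : ℝ) - ((b : ℕ) : ℝ)), ← hxx, ← hyy] at h1
    rw [eq_div_iff (by positivity)] at h1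
    field_simp
    linear_combination -h1
  · have : chan (q + 1) (q + 1) (2 * (q + 1) - 2) 1 (a, b) m = 0 := by
      by_contra h
      exact hs (chan_weight (by omega) (by omega) (a, b) m h)
    simp [this]

theorem pairIso_intertwines {Q : ℕ} (hQ : 1 ≤ Q) :
    Intertwines (fun m : Fin (2 * Q - 2 + 1) => (m : ℕ)) (raise (2 * Q - 2)) wt2 (raise2 Q Q) 1
      (pairIso Q) := by
  rw [pairIso_eq_chan hQ]
  exact (chan_intertwines (by omega) hQ hQ).smul _

theorem pairIso_gram {Q : ℕ} (hQ : 1 ≤ Q) : (pairIso Q)ᵀ * pairIso Q = 1 := by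
  rw [pairIso_eq_chan hQ, Matrix.transpose_smul, Matrix.smul_mul, Matrix.mul_smul,
    chan_gram (by omega) hQ hQ, smul_smul, smul_smul]
  have hn : nsq (hwVec Q Q 1) = 2 / (Q : ℝ) := by
    have h0 : ((0 : Fin (Q + 1)), (⟨1, by omega⟩ : Fin (Q + 1))) ≠ (⟨1, by omega⟩, 0) := by
      simp [Fin.ext_iff]
    rw [nsq, dotProduct, Fintype.sum_eq_add _ _ h0]
    · have hQ0 : (0 : ℝ) ≤ Q := Nat.cast_nonneg _
      simp only [hwVec, Fin.val_zero, zero_add, add_zero, if_true, Nat.choose_zero_right,
        Nat.choose_one_right, Nat.cast_one, one_mul, mul_one, pow_one, pow_zero, div_mul_div_comm,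
        Real.mul_self_sqrt hQ0, Nat.choose_self]
      ring
    · rintro ⟨a, b⟩ ⟨h1, h2⟩
      have : ¬ (a : ℕ) + b = 1 := by
        intro hab
        rcases (show (a : ℕ) = 0 ∧ (b : ℕ) = 1 ∨ (a : ℕ) = 1 ∧ (b : ℕ) = 0 by omega) with
          ⟨ha, hb⟩ | ⟨ha, hb⟩
        · exact h1 (by simp [Prod.ext_iff, Fin.ext_iff, ha, hb])
        · exact h2 (by simp [Prod.ext_iff, Fin.ext_iff, ha, hb])
      simp [hwVec, this]
  have hq : (0 : ℝ) < Q := by exact_mod_cast hQ
  rw [hn, show ((Q : ℝ) / Real.sqrt (2 * Q)) * ((Q : ℝ) / Real.sqrt (2 * Q)) * (2 / (Q : ℝ)) = 1 by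
    rw [div_mul_div_comm, Real.mul_self_sqrt (by positivity)]
    field_simp, one_smul]

/-- C1d: `P^{(1)} = V Vᵀ`. -/
theorem P1_eq {Q : ℕ} (p q : Two Q Q) :
    P1 Q p.1 p.2 q.1 q.2 = (pairIso Q * (pairIso Q)ᵀ) p q := by
  obtain ⟨a, b⟩ := p
  obtain ⟨a', b'⟩ := q
  rw [Matrix.mul_apply]
  simp only [Matrix.transpose_apply]
  by_cases hz : (a : ℕ) + b = 0 ∨ (a : ℕ) + b = 2 * Q
  · have hg : g1 Q a b = 0 := by
      have hab : (a : ℕ) = b := by omega
      simp [g1, hab]
    simp [P1, pairIso, hg]
  · obtain ⟨k, hk⟩ : ∃ k, (a : ℕ) + b = k + 1 := ⟨(a : ℕ) + b - 1, by omega⟩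
    rw [Finset.sum_eq_single (⟨k, by omega⟩ : Fin (2 * Q - 2 + 1))]
    · simp only [P1, pairIso, hk, if_true, add_tsub_cancel_right]
      by_cases h' : (a' : ℕ) + b' = k + 1
      · rw [if_pos h'.symm, if_pos h', div_mul_div_comm, Real.mul_self_sqrt (by positivity)]
      · rw [if_neg (fun h => h' h.symm), if_neg h', mul_zero]
    · intro m _ hm
      have : ¬ (a : ℕ) + b = m + 1 := fun h => hm (Fin.ext (show (m : ℕ) = k by omega))
      simp [pairIso, this]
    · simp

theorem restK_eq (A Q : ℕ) :
    restK A Q = (1 : Matrix (Fin (A + 1)) (Fin (A + 1)) ℝ) ⊗ₖ (pairIso Q * (pairIso Q)ᵀ) := by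
  ext ⟨a, b, e⟩ ⟨a', b', e'⟩
  simp only [restK, kroneckerMap_apply, Matrix.one_apply]
  split_ifs
  · rw [P1_eq (b, e) (b', e'), one_mul]
  · rw [zero_mul]

theorem restK_intertwines {A Q : ℕ} (hQ : 1 ≤ Q) :
    Intertwines wt3 (raise3 A Q) wt3 (raise3 A Q) 0 (restK A Q) := by
  have h := ((pairIso_intertwines hQ).comp (pairIso_intertwines hQ).transpose).cast
    (show (-1 : ℤ) + 1 = 0 by ring)
  have h2 := h.kronLeft (w'' := fun a : Fin (A + 1) => (a : ℕ)) (J'' := raise A)
  have hw : (wt3 : Three A Q → ℕ) = fun p => (p.1 : ℕ) + wt2 p.2 := by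
    funext p
    simp only [wt3, wt2, add_assoc]
  rw [restK_eq, raise3_eq_right, hw]
  exact h2

theorem restK_transpose (A Q : ℕ) : (restK A Q)ᵀ = restK A Q := by
  rw [restK_eq, ← Matrix.kroneckerMap_transpose, Matrix.transpose_one, Matrix.transpose_mul,
    Matrix.transpose_transpose]

theorem restK_swapEl (A Q : ℕ) :
    (restK A Q).submatrix (swapEl A Q) (swapEl A Q) = restK A Q := by
  ext ⟨a, b, e⟩ ⟨a', b', e'⟩
  simp only [restK, submatrix_apply, swapEl_apply, P1, add_comm (b : ℕ), add_comm (b' : ℕ), g1,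
    mul_comm (Q.choose (e : ℕ) : ℝ), mul_comm (Q.choose (e' : ℕ) : ℝ)]
  congr 2
  ring

theorem swapK_transpose (Q : ℕ) : (swapK Q)ᵀ = swapK Q := by
  ext p q
  simp only [swapK, Matrix.transpose_apply, mul_comm]

theorem swapK_eq (Q : ℕ) :
    swapK Q = ((pairIso Q ⊗ₖ (1 : Matrix (Fin (Q + 1)) (Fin (Q + 1)) ℝ)).submatrix
        (assoc3 Q Q) id)ᵀ *
      ((pairIso Q ⊗ₖ (1 : Matrix (Fin (Q + 1)) (Fin (Q + 1)) ℝ)).submatrix
        (assoc3 Q Q) id).submatrix (swapEl Q Q) id := by
  ext ⟨a, b⟩ ⟨a', b'⟩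
  simp only [swapK, Matrix.mul_apply, Matrix.transpose_apply, submatrix_apply, id_eq,
    assoc3_apply, swapEl_apply, kroneckerMap_apply, Matrix.one_apply]
  rw [Fintype.sum_prod_type]
  refine Finset.sum_congr rfl fun x _ => ?_
  rw [Fintype.sum_prod_type, Finset.sum_eq_single b', Finset.sum_eq_single b] <;>
    simp +contextual

theorem swapK_intertwines {Q : ℕ} (hQ : 1 ≤ Q) :
    Intertwines wt2 (raise2 (2 * Q - 2) Q) wt2 (raise2 (2 * Q - 2) Q) 0 (swapK Q) := by
  have hV := (pairIso_intertwines hQ).kronRight (w'' := fun b : Fin (Q + 1) => (b : ℕ))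
    (J'' := raise Q)
  rw [← raise2_eq_jsum] at hV
  have hL := hV.submatrix (Equiv.refl _) (assoc3 Q Q)
  rw [← raise3_eq_left] at hL
  have hL' := hL.submatrix (Equiv.refl _) (swapEl Q Q)
  rw [raise3_swapEl] at hL'
  simp only [Equiv.coe_refl, submatrix_id_id, id_eq, assoc3_apply, swapEl_apply] at hL hL'
  rw [swapK_eq]
  refine ((hL.transpose.comp (?_ : Intertwines wt2 (raise2 (2 * Q - 2) Q)
    (fun i : Three Q Q => wt2 (i.1, i.2.1) + (i.2.2 : ℕ)) (raise3 Q Q) 1 _))).cast (by ring)
  exact ⟨fun i j h => by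
      have := hL'.weight i j h
      simp only [wt2] at this ⊢
      omega, hL'.up, hL'.down⟩

/-! ### Highest weight vectors of three particles -/

/-- Coefficient function of a vector on `Three A B`. -/
noncomputable def coef3 {A B : ℕ} (v : Three A B → ℝ) (a b e : ℕ) : ℝ :=
  if h : a ≤ A ∧ b ≤ B ∧ e ≤ B then
    v (⟨a, by omega⟩, ⟨b, by omega⟩, ⟨e, by omega⟩)
      * Real.sqrt ((A.choose a : ℝ) * B.choose b * B.choose e)
  else 0

theorem raise3_mulVec_coef {A B : ℕ} (v : Three A B → ℝ) (a : Fin (A + 1)) (b e : Fin (B + 1)) :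
    (raise3 A B *ᵥ v) (a, b, e) * Real.sqrt ((A.choose (a : ℕ) : ℝ) * B.choose (b : ℕ)
        * B.choose (e : ℕ))
      = ((a : ℝ) + 1) * coef3 v (a + 1) b e + ((b : ℝ) + 1) * coef3 v a (b + 1) e
        + ((e : ℝ) + 1) * coef3 v a b (e + 1) := by
  have hA := sqrt_choose_pos (show (a : ℕ) ≤ A by omega)
  have hB := sqrt_choose_pos (show (b : ℕ) ≤ B by omega)
  have hE := sqrt_choose_pos (show (e : ℕ) ≤ B by omega)
  have hsqrt : ∀ x y z : ℕ, Real.sqrt ((A.choose x : ℝ) * B.choose y * B.choose z)
      = Real.sqrt (A.choose x : ℝ) * Real.sqrt (B.choose y : ℝ) * Real.sqrt (B.choose z : ℝ) :=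
    fun x y z => by rw [Real.sqrt_mul (by positivity), Real.sqrt_mul (by positivity)]
  rw [raise3_eq_right, kron_sum_mulVec, raise2_eq_jsum, kron_sum_mulVec]
  have e1 : (fun a' : Fin (A + 1) => v (a', b, e)) = fun a' : Fin (A + 1) =>
      (coef3 v a' b e / (Real.sqrt (B.choose (b : ℕ)) * Real.sqrt (B.choose (e : ℕ))))
        / Real.sqrt (A.choose (a' : ℕ)) := by
    funext a'
    have hA' := sqrt_choose_pos (show (a' : ℕ) ≤ A by omega)
    rw [coef3, dif_pos ⟨by omega, by omega, by omega⟩, hsqrt]
    field_simp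
  have e2 : (fun b' : Fin (B + 1) => v (a, b', e)) = fun b' : Fin (B + 1) =>
      (coef3 v a b' e / (Real.sqrt (A.choose (a : ℕ)) * Real.sqrt (B.choose (e : ℕ))))
        / Real.sqrt (B.choose (b' : ℕ)) := by
    funext b'
    have hB' := sqrt_choose_pos (show (b' : ℕ) ≤ B by omega)
    rw [coef3, dif_pos ⟨by omega, by omega, by omega⟩, hsqrt]
    field_simp
  have e3 : (fun e' : Fin (B + 1) => v (a, b, e')) = fun e' : Fin (B + 1) =>
      (coef3 v a b e' / (Real.sqrt (A.choose (a : ℕ)) * Real.sqrt (B.choose (b : ℕ))))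
        / Real.sqrt (B.choose (e' : ℕ)) := by
    funext e'
    have hE' := sqrt_choose_pos (show (e' : ℕ) ≤ B by omega)
    rw [coef3, dif_pos ⟨by omega, by omega, by omega⟩, hsqrt]
    field_simp
  have r1 := raise_mulVec_coef (A := A) (fun k => coef3 v k b e
      / (Real.sqrt (B.choose (b : ℕ)) * Real.sqrt (B.choose (e : ℕ)))) (by simp [coef3]) a
  have r2 := raise_mulVec_coef (A := B) (fun k => coef3 v a k e
      / (Real.sqrt (A.choose (a : ℕ)) * Real.sqrt (B.choose (e : ℕ)))) (by simp [coef3]) b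
  have r3 := raise_mulVec_coef (A := B) (fun k => coef3 v a b k
      / (Real.sqrt (A.choose (a : ℕ)) * Real.sqrt (B.choose (b : ℕ)))) (by simp [coef3]) e
  rw [← e1] at r1
  rw [← e2] at r2
  rw [← e3] at r3
  rw [r1, r2, r3, hsqrt]
  field_simp
  ring

/-- C1f: a vector killed by `J₊` is determined by its entries with impurity in the top state. -/
theorem hw3_formula {A B : ℕ} {v : Three A B → ℝ} (hJ : raise3 A B *ᵥ v = 0) :
    ∀ a ≤ A, ∀ b e : ℕ, coef3 v a b e = (-1 : ℝ) ^ a * ∑ i ∈ Finset.range (a + 1),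
      ((b + i).choose i : ℝ) * (e + (a - i)).choose (a - i) * coef3 v 0 (b + i) (e + (a - i)) := by
  intro a
  induction a with
  | zero => intro _ b e; simp
  | succ a ih =>
    intro ha b e
    have iha := ih (by omega)
    set x : ℕ → ℕ → ℝ := fun i j => coef3 v 0 (b + i) (e + j) with hx
    by_cases hbe : b ≤ B ∧ e ≤ B
    · obtain ⟨hb, he⟩ := hbe
      have hrec : ((a : ℝ) + 1) * coef3 v (a + 1) b e + ((b : ℝ) + 1) * coef3 v a (b + 1) e
          + ((e : ℝ) + 1) * coef3 v a b (e + 1) = 0 := by
        have h := raise3_mulVec_coef v ⟨a, by omega⟩ ⟨b, by omega⟩ ⟨e, by omega⟩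
        rw [hJ, Pi.zero_apply, zero_mul] at h
        exact h.symm
      rw [iha (b + 1) e, iha b (e + 1)] at hrec
      have habs : ∀ k i : ℕ, ((k : ℝ) + 1) * (k + 1 + i).choose i
          = ((i : ℝ) + 1) * (k + (i + 1)).choose (i + 1) := by
        intro k i
        have h1 := choose_succ_mul_real (k + (i + 1)) i
        push_cast at h1
        rw [show k + 1 + i = k + (i + 1) by omega, h1]
        ring
      have t1 : ((b : ℝ) + 1) * (∑ i ∈ Finset.range (a + 1), ((b + 1 + i).choose i : ℝ)
            * (e + (a - i)).choose (a - i) * coef3 v 0 (b + 1 + i) (e + (a - i)))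
          = ∑ i ∈ Finset.range (a + 2), (i : ℝ) * ((b + i).choose i
            * (e + (a + 1 - i)).choose (a + 1 - i) * x i (a + 1 - i)) := by
        conv_rhs => rw [Finset.sum_range_succ']
        simp only [Nat.cast_zero, zero_mul, add_zero, Finset.mul_sum]
        refine Finset.sum_congr rfl fun i _ => ?_
        simp only [hx, show a + 1 - (i + 1) = a - i by omega,
          show b + 1 + i = b + (i + 1) by omega]
        have := habs b i
        rw [show b + 1 + i = b + (i + 1) by omega] at this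
        push_cast
        linear_combination ((e + (a - i)).choose (a - i) : ℝ)
          * coef3 v 0 (b + (i + 1)) (e + (a - i)) * this
      have t2 : ((e : ℝ) + 1) * (∑ i ∈ Finset.range (a + 1), ((b + i).choose i : ℝ)
            * (e + 1 + (a - i)).choose (a - i) * coef3 v 0 (b + i) (e + 1 + (a - i)))
          = ∑ i ∈ Finset.range (a + 2), ((a : ℝ) + 1 - i) * ((b + i).choose i
            * (e + (a + 1 - i)).choose (a + 1 - i) * x i (a + 1 - i)) := by
        conv_rhs => rw [Finset.sum_range_succ]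
        simp only [Nat.cast_add, Nat.cast_one, sub_self, zero_mul, add_zero, Finset.mul_sum]
        refine Finset.sum_congr rfl fun i hi => ?_
        rw [Finset.mem_range] at hi
        simp only [hx, show a + 1 - i = a - i + 1 by omega,
          show e + 1 + (a - i) = e + (a - i + 1) by omega]
        have := habs e (a - i)
        rw [show e + 1 + (a - i) = e + (a - i + 1) by omega, Nat.cast_sub (by omega)] at this
        linear_combination ((b + i).choose i : ℝ)
          * coef3 v 0 (b + i) (e + (a - i + 1)) * this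
      have hsum : ∑ i ∈ Finset.range (a + 2), (i : ℝ) * ((b + i).choose i
            * (e + (a + 1 - i)).choose (a + 1 - i) * x i (a + 1 - i))
          + ∑ i ∈ Finset.range (a + 2), ((a : ℝ) + 1 - i) * ((b + i).choose i
            * (e + (a + 1 - i)).choose (a + 1 - i) * x i (a + 1 - i))
          = ((a : ℝ) + 1) * ∑ i ∈ Finset.range (a + 2), (b + i).choose i
            * (e + (a + 1 - i)).choose (a + 1 - i) * x i (a + 1 - i) := by
        rw [← Finset.sum_add_distrib, Finset.mul_sum]
        exact Finset.sum_congr rfl fun i _ => by ring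
      apply mul_left_cancel₀ (show ((a : ℝ) + 1) ≠ 0 by positivity)
      simp only [hx] at hsum t1 t2
      rw [pow_succ]
      linear_combination hrec - (-1 : ℝ) ^ a * (t1 + t2 + hsum)
    · rw [show coef3 v (a + 1) b e = 0 by simp [coef3]; tauto]
      symm
      rw [mul_eq_zero]
      right
      refine Finset.sum_eq_zero fun i _ => ?_
      rw [show coef3 v 0 (b + i) (e + (a + 1 - i)) = 0 by
        rw [coef3, dif_neg]; omega, mul_zero]

end P359
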