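import Vale.Agent.P359.ReducePauli
import Vale.Agent.P359.HighestWeight

/-!
P359: bookkeeping for one- and two-body energies (transposes, exchange of the two electrons,
one-body forms seen as two-body forms, slices).
-/

namespace P359

open Matrix
open scoped BigOperators

variable {A A' B M : ℕ}

lemma E1_transpose (K : Matrix (Two A B) (Two A B) ℝ) (φ : Reduced A B M) :
    E1 Kᵀ φ = E1 K φ := by
  simp only [E1_eq]
  refine Finset.sum_congr rfl fun k _ => ?_
  rw [← appl_adjoint, innerR_comm]

lemma innerR_appl2_swap (T : Matrix (Three A B) (Three A B) ℝ) (φ : Reduced A B M) {k l : Fin M}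
    (h : k ≠ l) :
    innerR φ (appl2 (T.submatrix (swapEl A B) (swapEl A B)) φ k l) =
      innerR φ (appl2 T φ l k) := by
  refine Finset.sum_congr rfl fun a _ => Finset.sum_congr rfl fun x _ => ?_
  refine congrArg (φ a x * ·) ?_
  simp only [appl2, Matrix.submatrix_apply, swapEl_apply]
  rw [← Equiv.sum_comp (swapEl A B) fun q => T (a, x l, x k) q * φ q.1 (upd2 x l q.2.1 k q.2.2)]
  refine Finset.sum_congr rfl fun q _ => ?_
  simp only [swapEl_apply, upd2, Function.update_comm h]

/-- The two electrons may be exchanged in a two-body energy. -/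
lemma E2_swapEl (T : Matrix (Three A B) (Three A B) ℝ) (φ : Reduced A B M) :
    E2 (T.submatrix (swapEl A B) (swapEl A B)) φ = E2 T φ := by
  simp only [E2_eq, Finset.sum_filter]
  conv_rhs => rw [Finset.sum_comm]
  refine Finset.sum_congr rfl fun k _ => Finset.sum_congr rfl fun l _ => ?_
  by_cases h : l = k
  · simp [h]
  · rw [if_pos h, if_pos (Ne.symm h), innerR_appl2_swap T φ (Ne.symm h)]

/-- A one-body form on the first electron is the one-body energy, `M - 1` times. -/
lemma E2_act3 (K : Matrix (Two A B) (Two A B) ℝ) (φ : Reduced A B M) :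
    E2 (act3 K) φ = ((M : ℝ) - 1) * E1 K φ := by
  rw [E2_eq, E1_eq, Finset.mul_sum]
  refine Finset.sum_congr rfl fun k _ => ?_
  rw [Finset.sum_congr rfl fun l hl => by
    rw [← appl_eq_act3 K φ (Ne.symm (Finset.mem_filter.mp hl).2)]]
  rw [Finset.sum_const, nsmul_eq_mul, Finset.filter_ne', Finset.card_erase_of_mem
    (Finset.mem_univ k), Finset.card_univ, Fintype.card_fin, Nat.cast_sub k.pos, Nat.cast_one]

/-- The same on the second electron. -/
lemma E2_act4 (K : Matrix (Two A B) (Two A B) ℝ) (φ : Reduced A B M) :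
    E2 (act4 K) φ = ((M : ℝ) - 1) * E1 K φ := by
  rw [act4_eq, E2_swapEl, E2_act3]

/-- The form of a second-electron operator is the sum over slices of the first electron. -/
lemma quad_act4 (K : Matrix (Two A B) (Two A B) ℝ) (F : Three A B → ℝ) :
    quad (act4 K) F = ∑ b : Fin (B + 1), quad K (fun p => F (p.1, b, p.2)) := by
  simp only [quad, dotProduct, mulVec, act4, Fintype.sum_prod_type, ite_mul, zero_mul]
  conv_rhs => rw [Finset.sum_comm]
  simp

/-- The form of a first-electron operator is the sum over slices of the second electron. -/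
lemma quad_act3 (K : Matrix (Two A B) (Two A B) ℝ) (F : Three A B → ℝ) :
    quad (act3 K) F = ∑ e : Fin (B + 1), quad K (fun p => F (p.1, p.2, e)) := by
  simp only [quad, dotProduct, mulVec, act3, Fintype.sum_prod_type, ite_mul, zero_mul,
    Finset.sum_ite_eq, Finset.mem_univ, if_true]
  conv_rhs => rw [Finset.sum_comm]; arg 2; ext a; rw [Finset.sum_comm]

/-- Squared norm through the slices of the first electron. -/
lemma nsq_slices4 (F : Three A B → ℝ) :
    nsq F = ∑ b : Fin (B + 1), nsq (fun p : Two A B => F (p.1, b, p.2)) := by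
  simp only [nsq, dotProduct, Fintype.sum_prod_type]
  conv_rhs => rw [Finset.sum_comm]

/-- The Pauli bound for the tail with the electrons exchanged. -/
theorem pauli_tail' (G : Matrix (Two A' B) (Two A B) ℝ) {Y : Matrix (Two A' B) (Two A' B) ℝ}
    {c : ℝ} (hY : PauliBound Y c) {φ : Reduced A B M} (hφ : IsAntiR φ) :
    E2 ((act4 G)ᵀ * act3 Y * act4 G) φ ≤ c * E1 (Gᵀ * G) φ := by
  have e : (act4 G)ᵀ * act3 Y * act4 G =
      ((act3 G)ᵀ * act4 Y * act3 G).submatrix (swapEl A B) (swapEl A B) := by
    rw [← submatrix_mul_equiv _ _ (swapEl A B) (swapEl A' B) (swapEl A B),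
      ← submatrix_mul_equiv _ _ (swapEl A B) (swapEl A' B) (swapEl A' B), ← transpose_submatrix,
      ← act4_eq, act4_eq Y, submatrix_submatrix]
    congr 2
  rw [e, E2_swapEl]
  exact pauli_tail G hY hφ

end P359
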