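import Vale.Agent.P359.Overlap

/-!
P359: planar limits of the finite formulas (`A/Q → α`, `B/Q → 1`).
-/

namespace P359

open Filter Topology Finset
open scoped BigOperators

theorem tendsto_choose_div_pow {f : ℕ → ℕ} {α : ℝ}
    (hf : Tendsto (fun Q => (f Q : ℝ) / Q) atTop (𝓝 α)) (k : ℕ) :
    Tendsto (fun Q => ((f Q).choose k : ℝ) / (Q : ℝ) ^ k) atTop (𝓝 (α ^ k / k.factorial)) := by
  induction k with
  | zero => simp
  | succ k ih =>
    have hk : Tendsto (fun Q : ℕ => (k : ℝ) / Q) atTop (𝓝 0) :=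
      tendsto_const_div_atTop_nhds_zero_nat _
    have h := (ih.mul (hf.sub hk)).div_const ((k : ℝ) + 1)
    rw [sub_zero] at h
    have e : α ^ k / k.factorial * α / ((k : ℝ) + 1) = α ^ (k + 1) / (k + 1).factorial := by
      rw [Nat.factorial_succ, pow_succ]
      push_cast
      field_simp
    rw [e] at h
    refine h.congr fun Q => ?_
    have h1 : ((k : ℝ) + 1) * (f Q).choose (k + 1) = ((f Q : ℝ) - k) * (f Q).choose k := by
      rcases le_or_gt k (f Q) with hle | hgt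
      · have := congrArg (Nat.cast : ℕ → ℝ) (Nat.choose_succ_right_eq (f Q) k)
        push_cast [Nat.cast_sub hle] at this
        linarith
      · simp [Nat.choose_eq_zero_of_lt hgt, Nat.choose_eq_zero_of_lt (Nat.lt_succ_of_lt hgt)]
    rw [show ((f Q).choose (k + 1) : ℝ) = ((f Q : ℝ) - k) * (f Q).choose k / ((k : ℝ) + 1) by
      rw [eq_div_iff (by positivity)]; linarith]
    rw [pow_succ]
    rcases Nat.eq_zero_or_pos Q with rfl | hQ
    · simp
    · field_simp

theorem tendsto_sub_const_div {f : ℕ → ℕ} {α : ℝ} (c : ℕ)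
    (hf : Tendsto (fun Q => (f Q : ℝ) / Q) atTop (𝓝 α)) :
    Tendsto (fun Q => ((f Q - c : ℕ) : ℝ) / Q) atTop (𝓝 α) := by
  have h1 : Tendsto (fun Q : ℕ => (c : ℝ) / Q) atTop (𝓝 0) :=
    tendsto_const_div_atTop_nhds_zero_nat _
  have h2 := hf.sub h1
  rw [sub_zero] at h2
  refine tendsto_of_tendsto_of_tendsto_of_le_of_le h2 hf (fun Q => ?_) fun Q => ?_
  · simp only
    rw [div_sub_div_same]
    gcongr
    have : (f Q : ℝ) ≤ ((f Q - c : ℕ) : ℝ) + c := by exact_mod_cast le_tsub_add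
    linarith
  · simp only
    gcongr
    omega

theorem tendsto_add_div {f g : ℕ → ℕ} {α β : ℝ}
    (hf : Tendsto (fun Q => (f Q : ℝ) / Q) atTop (𝓝 α))
    (hg : Tendsto (fun Q => (g Q : ℝ) / Q) atTop (𝓝 β)) :
    Tendsto (fun Q => ((f Q + g Q : ℕ) : ℝ) / Q) atTop (𝓝 (α + β)) := by
  refine (hf.add hg).congr fun Q => ?_
  push_cast
  ring

/-- Planar channel coefficient. -/
def pChan (n a b m : ℕ) : ℚ :=
  ∑ i ∈ range (n + 1),
    if i ≤ a ∧ n - i ≤ b ∧ a + b = m + n then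
      (-1) ^ (n - i) * n.choose i * (m.choose (a - i)) * (2 / 3) ^ (a - i) * (1 / 3) ^ (b - (n - i))
    else 0

/-- Planar value of `Q^n ‖(Z-z)^n‖²` for impurity weight `α`. -/
def pNorm (α : ℚ) (n : ℕ) : ℚ := n.factorial * (1 / α + 1) ^ n

/-- Planar value of `Q^q · ovSum`. -/
def pOv (n q L : ℕ) : ℚ :=
  ∑ a ∈ range (q + 1),
    (q.choose a : ℚ) * (L - n).choose (a + (L - q) - n) * pChan n a (L - q) (a + (L - q) - n)
      * (a.factorial * (q - a).factorial) / 2 ^ a

theorem tendsto_chanCoef {A B : ℕ → ℕ} (hA : Tendsto (fun Q => (A Q : ℝ) / Q) atTop (𝓝 2))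
    (hB : Tendsto (fun Q => (B Q : ℝ) / Q) atTop (𝓝 1)) (n a b m : ℕ) :
    Tendsto (fun Q => chanCoef (A Q) (B Q) n a b m) atTop (𝓝 (pChan n a b m : ℝ)) := by
  unfold chanCoef pChan
  simp only [Rat.cast_sum, apply_ite (Rat.cast : ℚ → ℝ), Rat.cast_zero, Rat.cast_mul, Rat.cast_pow,
    Rat.cast_div, Rat.cast_natCast, Rat.cast_neg, Rat.cast_one, Rat.cast_ofNat]
  refine tendsto_finsetSum _ fun i hi => ?_
  rw [mem_range] at hi
  by_cases hc : i ≤ a ∧ n - i ≤ b ∧ a + b = m + n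
  · simp only [if_pos hc]
    obtain ⟨h1, h2, h3⟩ := hc
    have hx := tendsto_choose_div_pow (tendsto_sub_const_div n hA) (a - i)
    have hy := tendsto_choose_div_pow (tendsto_sub_const_div n hB) (b - (n - i))
    have hz := tendsto_choose_div_pow (tendsto_sub_const_div (2 * n) (tendsto_add_div hA hB)) m
    have h := ((hx.mul hy).div hz (by positivity)).const_mul
      ((-1 : ℝ) ^ (n - i) * n.choose i)
    have hm : m = (a - i) + (b - (n - i)) := by omega
    have e : (-1 : ℝ) ^ (n - i) * n.choose i * ((2 : ℝ) ^ (a - i) / (a - i).factorial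
          * ((1 : ℝ) ^ (b - (n - i)) / (b - (n - i)).factorial) / ((2 + 1 : ℝ) ^ m / m.factorial))
        = (-1) ^ (n - i) * n.choose i * (m.choose (a - i)) * (2 / 3) ^ (a - i)
          * (1 / 3) ^ (b - (n - i)) := by
      have hf : (m.choose (a - i) : ℝ) * (a - i).factorial * (b - (n - i)).factorial
          = m.factorial := by
        have := Nat.choose_mul_factorial_mul_factorial (show a - i ≤ m by omega)
        rw [show m - (a - i) = b - (n - i) by omega] at this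
        exact_mod_cast this
      rw [← hf, show (2 + 1 : ℝ) = 3 by norm_num]
      rw [show (3 : ℝ) ^ m = 3 ^ (a - i) * 3 ^ (b - (n - i)) by rw [← pow_add, ← hm], div_pow,
        div_pow, one_pow]
      field_simp
    rw [e] at h
    refine Tendsto.congr' ?_ h
    filter_upwards [eventually_gt_atTop 0] with Q hQ
    have hQ' : (Q : ℝ) ≠ 0 := by exact_mod_cast hQ.ne'
    have hpow : (Q : ℝ) ^ m = (Q : ℝ) ^ (a - i) * (Q : ℝ) ^ (b - (n - i)) := by
      rw [← pow_add, ← hm]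
    simp only [Pi.div_apply]
    rw [hpow]
    by_cases hd : ((A Q + B Q - 2 * n).choose m : ℝ) = 0
    · simp [hd]
    · field_simp
  · simp only [if_neg hc]
    exact tendsto_const_nhds

theorem tendsto_ovSum {A B : ℕ → ℕ} (hA : Tendsto (fun Q => (A Q : ℝ) / Q) atTop (𝓝 2))
    (hB : Tendsto (fun Q => (B Q : ℝ) / Q) atTop (𝓝 1)) (n q L : ℕ) :
    Tendsto (fun Q : ℕ => (Q : ℝ) ^ q * ovSum (A Q) (B Q) n q L) atTop (𝓝 (pOv n q L : ℝ)) := by
  unfold ovSum pOv
  simp only [Rat.cast_sum, Rat.cast_mul, Rat.cast_pow, Rat.cast_div, Rat.cast_natCast,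
    Rat.cast_ofNat, mul_sum]
  refine tendsto_finsetSum _ fun a ha => ?_
  rw [mem_range] at ha
  have hx := tendsto_choose_div_pow hA a
  have hy := tendsto_choose_div_pow hB (q - a)
  have h := (((tendsto_chanCoef hA hB n a (L - q) (a + (L - q) - n)).const_mul
    ((q.choose a : ℝ) * (L - n).choose (a + (L - q) - n))).div (hx.mul hy) (by positivity))
  rw [show ((q.choose a : ℝ) * (L - n).choose (a + (L - q) - n)
          * (pChan n a (L - q) (a + (L - q) - n) : ℝ))
        / ((2 : ℝ) ^ a / a.factorial * ((1 : ℝ) ^ (q - a) / (q - a).factorial))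
      = (q.choose a : ℝ) * (L - n).choose (a + (L - q) - n)
          * (pChan n a (L - q) (a + (L - q) - n) : ℝ)
          * (a.factorial * (q - a).factorial) / 2 ^ a by rw [one_pow]; field_simp] at h
  refine Tendsto.congr' ?_ h
  filter_upwards [eventually_gt_atTop 0] with Q hQ
  have hQ' : (Q : ℝ) ≠ 0 := by exact_mod_cast hQ.ne'
  have hpow : (Q : ℝ) ^ q = (Q : ℝ) ^ a * (Q : ℝ) ^ (q - a) := by
    rw [← pow_add, Nat.add_sub_cancel' (by omega)]
  simp only [Pi.div_apply]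
  rw [hpow]
  by_cases hd : ((A Q).choose a : ℝ) * (B Q).choose (q - a) = 0
  · rw [hd, div_zero, mul_zero, div_mul_div_comm, hd, zero_div, div_zero]
  · obtain ⟨h1, h2⟩ := mul_ne_zero_iff.1 hd
    field_simp

theorem tendsto_nsq_hwVec {A B : ℕ → ℕ} {α : ℚ} (hα : 0 < α)
    (hA : Tendsto (fun Q => (A Q : ℝ) / Q) atTop (𝓝 (α : ℝ)))
    (hB : Tendsto (fun Q => (B Q : ℝ) / Q) atTop (𝓝 1)) (n : ℕ) :
    Tendsto (fun Q : ℕ => (Q : ℝ) ^ n * nsq (hwVec (A Q) (B Q) n)) atTop (𝓝 (pNorm α n : ℝ)) := by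
  have hαR : (0 : ℝ) < α := by exact_mod_cast hα
  have hz : Tendsto (fun Q => ((A Q + B Q - n + 1 : ℕ) : ℝ) / Q) atTop (𝓝 ((α : ℝ) + 1)) := by
    have h1 := tendsto_sub_const_div n (tendsto_add_div hA hB)
    have h2 : Tendsto (fun Q : ℕ => (1 : ℝ) / Q) atTop (𝓝 0) :=
      tendsto_const_div_atTop_nhds_zero_nat _
    have h3 := h1.add h2
    rw [add_zero] at h3
    refine h3.congr fun Q => ?_
    push_cast
    ring
  have hx := tendsto_choose_div_pow hA n
  have hy := tendsto_choose_div_pow hB n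
  have hz' := tendsto_choose_div_pow hz n
  have h := hz'.div (hx.mul hy) (by positivity)
  have e : ((α : ℝ) + 1) ^ n / n.factorial
        / ((α : ℝ) ^ n / n.factorial * ((1 : ℝ) ^ n / n.factorial))
      = (pNorm α n : ℝ) := by
    unfold pNorm
    push_cast
    rw [show (1 / (α : ℝ) + 1) = ((α : ℝ) + 1) / α by field_simp; ring, one_pow, div_pow]
    field_simp
  rw [e] at h
  refine h.congr' ?_
  have hev : ∀ {f : ℕ → ℕ} {c : ℝ}, 0 < c → Tendsto (fun Q => (f Q : ℝ) / Q) atTop (𝓝 c) →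
      ∀ᶠ Q in atTop, n ≤ f Q := by
    intro f c hc hf
    filter_upwards [hf.eventually (lt_mem_nhds (half_lt_self hc)),
      eventually_ge_atTop (⌈2 * (n : ℝ) / c⌉₊ + 1)] with Q hQ hQn
    have hQ0 : (0 : ℝ) < Q := by exact_mod_cast (show 0 < Q by omega)
    have h1 : 2 * (n : ℝ) / c ≤ Q := (Nat.le_ceil _).trans (Nat.cast_le.2 (by omega))
    rw [lt_div_iff₀ hQ0] at hQ
    rw [div_le_iff₀ hc] at h1
    have : (n : ℝ) ≤ f Q := by nlinarith
    exact_mod_cast this
  filter_upwards [hev hαR hA, hev one_pos hB, eventually_gt_atTop 0] with Q h1 h2 hQ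
  have hQ' : (Q : ℝ) ≠ 0 := by exact_mod_cast hQ.ne'
  rw [nsq_hwVec h1 h2]
  simp only [Pi.div_apply]
  field_simp

end P359
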