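import Vale.Agent.P359.Sector
import Vale.Agent.P359.Planar

/-!
P359: a sector block as a matrix in the antisymmetric boundary coordinates, and its planar limit.

Coordinates of an antisymmetric highest weight vector of weight `L`: `y k = boundary F L k`,
`k < (L+1)/2`.  All matrices below are rational combinations of inverse binomial coefficients; after
scaling by `Q^L` (`Q^n` for the channel row `n`) they tend to explicit rational matrices.
-/

namespace P359

open Matrix Finset Filter Topology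
open scoped BigOperators

/-- Number of free boundary values in sector `L`. -/
abbrev nb (L : ℕ) : ℕ := (L + 1) / 2

/-- The `k`-th antisymmetric boundary vector. -/
def antiBasis (L k j : ℕ) : ℚ := if j = k then 1 else if j + k = L then -1 else 0

/-- Rational coefficient of the `k`-th coordinate in the coefficient `(a,b,e)`. -/
def sectorRow (L a b e k : ℕ) : ℚ := sectorCoef L (antiBasis L k) a b e

theorem anti_expand {L : ℕ} {x : ℕ → ℝ} (hx : ∀ j ≤ L, x (L - j) = -x j) {j : ℕ} (hj : j ≤ L) :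
    x j = ∑ k ∈ range (nb L), (antiBasis L k j : ℝ) * x k := by
  rcases lt_trichotomy (2 * j) L with h | h | h
  · rw [sum_eq_single j]
    · simp [antiBasis]
    · intro k hk hne
      simp only [mem_range, nb] at hk
      simp [antiBasis, Ne.symm hne, show ¬ j + k = L by omega]
    · intro hn
      simp only [mem_range, nb] at hn
      omega
  · have h0 : x j = 0 := by
      have := hx j hj
      rw [show L - j = j by omega] at this
      linarith
    rw [h0, sum_eq_zero]
    intro k hk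
    simp only [mem_range, nb] at hk
    simp [antiBasis, show ¬ j = k by omega, show ¬ j + k = L by omega]
  · rw [sum_eq_single (L - j)]
    · have := hx j hj
      simp [antiBasis, show ¬ j = L - j by omega, show j + (L - j) = L by omega, this]
    · intro k hk hne
      simp only [mem_range, nb] at hk
      simp [antiBasis, show ¬ j = k by omega, show ¬ j + k = L by omega]
    · intro hn
      simp only [mem_range, nb] at hn
      omega

theorem sectorCoef_expand {L : ℕ} {x : ℕ → ℝ} (hx : ∀ j ≤ L, x (L - j) = -x j) (a b e : ℕ) :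
    sectorCoef L x a b e = ∑ k ∈ range (nb L), (sectorRow L a b e k : ℝ) * x k := by
  unfold sectorRow sectorCoef
  split_ifs with h
  · simp only [Rat.cast_mul, Rat.cast_pow, Rat.cast_neg, Rat.cast_one, Rat.cast_sum,
      Rat.cast_natCast, mul_sum, sum_mul]
    rw [sum_comm]
    refine sum_congr rfl fun i hi => ?_
    rw [mem_range] at hi
    rw [anti_expand hx (show b + i ≤ L by omega)]
    simp only [mul_sum]
    refine sum_congr rfl fun k _ => ?_
    ring
  · simp

/-- The matrix of `‖F‖²`. -/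
noncomputable def nsqMat (A B L : ℕ) : Matrix (Fin (nb L)) (Fin (nb L)) ℝ := fun i j =>
  ∑ a ∈ range (L + 1), ∑ b ∈ range (L + 1 - a),
    (sectorRow L a b (L - a - b) i : ℝ) * (sectorRow L a b (L - a - b) j : ℝ)
      / ((A.choose a : ℝ) * B.choose b * B.choose (L - a - b))

/-- Its planar limit. -/
def pNsqMat (L : ℕ) (i j : ℕ) : ℚ :=
  ∑ a ∈ range (L + 1), ∑ b ∈ range (L + 1 - a),
    sectorRow L a b (L - a - b) i * sectorRow L a b (L - a - b) j
      * ((a.factorial * b.factorial * (L - a - b).factorial : ℕ) : ℚ) / 2 ^ a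

/-- The row of the `el-el` channel one component at impurity level `a`. -/
def restRow (L a k : ℕ) : ℚ :=
  ∑ b ∈ range (L + 1 - a), ((b : ℚ) - (L - a - b : ℕ)) * sectorRow L a b (L - a - b) k

/-- The matrix of `restK`. -/
noncomputable def restMat (A Q L : ℕ) : Matrix (Fin (nb L)) (Fin (nb L)) ℝ := fun i j =>
  ∑ a ∈ range L, (restRow L a i : ℝ) * (restRow L a j : ℝ)
    / ((A.choose a : ℝ) * (2 * Q) * (2 * Q - 2).choose (L - a - 1))

/-- Its planar limit. -/
def pRestMat (L : ℕ) (i j : ℕ) : ℚ :=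
  ∑ a ∈ range L, restRow L a i * restRow L a j
    * ((a.factorial * (L - a - 1).factorial : ℕ) : ℚ) / (2 ^ a * 2 * 2 ^ (L - a - 1))

/-- Row of the channel `n` coordinate. -/
noncomputable def chanRow (A B L n : ℕ) : Fin (nb L) → ℝ := fun k =>
  (-1) ^ (L - n) * ∑ a ∈ range (n + 1), (-1) ^ (n - a) * (n.choose a : ℝ)
    * (sectorRow L a (n - a) (L - n) k : ℝ) / ((A.choose a : ℝ) * B.choose (n - a))

/-- Its planar limit. -/
def pChanRow (L n k : ℕ) : ℚ :=
  (-1) ^ (L - n) * ∑ a ∈ range (n + 1), (-1) ^ (n - a) * (n.choose a : ℚ)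
    * sectorRow L a (n - a) (L - n) k * ((a.factorial * (n - a).factorial : ℕ) : ℚ) / 2 ^ a

section Forms

variable {A B L : ℕ} {F : Three A B → ℝ}

/-- The coordinates of `F`. -/
noncomputable def coords (F : Three A B → ℝ) (L : ℕ) : Fin (nb L) → ℝ := fun k => boundary F L k

theorem sector_row_eq (hanti : ∀ a b e, F (a, b, e) = -F (a, e, b)) (a b e : ℕ) :
    sectorCoef L (boundary F L) a b e
      = ∑ k : Fin (nb L), (sectorRow L a b e k : ℝ) * coords F L k := by
  rw [sectorCoef_expand (fun j hj => boundary_anti hanti hj),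
    ← Fin.sum_univ_eq_sum_range (fun k => (sectorRow L a b e k : ℝ) * boundary F L k) (nb L)]
  rfl

theorem sum_sq_div {ι κ : Type*} [Fintype κ] (s : Finset ι) (r : ι → κ → ℝ) (d : ι → ℝ)
    (y : κ → ℝ) :
    ∑ p ∈ s, (∑ k, r p k * y k) ^ 2 / d p
      = quad (fun i j => ∑ p ∈ s, r p i * r p j / d p) y := by
  simp only [quad, dotProduct, mulVec, mul_sum, sum_mul, sq, sum_div]
  conv_rhs =>
    rw [sum_congr rfl fun i _ => sum_comm, sum_comm]
  refine sum_congr rfl fun p _ => ?_
  rw [sum_comm]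
  refine sum_congr rfl fun i _ => sum_congr rfl fun j _ => ?_
  ring

theorem nsq_eq_mat (hA : L ≤ A) (hB : L ≤ B) (hF : Supp wt3 L F)
    (hJ : raise3 A B *ᵥ F = 0) (hanti : ∀ a b e, F (a, b, e) = -F (a, e, b)) :
    nsq F = quad (nsqMat A B L) (coords F L) := by
  rw [nsq_sector hA hB hF hJ]
  simp only [sector_row_eq hanti]
  rw [sum_sigma', sum_sq_div]
  congr 1
  funext i j
  rw [nsqMat, sum_sigma']

theorem restK_eq_mat {Q : ℕ} {F : Three A Q → ℝ} (hA : L ≤ A) (hQ : 1 ≤ Q) (hQL : L ≤ Q)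
    (hF : Supp wt3 L F) (hJ : raise3 A Q *ᵥ F = 0)
    (hanti : ∀ a b e, F (a, b, e) = -F (a, e, b)) :
    quad (restK A Q) F = quad (restMat A Q L) (coords F L) := by
  rw [quad_restK_sector hA hQ hQL hF hJ]
  have : ∀ a, (∑ b ∈ range (L + 1 - a), ((b : ℝ) - (L - a - b : ℕ))
      * sectorCoef L (boundary F L) a b (L - a - b))
      = ∑ k : Fin (nb L), (restRow L a k : ℝ) * coords F L k := by
    intro a
    simp only [sector_row_eq hanti, restRow, Rat.cast_sum, Rat.cast_mul, Rat.cast_sub,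
      Rat.cast_natCast, mul_sum, sum_mul]
    rw [sum_comm]
    refine sum_congr rfl fun k _ => sum_congr rfl fun b _ => ?_
    ring
  simp only [this, sum_sq_div]
  rfl

theorem chanCoord_eq_row (hanti : ∀ a b e, F (a, b, e) = -F (a, e, b)) (n : ℕ) :
    chanCoord A B L n (boundary F L) = chanRow A B L n ⬝ᵥ coords F L := by
  simp only [chanCoord, chanRow, dotProduct, sector_row_eq hanti, mul_sum, sum_mul, sum_div]
  rw [sum_comm]
  refine sum_congr rfl fun k _ => sum_congr rfl fun a _ => ?_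
  ring

/-- The component `<tri3,F>/nsq` as a dot product in the coordinates. -/
theorem chanAlpha_eq {D n : ℕ} (hD : D + 2 * n = A + B) (hA : n ≤ A) (hB : n ≤ B)
    (hn : n ≤ L) (hr : L - n ≤ B) (hF : Supp wt3 L F) (hJ : raise3 A B *ᵥ F = 0)
    (hanti : ∀ a b e, F (a, b, e) = -F (a, e, b)) :
    tri3 A B n (L - n) ⬝ᵥ F / nsq (hwVec D B (L - n)) = chanRow A B L n ⬝ᵥ coords F L := by
  rw [chan_coord_eq hD hA hB hn hr hF hJ, chanCoord_eq_row hanti]

end Forms

section Limits

variable {A : ℕ → ℕ}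

theorem tendsto_pow_div_choose {f : ℕ → ℕ} {α : ℝ} (hα : α ≠ 0)
    (hf : Tendsto (fun Q => (f Q : ℝ) / Q) atTop (𝓝 α)) (k : ℕ) :
    Tendsto (fun Q : ℕ => (Q : ℝ) ^ k / (f Q).choose k) atTop (𝓝 (k.factorial / α ^ k)) := by
  have h := (tendsto_choose_div_pow hf k).inv₀ (by positivity)
  rw [inv_div] at h
  refine h.congr fun Q => ?_
  rw [inv_div]

theorem tendsto_id_div : Tendsto (fun Q : ℕ => ((id Q : ℕ) : ℝ) / Q) atTop (𝓝 1) := by
  refine tendsto_const_nhds.congr' ?_
  filter_upwards [eventually_gt_atTop 0] with Q hQ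
  have : (Q : ℝ) ≠ 0 := by exact_mod_cast hQ.ne'
  simp [this]

theorem tendsto_nsqMat (hA : Tendsto (fun Q => (A Q : ℝ) / Q) atTop (𝓝 2)) (L : ℕ)
    (i j : Fin (nb L)) :
    Tendsto (fun Q : ℕ => (Q : ℝ) ^ L * nsqMat (A Q) Q L i j) atTop
      (𝓝 (pNsqMat L i j : ℝ)) := by
  unfold nsqMat pNsqMat
  simp only [Rat.cast_sum, Rat.cast_mul, Rat.cast_div, Rat.cast_pow, Rat.cast_natCast,
    Rat.cast_ofNat, mul_sum]
  refine tendsto_finsetSum _ fun a ha => tendsto_finsetSum _ fun b hb => ?_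
  rw [mem_range] at ha hb
  have h := ((((tendsto_pow_div_choose two_ne_zero hA a).mul
    (tendsto_pow_div_choose one_ne_zero tendsto_id_div b)).mul
    (tendsto_pow_div_choose one_ne_zero tendsto_id_div (L - a - b))).const_mul
    ((sectorRow L a b (L - a - b) i : ℝ) * (sectorRow L a b (L - a - b) j : ℝ)))
  rw [show (sectorRow L a b (L - a - b) i : ℝ) * (sectorRow L a b (L - a - b) j : ℝ)
        * ((a.factorial : ℝ) / 2 ^ a * ((b.factorial : ℝ) / 1 ^ b)
          * (((L - a - b).factorial : ℝ) / 1 ^ (L - a - b)))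
      = (sectorRow L a b (L - a - b) i : ℝ) * (sectorRow L a b (L - a - b) j : ℝ)
        * ((a.factorial * b.factorial * (L - a - b).factorial : ℕ) : ℝ) / 2 ^ a by
    push_cast; simp only [one_pow, div_one]; ring] at h
  refine h.congr fun Q => ?_
  rw [show (Q : ℝ) ^ L = (Q : ℝ) ^ a * (Q : ℝ) ^ b * (Q : ℝ) ^ (L - a - b) by
    rw [← pow_add, ← pow_add]; congr 1; omega]
  simp only [id_eq]
  ring

theorem tendsto_restMat (hA : Tendsto (fun Q => (A Q : ℝ) / Q) atTop (𝓝 2)) (L : ℕ)
    (i j : Fin (nb L)) :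
    Tendsto (fun Q : ℕ => (Q : ℝ) ^ L * restMat (A Q) Q L i j) atTop
      (𝓝 (pRestMat L i j : ℝ)) := by
  unfold restMat pRestMat
  simp only [Rat.cast_sum, Rat.cast_mul, Rat.cast_div, Rat.cast_pow, Rat.cast_natCast,
    Rat.cast_ofNat, mul_sum]
  refine tendsto_finsetSum _ fun a ha => ?_
  rw [mem_range] at ha
  have h2 : Tendsto (fun Q : ℕ => ((2 * Q - 2 : ℕ) : ℝ) / Q) atTop (𝓝 2) := by
    refine tendsto_sub_const_div 2 ?_
    have h3 := tendsto_add_div (f := id) (g := id) tendsto_id_div tendsto_id_div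
    rw [show (1 : ℝ) + 1 = 2 by norm_num] at h3
    refine h3.congr fun Q => ?_
    simp [two_mul]
  have h1 : Tendsto (fun Q : ℕ => (Q : ℝ) / (2 * Q)) atTop (𝓝 (1 / 2)) := by
    refine tendsto_const_nhds.congr' ?_
    filter_upwards [eventually_gt_atTop 0] with Q hQ
    have : (Q : ℝ) ≠ 0 := by exact_mod_cast hQ.ne'
    field_simp
  have h := ((((tendsto_pow_div_choose two_ne_zero hA a).mul h1).mul
    (tendsto_pow_div_choose two_ne_zero h2 (L - a - 1))).const_mul
    ((restRow L a i : ℝ) * (restRow L a j : ℝ)))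
  rw [show (restRow L a i : ℝ) * (restRow L a j : ℝ)
        * ((a.factorial : ℝ) / 2 ^ a * (1 / 2) * (((L - a - 1).factorial : ℝ) / 2 ^ (L - a - 1)))
      = (restRow L a i : ℝ) * (restRow L a j : ℝ)
        * ((a.factorial * (L - a - 1).factorial : ℕ) : ℝ) / (2 ^ a * 2 * 2 ^ (L - a - 1)) by
    push_cast; ring] at h
  refine h.congr fun Q => ?_
  rw [show (Q : ℝ) ^ L = (Q : ℝ) ^ a * (Q : ℝ) * (Q : ℝ) ^ (L - a - 1) by
    rw [← pow_succ, ← pow_add]; congr 1; omega]
  ring

theorem tendsto_chanRow (hA : Tendsto (fun Q => (A Q : ℝ) / Q) atTop (𝓝 2)) (L n : ℕ)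
    (k : Fin (nb L)) :
    Tendsto (fun Q : ℕ => (Q : ℝ) ^ n * chanRow (A Q) Q L n k) atTop
      (𝓝 (pChanRow L n k : ℝ)) := by
  unfold chanRow pChanRow
  simp only [Rat.cast_sum, Rat.cast_mul, Rat.cast_div, Rat.cast_pow, Rat.cast_natCast,
    Rat.cast_ofNat, Rat.cast_neg, Rat.cast_one, mul_sum]
  refine tendsto_finsetSum _ fun a ha => ?_
  rw [mem_range] at ha
  have h := (((tendsto_pow_div_choose two_ne_zero hA a).mul
    (tendsto_pow_div_choose one_ne_zero tendsto_id_div (n - a))).const_mul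
    ((-1 : ℝ) ^ (L - n) * ((-1) ^ (n - a) * (n.choose a : ℝ)
      * (sectorRow L a (n - a) (L - n) k : ℝ))))
  rw [show (-1 : ℝ) ^ (L - n) * ((-1) ^ (n - a) * (n.choose a : ℝ)
        * (sectorRow L a (n - a) (L - n) k : ℝ))
        * ((a.factorial : ℝ) / 2 ^ a * (((n - a).factorial : ℝ) / 1 ^ (n - a)))
      = (-1 : ℝ) ^ (L - n) * ((-1) ^ (n - a) * (n.choose a : ℝ)
        * (sectorRow L a (n - a) (L - n) k : ℝ)
        * ((a.factorial * (n - a).factorial : ℕ) : ℝ) / 2 ^ a) by
    push_cast; simp only [one_pow, div_one]; ring] at h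
  refine h.congr fun Q => ?_
  rw [show (Q : ℝ) ^ n = (Q : ℝ) ^ a * (Q : ℝ) ^ (n - a) by
    rw [← pow_add]; congr 1; omega]
  simp only [id_eq]
  ring

end Limits

end P359
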