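import Vale.Agent.P359.CertDefs
import Vale.Agent.P359.SectorLimit
import Vale.Agent.P359.PlanarTools
import Vale.Agent.P359.ReduceExtra

/-!
P359: a positive planar block gives the sector inequality for every large `Q`.
-/

namespace P359

open Matrix Finset Filter Topology
open scoped BigOperators

/-- The `el-el` channel one component of a sector vector. -/
noncomputable def relComp {A Q : ℕ} (F : Three A Q → ℝ) : Two A (2 * Q - 2) → ℝ := fun p =>
  ∑ q : Two Q Q, pairIso Q q p.2 * F (p.1, q)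

theorem quad_restK_eq_nsq {A Q : ℕ} (F : Three A Q → ℝ) :
    quad (restK A Q) F = nsq (relComp F) := by
  rw [restK_eq]
  simp only [quad, nsq, dotProduct, mulVec, kroneckerMap_apply, Matrix.one_apply, relComp,
    Fintype.sum_prod_type, Matrix.mul_apply, Matrix.transpose_apply, ite_mul, one_mul, zero_mul,
    mul_sum, sum_mul]
  refine sum_congr rfl fun a _ => ?_
  rw [sum_congr rfl fun b _ => sum_congr rfl fun e _ => sum_eq_single a
    (fun a' _ ha => sum_eq_zero fun b' _ => sum_eq_zero fun e' _ => by simp [Ne.symm ha])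
    (by simp)]
  simp only [if_true]
  rw [sum_congr rfl fun b _ => sum_congr rfl fun e _ => sum_congr rfl fun b' _ => sum_comm,
    sum_congr rfl fun b _ => sum_congr rfl fun e _ => sum_comm,
    sum_congr rfl fun b _ => sum_comm, sum_comm]
  refine sum_congr rfl fun m _ => sum_congr rfl fun b _ => sum_congr rfl fun e _ =>
    sum_congr rfl fun b' _ => sum_congr rfl fun e' _ => ?_
  ring

theorem relComp_hw {A Q L : ℕ} (hQ : 1 ≤ Q) (hL : 1 ≤ L) {F : Three A Q → ℝ}
    (hF : Supp wt3 L F) (hJ : raise3 A Q *ᵥ F = 0) :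
    Supp wt2 (L - 1) (relComp F) ∧ raise2 A (2 * Q - 2) *ᵥ relComp F = 0 := by
  have h := ((pairIso_intertwines hQ).transpose.kronLeft
    (w'' := fun a : Fin (A + 1) => (a : ℕ)) (J'' := raise A))
  rw [← raise2_eq_jsum, ← raise3_eq_right] at h
  have hw : (wt3 : Three A Q → ℕ) = fun p => (p.1 : ℕ) + wt2 p.2 := by
    funext p
    simp only [wt3, wt2, add_assoc]
  rw [hw] at hF
  have e : relComp F = (kroneckerMap (fun x1 x2 => x1 * x2)
      (1 : Matrix (Fin (A + 1)) (Fin (A + 1)) ℝ) (pairIso Q)ᵀ) *ᵥ F := by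
    funext p
    simp only [relComp, mulVec, dotProduct, kroneckerMap_apply, Matrix.one_apply,
      Matrix.transpose_apply, ite_mul, one_mul, zero_mul]
    symm
    rw [Fintype.sum_prod_type, sum_eq_single p.1 (fun a' _ ha => by simp [Ne.symm ha]) (by simp)]
    simp only [if_true]
  rw [e]
  exact ⟨h.supp (m := L) (by omega) hF, h.mulVec_ker hJ⟩

theorem sum_anti_linear (L : ℕ) (x : ℕ → ℝ) (hx : ∀ j ≤ L, x (L - j) = -x j) :
    ∑ b ∈ range (L + 1), ((b : ℝ) - (L - b : ℕ)) * x b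
      = 2 * ∑ k ∈ range (nb L), (2 * (k : ℝ) - L) * x k := by
  have h : ∀ b ∈ range (L + 1), ((b : ℝ) - (L - b : ℕ)) * x b
      = ∑ k ∈ range (nb L), ((2 * (b : ℝ) - L) * (antiBasis L k b : ℝ)) * x k := by
    intro b hb
    rw [mem_range] at hb
    conv_lhs => rw [anti_expand hx (show b ≤ L by omega)]
    rw [Nat.cast_sub (show b ≤ L by omega), mul_sum]
    refine sum_congr rfl fun k _ => ?_
    ring
  rw [sum_congr rfl h, sum_comm, mul_sum]
  refine sum_congr rfl fun k hk => ?_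
  simp only [mem_range, nb] at hk
  rw [sum_eq_add_of_mem k (L - k) (by simp; omega) (by simp) (by omega)]
  · simp only [antiBasis]
    rw [if_pos trivial, if_neg (by omega), if_pos (by omega), Nat.cast_sub (show k ≤ L by omega)]
    push_cast
    ring
  · intro b hb hne
    rw [mem_range] at hb
    simp only [antiBasis]
    rw [if_neg hne.1, if_neg (by omega)]
    simp

/-- Exact rank one form of the `restK` energy. -/
theorem quad_restK_rank_one {A Q L : ℕ} (hQ : 1 ≤ Q) (hL : 1 ≤ L) (hLQ : L ≤ Q)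
    {F : Three A Q → ℝ} (hF : Supp wt3 L F) (hJ : raise3 A Q *ᵥ F = 0)
    (hanti : ∀ a b e, F (a, b, e) = -F (a, e, b)) :
    (1 / 2) * quad (restK A Q) F = nsq (hwVec A (2 * Q - 2) (L - 1)) / Q
      * (∑ k : Fin (nb L), (2 * (k : ℝ) - L) * coords F L k) ^ 2 := by
  obtain ⟨hs, hj⟩ := relComp_hw hQ hL hF hJ
  have hr : L - 1 ≤ 2 * Q - 2 := by omega
  set c := hwScalar A (2 * Q - 2) (L - 1) (relComp F) with hc
  have hu := hw_unique hs hj
  rw [← hc] at hu
  have hn : nsq (relComp F) = c ^ 2 * nsq (hwVec A (2 * Q - 2) (L - 1)) := by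
    rw [hu, nsq, nsq, smul_dotProduct, dotProduct_smul, smul_eq_mul, smul_eq_mul]
    ring
  set T := ∑ k : Fin (nb L), (2 * (k : ℝ) - L) * coords F L k with hT
  have hsum : ∑ b ∈ range (L + 1), ((b : ℝ) - (L - b : ℕ)) * boundary F L b = 2 * T := by
    rw [sum_anti_linear L _ (fun j hj => boundary_anti hanti hj), hT,
      ← Fin.sum_univ_eq_sum_range (fun k => (2 * (k : ℝ) - L) * boundary F L k) (nb L)]
    rfl
  have hC : (0 : ℝ) < (2 * Q - 2).choose (L - 1) := by exact_mod_cast Nat.choose_pos hr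
  have hQ0 : (0 : ℝ) < Q := by exact_mod_cast hQ
  have hval : relComp F (0, ⟨L - 1, by omega⟩)
      = (2 * T) / Real.sqrt ((2 * Q : ℝ) * (2 * Q - 2).choose (L - 1)) := by
    have hq : ∀ q : Two Q Q, pairIso Q q ⟨L - 1, by omega⟩ * F (0, q)
        = if (q.1 : ℕ) + q.2 = L then ((q.1 : ℝ) - (q.2 : ℕ)) * boundary F L q.1
            / Real.sqrt ((2 * Q : ℝ) * (2 * Q - 2).choose (L - 1)) else 0 := by
      rintro ⟨b, e⟩
      simp only [pairIso, show L - 1 + 1 = L by omega]
      split_ifs with hbe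
      · have hb := sqrt_choose_pos (show (b : ℕ) ≤ Q by omega)
        have he := sqrt_choose_pos (show (e : ℕ) ≤ Q by omega)
        rw [apply_eq_coef3 F 0 b e, boundary, g1, show L - (b : ℕ) = e by omega]
        simp only [Fin.val_zero, Nat.choose_zero_right, Nat.cast_one, one_mul]
        field_simp
      · rw [zero_mul]
    unfold relComp
    simp only
    rw [sum_congr rfl fun q _ => hq q,
      sum_two_line (n := L) hLQ hLQ (fun b e => ((b : ℝ) - (e : ℕ)) * boundary F L b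
        / Real.sqrt ((2 * Q : ℝ) * (2 * Q - 2).choose (L - 1))), ← sum_div, hsum]
  have hc2 : c ^ 2 = 4 * T ^ 2 / (2 * Q) := by
    rw [hc, hwScalar, dif_pos hr, hval, Real.sqrt_mul (by positivity : (0 : ℝ) ≤ 2 * Q)]
    rw [mul_pow, mul_pow, div_pow, mul_pow, Real.sq_sqrt hC.le, mul_pow,
      Real.sq_sqrt (by positivity : (0 : ℝ) ≤ 2 * Q), Real.sq_sqrt hC.le, ← pow_mul,
      pow_mul', neg_one_sq, one_pow]
    field_simp
    ring
  rw [quad_restK_eq_nsq, hn, hc2]
  field_simp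
  ring

/-- `‖F‖²` dominates its part with the impurity in the top state. -/
theorem nsq_lower {A Q L : ℕ} (hA : L ≤ A) (hQ : L ≤ Q) {F : Three A Q → ℝ}
    (hF : Supp wt3 L F) (hJ : raise3 A Q *ᵥ F = 0)
    (hanti : ∀ a b e, F (a, b, e) = -F (a, e, b)) :
    ∑ k : Fin (nb L), 2 * coords F L k ^ 2 / ((Q.choose (k : ℕ) : ℝ) * Q.choose (L - k))
      ≤ nsq F := by
  rw [nsq_sector hA hQ hF hJ]
  refine le_trans ?_ (single_le_sum (fun a _ => sum_nonneg fun b _ => by positivity)
    (mem_range.2 (show 0 < L + 1 by omega)))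
  have hz : ∀ b ∈ range (L + 1), sectorCoef L (boundary F L) 0 b (L - 0 - b) = boundary F L b := by
    intro b hb
    rw [mem_range] at hb
    simp [sectorCoef, show b + (L - b) = L by omega]
  simp only [Nat.sub_zero, Nat.choose_zero_right, Nat.cast_one, one_mul] at hz ⊢
  have hz' : ∑ b ∈ range (L + 1), sectorCoef L (boundary F L) 0 b (L - b) ^ 2
      / ((Q.choose b : ℝ) * Q.choose (L - b))
      = ∑ b ∈ range (L + 1), boundary F L b ^ 2 / ((Q.choose b : ℝ) * Q.choose (L - b)) :=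
    sum_congr rfl fun b hb => by rw [hz b hb]
  rw [hz']
  simp only [coords]
  rw [Fin.sum_univ_eq_sum_range (fun k => 2 * boundary F L k ^ 2
      / ((Q.choose k : ℝ) * Q.choose (L - k))) (nb L)]
  -- the two halves of the boundary
  have hsub : ∀ k ∈ range (nb L), k ≤ L ∧ k ≠ L - k := by
    intro k hk
    simp only [mem_range, nb] at hk
    omega
  have hdisj : Disjoint (range (nb L)) ((range (nb L)).image (L - ·)) := by
    rw [disjoint_left]
    intro k hk hk'
    simp only [mem_image, mem_range, nb] at hk hk'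
    omega
  have hsubset : range (nb L) ∪ (range (nb L)).image (L - ·) ⊆ range (L + 1) := by
    intro k hk
    simp only [mem_union, mem_image, mem_range, nb] at hk ⊢
    omega
  refine le_trans (le_of_eq ?_) (sum_le_sum_of_subset_of_nonneg hsubset
    (fun b _ _ => by positivity))
  rw [sum_union hdisj, sum_image (fun i hi j hj h => by
    simp only [coe_range, Set.mem_Iio, nb] at hi hj
    omega), ← sum_add_distrib]
  refine sum_congr rfl fun k hk => ?_
  obtain ⟨hk1, -⟩ := hsub k hk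
  rw [boundary_anti hanti hk1, show L - (L - k) = k by omega, neg_sq]
  ring

/-- Energy of a channel projection. -/
theorem quad_act3_chan {A B D n L : ℕ} (hD : D + 2 * n = A + B) (hA : n ≤ A) (hB : n ≤ B)
    {F : Three A B → ℝ} (hF : Supp wt3 L F) (hJ : raise3 A B *ᵥ F = 0)
    (hanti : ∀ a b e, F (a, b, e) = -F (a, e, b)) (hLB : L ≤ B) :
    quad (act3 (chan A B D n * (chan A B D n)ᵀ)) F =
      if n ≤ L then (chanRow A B L n ⬝ᵥ coords F L) ^ 2 * nsq (hwVec D B (L - n)) else 0 := by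
  rw [act3_mul_transpose, quad, ← mulVec_mulVec, dotProduct_mulVec, ← mulVec_transpose,
    lift3_transpose_hw hD hA hB hF hJ]
  split_ifs with h
  · rw [chanAlpha_eq hD hA hB h (by omega) hF hJ hanti, smul_dotProduct, dotProduct_smul,
      smul_eq_mul, smul_eq_mul, nsq]
    ring
  · simp

namespace Cert

variable (C : Cert)

/-- Two-body kernel at flux `Q`, scaled by `Q^L`. -/
noncomputable def kerQ (Q L n m : ℕ) : ℝ :=
  ∑ s, (if n ∈ C.chans s ∧ m ∈ C.chans s then
      (C.g s n : ℝ) * C.g s m * ((Q : ℝ) ^ (C.img s n + (L - n))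
        * (tri3 (C.degA Q s) Q (C.img s n) (L - n) ⬝ᵥ tri4 (C.degA Q s) Q (C.img s m) (L - m)))
    else 0)
  + (if n = m ∧ n ∈ killedCh then
      (C.Λ : ℝ) * (((Q : ℝ) ^ (L - n) * nsq (hwVec (2 * Q - 2 + Q - 2 * n) Q (L - n)))
        / ((Q : ℝ) ^ n * nsq (hwVec (2 * Q - 2) Q n))) else 0)
  + if n = m then
      ((C.margin L : ℝ) / 2 + (C.v n : ℝ) * C.tailW L) * (((Q : ℝ) ^ (L - n) * nsq (hwVec (2 * Q - 2 + Q - 2 * n) Q (L - n)))
        / ((Q : ℝ) ^ n * nsq (hwVec (2 * Q - 2) Q n))) else 0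

/-- Projection on the channels up to `N`. -/
noncomputable def lowProj (N Q : ℕ) : Matrix (Two (2 * Q - 2) Q) (Two (2 * Q - 2) Q) ℝ :=
  ∑ n ∈ range (N + 1), (nsq (hwVec (2 * Q - 2) Q n))⁻¹ •
    (chan (2 * Q - 2) Q (2 * Q - 2 + Q - 2 * n) n *
      (chan (2 * Q - 2) Q (2 * Q - 2 + Q - 2 * n) n)ᵀ)

/-- Scaled lower bound of the sector form at flux `Q`. -/
noncomputable def blockQ (Q L : ℕ) : Matrix (Fin (bdim L)) (Fin (bdim L)) ℝ := fun i j =>
  ((Q : ℝ) ^ (L - 1) * nsq (hwVec (2 * Q - 2) (2 * Q - 2) (L - 1)))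
      * ((2 * (i : ℝ) - L) * (2 * (j : ℝ) - L))
    + (∑ n ∈ range (min L C.N0 + 1), ∑ m ∈ range (min L C.N0 + 1),
        C.kerQ Q L n m * ((Q : ℝ) ^ n * chanRow (2 * Q - 2) Q L n i)
          * ((Q : ℝ) ^ m * chanRow (2 * Q - 2) Q L m j))
    + if i = j then (C.margin L : ℝ) * (((Q : ℝ) ^ (i : ℕ) / Q.choose (i : ℕ))
        * ((Q : ℝ) ^ (L - i) / Q.choose (L - i))) else 0

variable {C}

theorem mem_chans {s : Fin C.S} {n : ℕ} :
    n ∈ C.chans s ↔ n ≤ C.N0 ∧ (0 : ℤ) ≤ n + C.shift s := by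
  simp [chans]

theorem degA_eq (hV : C.Valid) {Q : ℕ} (hQ : 3 ≤ Q) (s : Fin C.S) :
    (C.degA Q s : ℤ) = 2 * (Q : ℤ) - 2 + 2 * C.shift s := by
  have := abs_le.1 (hV.shift_le s)
  unfold degA
  omega

theorem cross_scaled (hV : C.Valid) {Q L : ℕ} (hQ : C.N0 + 3 + L ≤ Q) (s : Fin C.S)
    {F : Three (2 * Q - 2) Q → ℝ} (hF : Supp wt3 L F)
    (hJ : raise3 (2 * Q - 2) Q *ᵥ F = 0) (hanti : ∀ a b e, F (a, b, e) = -F (a, e, b)) :
    -((Q : ℝ) ^ L * quad ((act3 (C.G Q s))ᵀ * act4 (C.G Q s)) F)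
      = ∑ n ∈ range (min L C.N0 + 1), ∑ m ∈ range (min L C.N0 + 1),
          (if n ∈ C.chans s ∧ m ∈ C.chans s then
            (C.g s n : ℝ) * C.g s m * ((Q : ℝ) ^ (C.img s n + (L - n))
              * (tri3 (C.degA Q s) Q (C.img s n) (L - n)
                ⬝ᵥ tri4 (C.degA Q s) Q (C.img s m) (L - m)))
          else 0)
          * (((Q : ℝ) ^ n • chanRow (2 * Q - 2) Q L n) ⬝ᵥ coords F L)
          * (((Q : ℝ) ^ m • chanRow (2 * Q - 2) Q L m) ⬝ᵥ coords F L) := by
  have hd := abs_le.1 (hV.shift_le s)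
  have hA' := degA_eq hV (show 3 ≤ Q by omega) s
  have himg : ∀ i ∈ C.chans s, (C.img s i : ℤ) = i + C.shift s := by
    intro i hi
    rw [mem_chans] at hi
    unfold img
    omega
  rw [quad_cross_chan (C.chans s) (fun i => i) (C.img s)
    (fun i => 2 * Q - 2 + Q - 2 * i) (fun i => (C.g s i : ℝ) * Real.sqrt Q ^ (i + C.img s i))
    (fun i hi => by rw [mem_chans] at hi; omega)
    (fun i hi => by have h' := himg i hi; rw [mem_chans] at hi; omega)
    (fun i hi => by rw [mem_chans] at hi; omega)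
    (fun i hi => by rw [mem_chans] at hi; omega) (C.G Q s) rfl hF hJ hanti]
  rw [mul_neg, neg_neg]
  have hset : (C.chans s).filter (fun i => i ≤ L)
      = (range (min L C.N0 + 1)).filter (fun i => i ∈ C.chans s) := by
    ext i
    simp only [mem_filter, mem_range, mem_chans]
    omega
  rw [hset, sum_filter, mul_sum]
  refine sum_congr rfl fun n hn => ?_
  rw [mem_range] at hn
  by_cases hns : n ∈ C.chans s
  · rw [if_pos hns, sum_filter, mul_sum]
    refine sum_congr rfl fun m hm => ?_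
    rw [mem_range] at hm
    by_cases hms : m ∈ C.chans s
    · rw [if_pos hms, if_pos ⟨hns, hms⟩,
        chanAlpha_eq (by omega) (by omega) (by omega) (by omega) (by omega) hF hJ hanti,
        chanAlpha_eq (by omega) (by omega) (by omega) (by omega) (by omega) hF hJ hanti]
      have h1 := himg n hns
      have h2 := himg m hms
      simp only [smul_dotProduct, smul_eq_mul]
      have hp : Real.sqrt Q ^ (n + C.img s n) * Real.sqrt Q ^ (m + C.img s m) * (Q : ℝ) ^ L
          = (Q : ℝ) ^ (C.img s n + (L - n)) * (Q : ℝ) ^ n * (Q : ℝ) ^ m := by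
        rw [← pow_add, show n + C.img s n + (m + C.img s m) = 2 * (C.img s n + m) by omega,
          pow_mul, Real.sq_sqrt (Nat.cast_nonneg Q), ← pow_add, ← pow_add, ← pow_add]
        congr 1
        omega
      linear_combination ((C.g s n : ℝ) * C.g s m
        * (chanRow (2 * Q - 2) Q L n ⬝ᵥ coords F L) * (chanRow (2 * Q - 2) Q L m ⬝ᵥ coords F L)
        * (tri3 (C.degA Q s) Q (C.img s n) (L - n)
            ⬝ᵥ tri4 (C.degA Q s) Q (C.img s m) (L - m))) * hp
    · rw [if_neg hms, if_neg (fun h => hms h.2)]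
      simp
  · rw [if_neg hns, mul_zero]
    symm
    refine sum_eq_zero fun m _ => ?_
    rw [if_neg (fun h => hns h.1)]
    simp

theorem proj_scaled {Q L : ℕ} (S : Finset ℕ) (hS : ∀ n ∈ S, n ≤ C.N0) (c : ℝ)
    (hQ : C.N0 + 3 + L ≤ Q) (P : Matrix (Two (2 * Q - 2) Q) (Two (2 * Q - 2) Q) ℝ)
    (hP : P = ∑ n ∈ S, (nsq (hwVec (2 * Q - 2) Q n))⁻¹ •
      (chan (2 * Q - 2) Q (2 * Q - 2 + Q - 2 * n) n *
        (chan (2 * Q - 2) Q (2 * Q - 2 + Q - 2 * n) n)ᵀ))
    {F : Three (2 * Q - 2) Q → ℝ} (hF : Supp wt3 L F)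
    (hJ : raise3 (2 * Q - 2) Q *ᵥ F = 0) (hanti : ∀ a b e, F (a, b, e) = -F (a, e, b)) :
    (Q : ℝ) ^ L * (c * quad (act3 P) F)
      = ∑ n ∈ range (min L C.N0 + 1), ∑ m ∈ range (min L C.N0 + 1),
          (if n = m ∧ n ∈ S then
            c * (((Q : ℝ) ^ (L - n) * nsq (hwVec (2 * Q - 2 + Q - 2 * n) Q (L - n)))
              / ((Q : ℝ) ^ n * nsq (hwVec (2 * Q - 2) Q n))) else 0)
          * (((Q : ℝ) ^ n • chanRow (2 * Q - 2) Q L n) ⬝ᵥ coords F L)
          * (((Q : ℝ) ^ m • chanRow (2 * Q - 2) Q L m) ⬝ᵥ coords F L) := by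
  have hq : quad (act3 P) F = ∑ n ∈ S, (nsq (hwVec (2 * Q - 2) Q n))⁻¹
      * quad (act3 (chan (2 * Q - 2) Q (2 * Q - 2 + Q - 2 * n) n *
        (chan (2 * Q - 2) Q (2 * Q - 2 + Q - 2 * n) n)ᵀ)) F := by
    have : act3 P = ∑ n ∈ S, (nsq (hwVec (2 * Q - 2) Q n))⁻¹ •
        act3 (chan (2 * Q - 2) Q (2 * Q - 2 + Q - 2 * n) n *
          (chan (2 * Q - 2) Q (2 * Q - 2 + Q - 2 * n) n)ᵀ) := by
      ext p q
      simp only [hP, act3, Matrix.sum_apply, Matrix.smul_apply, smul_eq_mul]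
      split_ifs with h
      · rfl
      · simp
    simp only [this, quad, sum_mulVec, dotProduct_sum, smul_mulVec, dotProduct_smul, smul_eq_mul]
  rw [hq, sum_congr rfl fun n hn => by
    rw [quad_act3_chan (D := 2 * Q - 2 + Q - 2 * n)
      (by have := hS n hn; omega) (by have := hS n hn; omega)
      (by have := hS n hn; omega) hF hJ hanti (by omega)]]
  rw [mul_sum, mul_sum]
  have hset : S.filter (fun n => n ≤ L)
      = (range (min L C.N0 + 1)).filter (fun n => n ∈ S) := by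
    ext i
    simp only [mem_filter, mem_range]
    exact ⟨fun h => ⟨by have := hS i h.1; omega, h.1⟩, fun h => ⟨h.2, by omega⟩⟩
  have hR : ∀ n ∈ range (min L C.N0 + 1), (∑ m ∈ range (min L C.N0 + 1),
      (if n = m ∧ n ∈ S then
        c * (((Q : ℝ) ^ (L - n) * nsq (hwVec (2 * Q - 2 + Q - 2 * n) Q (L - n)))
          / ((Q : ℝ) ^ n * nsq (hwVec (2 * Q - 2) Q n))) else 0)
      * (((Q : ℝ) ^ n • chanRow (2 * Q - 2) Q L n) ⬝ᵥ coords F L)
      * (((Q : ℝ) ^ m • chanRow (2 * Q - 2) Q L m) ⬝ᵥ coords F L))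
      = if n ∈ S then (Q : ℝ) ^ L * (c * ((nsq (hwVec (2 * Q - 2) Q n))⁻¹
          * ((chanRow (2 * Q - 2) Q L n ⬝ᵥ coords F L) ^ 2
            * nsq (hwVec (2 * Q - 2 + Q - 2 * n) Q (L - n))))) else 0 := by
    intro n hn
    rw [sum_eq_single n (fun m _ hm => by
      rw [if_neg (fun h => hm h.1.symm)]; simp) (fun h => absurd hn h)]
    rw [mem_range] at hn
    by_cases hk : n ∈ S
    · rw [if_pos ⟨rfl, hk⟩, if_pos hk, smul_dotProduct, smul_eq_mul]
      have hp := nsq_hwVec_pos (A := 2 * Q - 2) (show n ≤ Q by omega)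
      have hQ0 : (Q : ℝ) ≠ 0 := by exact_mod_cast (show Q ≠ 0 by omega)
      rw [show (Q : ℝ) ^ L = (Q : ℝ) ^ (L - n) * (Q : ℝ) ^ n by
        rw [← pow_add]; congr 1; omega]
      field_simp
    · rw [if_neg (fun h => hk h.2), if_neg hk]
      simp
  rw [sum_congr rfl hR, ← sum_filter, ← hset, sum_filter]
  refine sum_congr rfl fun n _ => ?_
  split_ifs <;> simp

theorem killed_scaled {Q L : ℕ} (hQ : C.N0 + 3 + L ≤ Q) (hN : 3 ≤ C.N0)
    {F : Three (2 * Q - 2) Q → ℝ} (hF : Supp wt3 L F)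
    (hJ : raise3 (2 * Q - 2) Q *ᵥ F = 0) (hanti : ∀ a b e, F (a, b, e) = -F (a, e, b)) :
    (Q : ℝ) ^ L * ((C.Λ : ℝ) * quad (act3 (killedProj Q)) F)
      = ∑ n ∈ range (min L C.N0 + 1), ∑ m ∈ range (min L C.N0 + 1),
          (if n = m ∧ n ∈ killedCh then
            (C.Λ : ℝ) * (((Q : ℝ) ^ (L - n) * nsq (hwVec (2 * Q - 2 + Q - 2 * n) Q (L - n)))
              / ((Q : ℝ) ^ n * nsq (hwVec (2 * Q - 2) Q n))) else 0)
          * (((Q : ℝ) ^ n • chanRow (2 * Q - 2) Q L n) ⬝ᵥ coords F L)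
          * (((Q : ℝ) ^ m • chanRow (2 * Q - 2) Q L m) ⬝ᵥ coords F L) :=
  C.proj_scaled killedCh
    (fun n hn => by simp only [killedCh, mem_insert, mem_singleton] at hn; omega)
    (C.Λ : ℝ) hQ (killedProj Q) rfl hF hJ hanti

/-- The channel slack in coordinates. -/
theorem slack_scaled {Q L : ℕ} (hQ : C.N0 + 3 + L ≤ Q)
    {F : Three (2 * Q - 2) Q → ℝ} (hF : Supp wt3 L F)
    (hJ : raise3 (2 * Q - 2) Q *ᵥ F = 0) (hanti : ∀ a b e, F (a, b, e) = -F (a, e, b)) :
    (Q : ℝ) ^ L * ∑ k ∈ range (C.N0 + 1), (C.v k : ℝ) * C.tailW L * quad (act3 (chanP Q k)) F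
      = ∑ n ∈ range (min L C.N0 + 1), ∑ m ∈ range (min L C.N0 + 1),
          (if n = m then
            (C.v n : ℝ) * C.tailW L
              * (((Q : ℝ) ^ (L - n) * nsq (hwVec (2 * Q - 2 + Q - 2 * n) Q (L - n)))
              / ((Q : ℝ) ^ n * nsq (hwVec (2 * Q - 2) Q n))) else 0)
          * (((Q : ℝ) ^ n • chanRow (2 * Q - 2) Q L n) ⬝ᵥ coords F L)
          * (((Q : ℝ) ^ m • chanRow (2 * Q - 2) Q L m) ⬝ᵥ coords F L) := by
  rw [mul_sum, sum_congr rfl fun k hk => C.proj_scaled {k}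
    (fun n hn => by rw [mem_singleton] at hn; rw [mem_range] at hk; omega)
    ((C.v k : ℝ) * C.tailW L) hQ (chanP Q k) (by rw [chanP, sum_singleton]) hF hJ hanti,
    sum_comm]
  refine sum_congr rfl fun n hn => ?_
  rw [sum_comm]
  refine sum_congr rfl fun m _ => ?_
  rw [mem_range] at hn
  by_cases h : n = m
  · subst h
    rw [sum_eq_single n (fun k _ hne => by simp [Ne.symm hne])
      (fun hn' => absurd (mem_range.2 (by omega)) hn')]
    simp
  · simp [h]

/-- Bessel: the channel coordinates up to `N` carry at most the squared norm. -/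
theorem quad_lowProj_le {N Q : ℕ} (hQ : N + 2 ≤ Q) (F : Three (2 * Q - 2) Q → ℝ) :
    quad (act3 (lowProj N Q)) F ≤ nsq F := by
  have hT : Intertwines wt2 (raise2 (2 * Q - 2) Q) wt2 (raise2 (2 * Q - 2) Q) 0
      (1 - lowProj N Q) := by
    refine Intertwines.one.sub (Intertwines.sum _ fun n hn => ?_)
    rw [mem_range] at hn
    have h := chan_intertwines (A := 2 * Q - 2) (B := Q) (D := 2 * Q - 2 + Q - 2 * n) (n := n)
      (by omega) (by omega) (by omega)
    exact ((h.comp h.transpose).cast (by ring)).smul _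
  have hpos : ∀ v, 0 ≤ quad (1 - lowProj N Q) v := fun v => by
    refine criterion2 (L := 2 * Q - 2 + Q) ?_ hT (fun m _ hmA hmB => ?_) v (fun p hp =>
      absurd hp (by have := p.1.isLt; have := p.2.isLt; simp only [wt2]; omega))
    · simp [lowProj, transpose_sum, transpose_mul]
    · have e : lowProj N Q *ᵥ hwVec (2 * Q - 2) Q m =
          if m ∈ range (N + 1) then hwVec (2 * Q - 2) Q m else 0 := by
        have e1 : ∀ n ∈ range (N + 1), ((nsq (hwVec (2 * Q - 2) Q n))⁻¹ •
            (chan (2 * Q - 2) Q (2 * Q - 2 + Q - 2 * n) n *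
              (chan (2 * Q - 2) Q (2 * Q - 2 + Q - 2 * n) n)ᵀ)) *ᵥ hwVec (2 * Q - 2) Q m =
            if n = m then hwVec (2 * Q - 2) Q n else 0 := fun n hn => by
          rw [mem_range] at hn
          rw [smul_mulVec, ← mulVec_mulVec]
          split_ifs with h
          · subst h
            rw [chan_transpose_hwVec_self hmA hmB,
              show (Pi.single 0 (nsq (hwVec (2 * Q - 2) Q n)) : Fin (2 * Q - 2 + Q - 2 * n + 1) → ℝ)
                = nsq (hwVec (2 * Q - 2) Q n) • (Pi.single 0 1) by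
                rw [← Pi.single_smul, smul_eq_mul, mul_one],
              mulVec_smul, chan_mulVec_zero, smul_smul,
              inv_mul_cancel₀ (nsq_hwVec_pos hmB).ne', one_smul]
          · rw [chan_transpose_hwVec_ne (by omega) (by omega) (by omega) hmA hmB (Ne.symm h),
              mulVec_zero, smul_zero]
        rw [lowProj, sum_mulVec, sum_congr rfl e1, sum_ite_eq']
      rw [quad, sub_mulVec, one_mulVec, e]
      split_ifs
      · simp
      · simp only [sub_zero]
        exact nsq_nonneg _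
  rw [quad_act3, show nsq F = ∑ e : Fin (Q + 1), nsq (fun p : Two (2 * Q - 2) Q =>
      F (p.1, p.2, e)) by
    simp only [nsq, dotProduct, Fintype.sum_prod_type]
    conv_rhs => rw [Finset.sum_comm]; arg 2; ext a; rw [Finset.sum_comm]]
  refine sum_le_sum fun e _ => ?_
  have h := hpos fun p => F (p.1, p.2, e)
  simp only [quad, sub_mulVec, one_mulVec, dotProduct_sub] at h
  simp only [quad, nsq]
  linarith

theorem quad_blockQ {Q L : ℕ} (y : Fin (bdim L) → ℝ) :
    quad (C.blockQ Q L) y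
      = ((Q : ℝ) ^ (L - 1) * nsq (hwVec (2 * Q - 2) (2 * Q - 2) (L - 1)))
          * (∑ k : Fin (bdim L), (2 * (k : ℝ) - L) * y k) ^ 2
        + (∑ n ∈ range (min L C.N0 + 1), ∑ m ∈ range (min L C.N0 + 1),
            C.kerQ Q L n m * (((Q : ℝ) ^ n • chanRow (2 * Q - 2) Q L n) ⬝ᵥ y)
              * (((Q : ℝ) ^ m • chanRow (2 * Q - 2) Q L m) ⬝ᵥ y))
        + (C.margin L : ℝ) * ∑ k : Fin (bdim L), ((Q : ℝ) ^ (k : ℕ) / Q.choose (k : ℕ))
            * ((Q : ℝ) ^ (L - k) / Q.choose (L - k)) * y k ^ 2 := by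
  simp only [quad, dotProduct, mulVec, blockQ, add_mul, sum_add_distrib, mul_add, Pi.smul_apply,
    smul_eq_mul]
  congr 1
  · congr 1
    · simp only [sq, mul_sum, sum_mul]
      rw [sum_comm]
      refine sum_congr rfl fun i _ => sum_congr rfl fun j _ => ?_
      ring
    · simp only [mul_sum, sum_mul]
      rw [sum_congr rfl fun i _ => sum_comm, sum_comm,
        sum_congr rfl fun n _ => sum_congr rfl fun i _ => sum_comm,
        sum_congr rfl fun n _ => sum_comm]
      refine sum_congr rfl fun n _ => sum_congr rfl fun m _ => ?_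
      rw [sum_comm]
      refine sum_congr rfl fun i _ => sum_congr rfl fun j _ => ?_
      ring
  · rw [mul_sum]
    refine sum_congr rfl fun i _ => ?_
    simp only [ite_mul, zero_mul, sum_ite_eq, mem_univ, if_true]
    ring

/-- The scaled form at flux `Q` bounds the sector expression from below. -/
theorem sector_lower (hV : C.Valid) {Q L : ℕ} (hL : 1 ≤ L) (hQ : C.N0 + 3 + L ≤ Q)
    {F : Three (2 * Q - 2) Q → ℝ} (hF : Supp wt3 L F)
    (hJ : raise3 (2 * Q - 2) Q *ᵥ F = 0) (hanti : ∀ a b e, F (a, b, e) = -F (a, e, b)) :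
    quad (C.blockQ Q L) (coords F L) ≤ (Q : ℝ) ^ L *
      ((1 / 2) * quad (restK (2 * Q - 2) Q) F
        - ∑ s, quad ((act3 (C.G Q s))ᵀ * act4 (C.G Q s)) F
        + (C.Λ : ℝ) * quad (act3 (killedProj Q)) F + (C.margin L : ℝ) * nsq F
        + ∑ n ∈ range (C.N0 + 1), (C.v n : ℝ) * C.tailW L * quad (act3 (chanP Q n)) F) := by
  have hN := hV.N0_le.1
  have hm : (0 : ℝ) ≤ C.margin L := by
    have : (0 : ℚ) ≤ C.margin L := by
      unfold margin
      have := hV.eps2
      have := hV.t2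
      have : (0 : ℚ) ≤ 1 - 2 * C.t2 := by linarith
      positivity
    exact_mod_cast this
  have hn := nsq_lower (show L ≤ 2 * Q - 2 by omega) (show L ≤ Q by omega) hF hJ hanti
  have hQ0 : (0 : ℝ) < Q := by exact_mod_cast (show 0 < Q by omega)
  rw [mul_add, mul_add, mul_add, mul_sub, quad_restK_rank_one (by omega) hL (by omega) hF hJ hanti,
    killed_scaled hQ hN hF hJ hanti, slack_scaled hQ hF hJ hanti, mul_sum, sub_eq_add_neg,
    ← sum_neg_distrib,
    sum_congr rfl fun s _ => cross_scaled hV hQ s hF hJ hanti]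
  erw [quad_blockQ]
  have hker : ∑ n ∈ range (min L C.N0 + 1), ∑ m ∈ range (min L C.N0 + 1),
      C.kerQ Q L n m * (((Q : ℝ) ^ n • chanRow (2 * Q - 2) Q L n) ⬝ᵥ coords F L)
        * (((Q : ℝ) ^ m • chanRow (2 * Q - 2) Q L m) ⬝ᵥ coords F L)
      = (∑ s, ∑ n ∈ range (min L C.N0 + 1), ∑ m ∈ range (min L C.N0 + 1),
          (if n ∈ C.chans s ∧ m ∈ C.chans s then
            (C.g s n : ℝ) * C.g s m * ((Q : ℝ) ^ (C.img s n + (L - n))
              * (tri3 (C.degA Q s) Q (C.img s n) (L - n)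
                ⬝ᵥ tri4 (C.degA Q s) Q (C.img s m) (L - m)))
          else 0)
          * (((Q : ℝ) ^ n • chanRow (2 * Q - 2) Q L n) ⬝ᵥ coords F L)
          * (((Q : ℝ) ^ m • chanRow (2 * Q - 2) Q L m) ⬝ᵥ coords F L))
        + ∑ n ∈ range (min L C.N0 + 1), ∑ m ∈ range (min L C.N0 + 1),
          (if n = m ∧ n ∈ killedCh then
            (C.Λ : ℝ) * (((Q : ℝ) ^ (L - n) * nsq (hwVec (2 * Q - 2 + Q - 2 * n) Q (L - n)))
              / ((Q : ℝ) ^ n * nsq (hwVec (2 * Q - 2) Q n))) else 0)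
          * (((Q : ℝ) ^ n • chanRow (2 * Q - 2) Q L n) ⬝ᵥ coords F L)
          * (((Q : ℝ) ^ m • chanRow (2 * Q - 2) Q L m) ⬝ᵥ coords F L)
        + ∑ n ∈ range (min L C.N0 + 1), ∑ m ∈ range (min L C.N0 + 1),
          (if n = m ∧ n ∈ range (C.N0 + 1) then
            (C.margin L : ℝ) / 2
              * (((Q : ℝ) ^ (L - n) * nsq (hwVec (2 * Q - 2 + Q - 2 * n) Q (L - n)))
              / ((Q : ℝ) ^ n * nsq (hwVec (2 * Q - 2) Q n))) else 0)
          * (((Q : ℝ) ^ n • chanRow (2 * Q - 2) Q L n) ⬝ᵥ coords F L)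
          * (((Q : ℝ) ^ m • chanRow (2 * Q - 2) Q L m) ⬝ᵥ coords F L)
        + ∑ n ∈ range (min L C.N0 + 1), ∑ m ∈ range (min L C.N0 + 1),
          (if n = m then
            (C.v n : ℝ) * C.tailW L
              * (((Q : ℝ) ^ (L - n) * nsq (hwVec (2 * Q - 2 + Q - 2 * n) Q (L - n)))
              / ((Q : ℝ) ^ n * nsq (hwVec (2 * Q - 2) Q n))) else 0)
          * (((Q : ℝ) ^ n • chanRow (2 * Q - 2) Q L n) ⬝ᵥ coords F L)
          * (((Q : ℝ) ^ m • chanRow (2 * Q - 2) Q L m) ⬝ᵥ coords F L) := by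
    rw [sum_comm (γ := Fin C.S), ← sum_add_distrib, ← sum_add_distrib, ← sum_add_distrib]
    refine sum_congr rfl fun n hn => ?_
    rw [sum_comm (γ := Fin C.S), ← sum_add_distrib, ← sum_add_distrib, ← sum_add_distrib]
    refine sum_congr rfl fun m _ => ?_
    have hn' : n ∈ range (C.N0 + 1) := by
      rw [mem_range] at hn ⊢
      omega
    simp only [kerQ, hn', and_true, add_mul, sum_mul, apply_ite₂ (· + ·), ite_add_ite, add_zero]
    split_ifs <;> ring
  rw [hker]
  have h1 : (Q : ℝ) ^ L * (nsq (hwVec (2 * Q - 2) (2 * Q - 2) (L - 1)) / Q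
      * (∑ k : Fin (nb L), (2 * (k : ℝ) - L) * coords F L k) ^ 2)
      = ((Q : ℝ) ^ (L - 1) * nsq (hwVec (2 * Q - 2) (2 * Q - 2) (L - 1)))
          * (∑ k : Fin (nb L), (2 * (k : ℝ) - L) * coords F L k) ^ 2 := by
    rw [show (Q : ℝ) ^ L = (Q : ℝ) ^ (L - 1) * Q by rw [← pow_succ]; congr 1; omega]
    field_simp
  have h2 : (C.margin L : ℝ) * ∑ k : Fin (bdim L), ((Q : ℝ) ^ (k : ℕ) / Q.choose (k : ℕ))
      * ((Q : ℝ) ^ (L - k) / Q.choose (L - k)) * coords F L k ^ 2
      ≤ (Q : ℝ) ^ L * ((C.margin L : ℝ) / 2 * nsq F) := by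
    rw [mul_left_comm, show (C.margin L : ℝ) * ∑ k : Fin (bdim L), ((Q : ℝ) ^ (k : ℕ) / Q.choose (k : ℕ))
      * ((Q : ℝ) ^ (L - k) / Q.choose (L - k)) * coords F L k ^ 2
      = (C.margin L : ℝ) / 2 * ∑ k : Fin (bdim L), 2 * (((Q : ℝ) ^ (k : ℕ) / Q.choose (k : ℕ))
      * ((Q : ℝ) ^ (L - k) / Q.choose (L - k)) * coords F L k ^ 2) by rw [← mul_sum]; ring]
    refine mul_le_mul_of_nonneg_left ?_ (by linarith)
    refine le_trans (le_of_eq ?_) (mul_le_mul_of_nonneg_left hn (by positivity))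
    rw [mul_sum]
    refine sum_congr rfl fun k _ => ?_
    have : (k : ℕ) ≤ L := by
      have := k.isLt
      simp only [bdim] at this
      omega
    rw [show (Q : ℝ) ^ L = (Q : ℝ) ^ (k : ℕ) * (Q : ℝ) ^ (L - k) by
      rw [← pow_add]; congr 1; omega]
    ring
  have h3 : (Q : ℝ) ^ L * ((C.margin L : ℝ) / 2 * quad (act3 (lowProj C.N0 Q)) F)
      ≤ (Q : ℝ) ^ L * ((C.margin L : ℝ) / 2 * nsq F) :=
    mul_le_mul_of_nonneg_left (mul_le_mul_of_nonneg_left (quad_lowProj_le (by omega) F)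
      (by linarith)) (by positivity)
  rw [C.proj_scaled (range (C.N0 + 1)) (fun n hn => by rw [mem_range] at hn; omega)
    ((C.margin L : ℝ) / 2) hQ (lowProj C.N0 Q) rfl hF hJ hanti] at h3
  rw [h1]
  have e : (∑ k : Fin (bdim L), (2 * (k : ℝ) - L) * coords F L k)
      = ∑ k : Fin (nb L), (2 * (k : ℝ) - L) * coords F L k := rfl
  rw [e]
  linarith

theorem pCoord_eq (L n j : ℕ) : pCoord L n j = pChanRow L n j := by
  have : extBasis L j = antiBasis L j := rfl
  simp only [pCoord, pChanRow, sectorRow, this, Nat.cast_mul]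

theorem tendsto_two_sub : Tendsto (fun Q : ℕ => ((2 * Q - 2 : ℕ) : ℝ) / Q) atTop (𝓝 2) := by
  simpa using tendsto_two_mul_add_sub 0 2

theorem tendsto_degA (hV : C.Valid) (s : Fin C.S) :
    Tendsto (fun Q : ℕ => (C.degA Q s : ℝ) / Q) atTop (𝓝 2) := by
  refine (tendsto_two_mul_add_sub (2 * C.shift s).toNat ((-2 * C.shift s).toNat + 2)).congr' ?_
  filter_upwards [eventually_ge_atTop 3] with Q hQ
  have := degA_eq hV hQ s
  have hd := abs_le.1 (hV.shift_le s)
  congr 2
  omega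

theorem tendsto_pairNorm (L : ℕ) :
    Tendsto (fun Q : ℕ => (Q : ℝ) ^ L * nsq (hwVec (2 * Q - 2) (2 * Q - 2) L)) atTop
      (𝓝 (L.factorial : ℝ)) := by
  have h2 := tendsto_two_sub
  have hz : Tendsto (fun Q : ℕ => ((2 * Q - 2 + (2 * Q - 2) - L + 1 : ℕ) : ℝ) / Q) atTop (𝓝 4) := by
    have h4 : (4 : ℝ) = 2 + 2 := by norm_num
    rw [h4]
    have h3 := (tendsto_sub_const_div L (tendsto_add_div h2 h2)).add
      (tendsto_const_div_atTop_nhds_zero_nat (1 : ℝ))
    rw [add_zero] at h3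
    refine h3.congr fun Q => ?_
    push_cast
    ring
  have h := (tendsto_choose_div_pow hz L).div
    ((tendsto_choose_div_pow h2 L).mul (tendsto_choose_div_pow h2 L)) (by positivity)
  have e : (4 : ℝ) ^ L / L.factorial / ((2 : ℝ) ^ L / L.factorial * (2 ^ L / L.factorial))
      = L.factorial := by
    rw [show (4 : ℝ) ^ L = 2 ^ L * 2 ^ L by rw [← mul_pow]; norm_num]
    field_simp
  rw [e] at h
  refine h.congr' ?_
  filter_upwards [eventually_ge_atTop (L + 2)] with Q hQ
  have hQ' : (Q : ℝ) ≠ 0 := by exact_mod_cast (show Q ≠ 0 by omega)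
  rw [nsq_hwVec (by omega) (by omega)]
  simp only [Pi.div_apply]
  field_simp

theorem pKer_cast (hV : C.Valid) (L n m : ℕ) :
    (C.pKer L n m : ℝ) = ∑ s, (if n ∈ C.chans s ∧ m ∈ C.chans s then
        (C.g s n : ℝ) * C.g s m * (pTriDot ((n : ℤ) + C.shift s).toNat
          ((m : ℤ) + C.shift s).toNat ((L : ℤ) + C.shift s).toNat : ℝ) else 0)
      + (if n = m ∧ n ∈ killedCh then
          (C.Λ : ℝ) * ((pNorm 3 (L - n) : ℝ) / (pNorm 2 n : ℝ)) else 0)
      + if n = m then
          ((C.margin L : ℝ) / 2 + (C.v n : ℝ) * C.tailW L)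
            * ((pNorm 3 (L - n) : ℝ) / (pNorm 2 n : ℝ)) else 0 := by
  have h : C.pKer L n m = ∑ s, (if n ∈ C.chans s ∧ m ∈ C.chans s then
        C.g s n * C.g s m * pTriDot ((n : ℤ) + C.shift s).toNat
          ((m : ℤ) + C.shift s).toNat ((L : ℤ) + C.shift s).toNat else 0)
      + (if n = m ∧ n ∈ killedCh then C.Λ * (pNorm 3 (L - n) / pNorm 2 n) else 0)
      + if n = m then (C.margin L / 2 + C.v n * C.tailW L) * (pNorm 3 (L - n) / pNorm 2 n) else 0 := by
    unfold pKer gram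
    congr 1
    congr 1
    · simp only [sum_filter, sum_mul]
      rw [sum_comm]
      refine sum_congr rfl fun s _ => ?_
      have hd := abs_le.1 (hV.shift_le s)
      rw [sum_eq_single (C.shift s)]
      · simp [ite_mul]
      · intro d _ hne
        simp [Ne.symm hne]
      · intro h
        simp only [mem_insert, mem_singleton] at h
        omega
    · split_ifs
      · ring
      · rfl
    · split_ifs
      · ring
      · rfl
  rw [h]
  simp only [Rat.cast_add, Rat.cast_sum, apply_ite (Rat.cast : ℚ → ℝ), Rat.cast_zero,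
    Rat.cast_mul, Rat.cast_div, Rat.cast_ofNat]

theorem tendsto_kerQ (hV : C.Valid) {L n m : ℕ} (hn : n ≤ L) (hm : m ≤ L) :
    Tendsto (fun Q : ℕ => C.kerQ Q L n m) atTop (𝓝 (C.pKer L n m : ℝ)) := by
  rw [pKer_cast hV]
  unfold kerQ
  refine Tendsto.add (Tendsto.add (tendsto_finsetSum _ fun s _ => ?_) ?_) ?_
  · by_cases h : n ∈ C.chans s ∧ m ∈ C.chans s
    · simp only [if_pos h]
      have hn' := (mem_chans.1 h.1).2
      have hm' := (mem_chans.1 h.2).2
      have hi : C.img s n = ((n : ℤ) + C.shift s).toNat := rfl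
      have hj : C.img s m = ((m : ℤ) + C.shift s).toNat := rfl
      have h' := (tendsto_overlap (tendsto_degA hV s) tendsto_self_div
        (n := C.img s n) (q := C.img s m) (L := ((L : ℤ) + C.shift s).toNat)
        (by rw [hi]; omega) (by rw [hj]; omega))
      rw [hi, hj] at h'
      refine (h'.const_mul ((C.g s n : ℝ) * C.g s m)).congr fun Q => ?_
      rw [hi, hj,
        show ((L : ℤ) + C.shift s).toNat = ((n : ℤ) + C.shift s).toNat + (L - n) by omega,
        show ((n : ℤ) + C.shift s).toNat + (L - n) - ((n : ℤ) + C.shift s).toNat = L - n by omega,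
        show ((n : ℤ) + C.shift s).toNat + (L - n) - ((m : ℤ) + C.shift s).toNat = L - m by omega]
    · simp only [if_neg h]
      exact tendsto_const_nhds
  · by_cases h : n = m ∧ n ∈ killedCh
    · simp only [if_pos h]
      refine Tendsto.const_mul _ (Tendsto.div ?_ ?_ ?_)
      · exact tendsto_nsq_hwVec (α := 3) (by norm_num)
          (tendsto_div_deg tendsto_two_sub tendsto_self_div n) tendsto_self_div (L - n)
      · exact tendsto_nsq_hwVec (α := 2) (by norm_num) (by simpa using tendsto_two_sub)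
          tendsto_self_div n
      · have : (0 : ℚ) < pNorm 2 n := by unfold pNorm; positivity
        exact_mod_cast this.ne'
    · simp only [if_neg h]
      exact tendsto_const_nhds
  · by_cases h : n = m
    · simp only [if_pos h]
      refine Tendsto.const_mul _ (Tendsto.div ?_ ?_ ?_)
      · exact tendsto_nsq_hwVec (α := 3) (by norm_num)
          (tendsto_div_deg tendsto_two_sub tendsto_self_div n) tendsto_self_div (L - n)
      · exact tendsto_nsq_hwVec (α := 2) (by norm_num) (by simpa using tendsto_two_sub)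
          tendsto_self_div n
      · have : (0 : ℚ) < pNorm 2 n := by unfold pNorm; positivity
        exact_mod_cast this.ne'
    · simp only [if_neg h]
      exact tendsto_const_nhds

theorem tendsto_blockQ (hV : C.Valid) {L : ℕ} (i j : Fin (bdim L)) :
    Tendsto (fun Q : ℕ => C.blockQ Q L i j) atTop (𝓝 ((C.block L i j : ℚ) : ℝ)) := by
  unfold blockQ block
  simp only [Rat.cast_add, Rat.cast_sum, apply_ite (Rat.cast : ℚ → ℝ), Rat.cast_zero,
    Rat.cast_mul, Rat.cast_sub, Rat.cast_ofNat, Rat.cast_natCast]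
  refine Tendsto.add (Tendsto.add ?_ ?_) ?_
  · exact (tendsto_pairNorm (L - 1)).mul_const _
  · refine tendsto_finsetSum _ fun n hn => tendsto_finsetSum _ fun m hm => ?_
    rw [mem_range] at hn hm
    rw [pCoord_eq, pCoord_eq]
    exact ((tendsto_kerQ hV (by omega) (by omega)).mul
      (tendsto_chanRow tendsto_two_sub L n i)).mul (tendsto_chanRow tendsto_two_sub L m j)
  · by_cases h : i = j
    · simp only [if_pos h]
      have hk := fun k => tendsto_pow_div_choose (α := (1 : ℝ)) one_ne_zero tendsto_id_div k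
      have h' := ((hk (i : ℕ)).mul (hk (L - i))).const_mul (C.margin L : ℝ)
      simp only [one_pow, div_one, id_eq] at h'
      exact h'
    · simp only [if_neg h]
      exact tendsto_const_nhds

/-- A positive planar block gives the sector inequality for all large `Q`. -/
theorem sectorPos_eventually (hV : C.Valid) {L : ℕ} (hL : 1 ≤ L) (hB : C.BlockPos L) :
    ∀ᶠ Q in atTop, C.SectorPos Q L := by
  obtain ⟨c, hc, hpos⟩ := hB
  have h := eventually_quad_nonneg hc hpos (fun i j => tendsto_blockQ hV i j)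
  filter_upwards [h, eventually_ge_atTop (C.N0 + 3 + L)] with Q hQ hQ' F hF hJ hanti
  have h1 := (hQ (coords F L)).trans (sector_lower hV hL hQ' hF hJ hanti)
  have h2 : (0 : ℝ) < (Q : ℝ) ^ L :=
    pow_pos (Nat.cast_pos.2 (show 0 < Q by omega)) L
  exact nonneg_of_mul_nonneg_right (by linarith) h2

/-- There is nothing to check in weight zero. -/
theorem sectorPos_zero (Q : ℕ) : C.SectorPos Q 0 := by
  intro F hF _ hanti
  have : F = 0 := by
    funext p
    by_cases hp : wt3 p = 0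
    · obtain ⟨a, b, e⟩ := p
      simp only [wt3] at hp
      have hb : b = e := Fin.ext (by omega)
      subst hb
      have := hanti a b b
      simp only [Pi.zero_apply]
      linarith
    · exact hF p hp
  subst this
  simp [quad, nsq]

/-- All finitely many blocks at once. -/
theorem sectorPos_le_eventually (hV : C.Valid) {L0 : ℕ}
    (hB : ∀ L, 1 ≤ L → L ≤ L0 → C.BlockPos L) :
    ∀ᶠ Q in atTop, ∀ L ≤ L0, C.SectorPos Q L := by
  have h : ∀ L ∈ range (L0 + 1), ∀ᶠ Q in atTop, C.SectorPos Q L := by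
    intro L hL
    rw [mem_range] at hL
    rcases Nat.eq_zero_or_pos L with rfl | hpos
    · exact Eventually.of_forall fun Q => sectorPos_zero Q
    · exact sectorPos_eventually hV hpos (hB L hpos (by omega))
  filter_upwards [(eventually_all_finset (range (L0 + 1))).2 h] with Q hQ L hL
  exact hQ L (mem_range.2 (by omega))

end Cert

end P359
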