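import Mathlib

/-!
P359: fast closed arithmetic for the certificate checker (digit extraction from one power).
-/

namespace P359.Chk

open Finset
open scoped BigOperators

theorem digit_sum {B : ℕ} (hB : 0 < B) :
    ∀ (q D : ℕ) (a : ℕ → ℕ), q < D → (∀ i, a i < B) →
      ((∑ i ∈ range D, a i * B ^ i) / B ^ q) % B = a q
  | 0, D, a, hD, ha => by
    obtain ⟨D, rfl⟩ := Nat.exists_eq_succ_of_ne_zero (show D ≠ 0 by omega)
    rw [sum_range_succ', pow_zero, Nat.div_one, mul_one]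
    have e : ∑ i ∈ range D, a (i + 1) * B ^ (i + 1) = B * ∑ i ∈ range D, a (i + 1) * B ^ i := by
      rw [mul_sum]
      exact sum_congr rfl fun i _ => by ring
    rw [e, Nat.mul_add_mod, Nat.mod_eq_of_lt (ha 0)]
  | q + 1, D, a, hD, ha => by
    obtain ⟨D, rfl⟩ := Nat.exists_eq_succ_of_ne_zero (show D ≠ 0 by omega)
    rw [sum_range_succ', pow_zero, mul_one]
    have e : ∑ i ∈ range D, a (i + 1) * B ^ (i + 1) = B * ∑ i ∈ range D, a (i + 1) * B ^ i := by
      rw [mul_sum]
      exact sum_congr rfl fun i _ => by ring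
    rw [e, pow_succ', ← Nat.div_div_eq_div_mul, Nat.mul_add_div hB,
      Nat.div_eq_of_lt (ha 0), add_zero]
    exact digit_sum hB q D (fun i => a (i + 1)) (by omega) fun i => ha _

/-- `C(N,k)`. -/
def fbinom (N k : ℕ) : ℕ := (2 ^ (N + 1) + 1) ^ N / 2 ^ ((N + 1) * k) % 2 ^ (N + 1)

theorem fbinom_eq (N k : ℕ) : fbinom N k = N.choose k := by
  unfold fbinom
  set B := 2 ^ (N + 1) with hB
  have hlt : ∀ i, N.choose i < B := fun i =>
    (Nat.choose_le_two_pow N i).trans_lt (Nat.pow_lt_pow_right (by norm_num) (by omega))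
  have hs : ∀ D, (B + 1) ^ N = ∑ i ∈ range (N + 1 + D), N.choose i * B ^ i := by
    intro D
    rw [add_pow, sum_range_add (fun i => N.choose i * B ^ i) (N + 1) D,
      sum_eq_zero (s := range D) (fun i _ => by
      rw [Nat.choose_eq_zero_of_lt (by omega), zero_mul]), add_zero]
    exact sum_congr rfl fun i _ => by simp [mul_comm]
  rw [hs (k + 1), show 2 ^ ((N + 1) * k) = B ^ k by rw [hB, ← pow_mul]]
  exact digit_sum (by rw [hB]; positivity) k _ _ (by omega) hlt

/-- `∑_{b ≤ n} C(j,b) 2^b`. -/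
def fbinPart (j n : ℕ) : ℕ :=
  (2 * 2 ^ (2 * j + 2) + 1) ^ j % (2 ^ ((2 * j + 2) * (n + 1))) % (2 ^ (2 * j + 2) - 1)

theorem fbinPart_eq (j n : ℕ) : fbinPart j n = ∑ b ∈ range (n + 1), j.choose b * 2 ^ b := by
  unfold fbinPart
  set B := 2 ^ (2 * j + 2) with hB
  set a : ℕ → ℕ := fun b => j.choose b * 2 ^ b with ha
  have hsum : ∀ D, ∑ b ∈ range D, a b ≤ 3 ^ j := by
    intro D
    calc ∑ b ∈ range D, a b ≤ ∑ b ∈ range (j + 1 + D), a b :=
          sum_le_sum_of_subset (range_subset_range.2 (by omega))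
      _ = ∑ b ∈ range (j + 1), a b := by
          rw [sum_range_add, sum_eq_zero (s := range D) (fun b _ => by
            simp [ha, Nat.choose_eq_zero_of_lt (show j < j + 1 + b by omega)]), add_zero]
      _ = 3 ^ j := by
          rw [show (3 : ℕ) = 2 + 1 by norm_num, add_pow]
          exact sum_congr rfl fun b _ => by simp [ha, mul_comm]
  have hB2 : 2 ≤ B := by
    rw [hB, pow_succ]
    have := Nat.one_le_two_pow (n := 2 * j)
    omega
  have h3 : 3 ^ j < B - 1 := by
    have h4 : 3 ^ j ≤ 4 ^ j := Nat.pow_le_pow_left (by norm_num) _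
    have h5 : B = 4 * 4 ^ j := by rw [hB, pow_add, pow_mul]; norm_num; ring
    have h6 : 1 ≤ 4 ^ j := Nat.one_le_pow _ _ (by norm_num)
    omega
  have e : (2 * B + 1) ^ j = ∑ b ∈ range (j + 1 + (n + 1)), a b * B ^ b := by
    rw [add_pow, sum_range_add (fun b => a b * B ^ b) (j + 1) (n + 1),
      sum_eq_zero (s := range (n + 1)) (fun b _ => by
      simp [ha, Nat.choose_eq_zero_of_lt (show j < j + 1 + b by omega)]), add_zero]
    exact sum_congr rfl fun b _ => by simp [ha, mul_pow]; ring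
  have hlow : ∀ D, ∑ b ∈ range D, a b * B ^ b < B ^ D := by
    intro D
    induction D with
    | zero => simp
    | succ D ih =>
      have h1 : a D + 1 ≤ B := by
        have := (single_le_sum (fun b _ => Nat.zero_le (a b))
          (mem_range.2 (Nat.lt_succ_self D))).trans (hsum (D + 1))
        omega
      rw [sum_range_succ, pow_succ']
      calc _ < B ^ D + a D * B ^ D := by omega
        _ = (a D + 1) * B ^ D := by ring
        _ ≤ B * B ^ D := Nat.mul_le_mul_right _ h1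
  rw [e, show 2 ^ ((2 * j + 2) * (n + 1)) = B ^ (n + 1) by rw [hB, ← pow_mul],
    show j + 1 + (n + 1) = (n + 1) + (j + 1) by omega, sum_range_add]
  have hhi : ∑ b ∈ range (j + 1), a (n + 1 + b) * B ^ (n + 1 + b)
      = B ^ (n + 1) * ∑ b ∈ range (j + 1), a (n + 1 + b) * B ^ b := by
    rw [mul_sum]
    exact sum_congr rfl fun b _ => by ring
  rw [hhi, add_comm, Nat.mul_add_mod, Nat.mod_eq_of_lt (hlow _)]
  have hm : ∀ b, a b * B ^ b ≡ a b [MOD B - 1] := by
    intro b
    have : B ≡ 1 [MOD B - 1] := by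
      rw [Nat.ModEq.comm, Nat.modEq_iff_dvd' (by omega)]
    have h := (this.pow b).mul_left (a b)
    simpa using h
  have : ∑ b ∈ range (n + 1), a b * B ^ b ≡ ∑ b ∈ range (n + 1), a b [MOD B - 1] :=
    Nat.ModEq.sum fun b _ => hm b
  rw [this, Nat.mod_eq_of_lt ((hsum _).trans_lt h3)]

/-- Coefficient of `x^q` in `(x-2)^n (1+4x)^r`. -/
def ovR (n q r : ℕ) : ℤ :=
  ∑ i ∈ range (n + 1),
    if i ≤ q then (-2) ^ (n - i) * (n.choose i : ℤ) * (r.choose (q - i) : ℤ) * 4 ^ (q - i) else 0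

/-- Fast form of `ovR`. -/
def ovI (n q r : ℕ) : ℤ :=
  Int.ofNat ((((2 ^ (2 * n + 3 * r + 2) - 2) ^ n * (1 + 4 * 2 ^ (2 * n + 3 * r + 2)) ^ r
    + 2 ^ (2 * n + 3 * r + 1) * ((2 ^ ((2 * n + 3 * r + 2) * (n + r + q + 1)) - 1)
        / (2 ^ (2 * n + 3 * r + 2) - 1)))
      / 2 ^ ((2 * n + 3 * r + 2) * q)) % 2 ^ (2 * n + 3 * r + 2)) - Int.ofNat (2 ^ (2 * n + 3 * r + 1))

section Poly
open Polynomial

theorem coeff_one_add_four_pow (r k : ℕ) :
    ((1 + C 4 * X : ℤ[X]) ^ r).coeff k = (r.choose k : ℤ) * 4 ^ k := by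
  rw [add_comm, add_pow, finsetSum_coeff]
  simp only [one_pow, mul_one, mul_pow, ← C_pow, coeff_mul_natCast, coeff_C_mul, coeff_X_pow]
  rw [sum_eq_single k]
  · simp [mul_comm]
  · intro b _ hb
    simp [Ne.symm hb]
  · intro hk
    simp only [Finset.mem_range, not_lt] at hk
    simp [Nat.choose_eq_zero_of_lt (show r < k by omega)]

theorem coeff_ovPoly (n q r : ℕ) :
    ((X + C (-2) : ℤ[X]) ^ n * (1 + C 4 * X) ^ r).coeff q = ovR n q r := by
  rw [coeff_mul, Finset.Nat.sum_antidiagonal_eq_sum_range_succ_mk]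
  simp only [coeff_X_add_C_pow, coeff_one_add_four_pow, ovR]
  rw [← sum_filter, ← sum_subset (s₁ := (range (n + 1)).filter (fun i => i ≤ q))
    (s₂ := range q.succ)]
  · refine sum_congr rfl fun i _ => ?_
    ring
  · intro i hi
    simp only [Finset.mem_filter, Finset.mem_range] at hi ⊢
    omega
  · intro i hi hn
    simp only [Finset.mem_filter, Finset.mem_range] at hi hn
    simp [Nat.choose_eq_zero_of_lt (show n < i by omega)]

theorem abs_ovR_le (n q r : ℕ) : |ovR n q r| ≤ (3 ^ n * 5 ^ r : ℤ) := by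
  refine (abs_sum_le_sum_abs _ _).trans ?_
  have h3 : (3 : ℤ) ^ n = ∑ i ∈ range (n + 1), 2 ^ (n - i) * (n.choose i : ℤ) := by
    rw [show (3 : ℤ) = 1 + 2 by norm_num, add_pow]
    simp
  rw [h3, sum_mul]
  refine sum_le_sum fun i _ => ?_
  split_ifs
  · rw [abs_mul, abs_mul, abs_mul, abs_pow, abs_pow, Nat.abs_cast, Nat.abs_cast,
      show |(-2 : ℤ)| = 2 by norm_num, show |(4 : ℤ)| = 4 by norm_num, mul_assoc]
    refine mul_le_mul_of_nonneg_left ?_ (by positivity)
    rcases le_or_gt (q - i) r with hk | hk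
    · have h5 : (5 : ℤ) ^ r = ∑ k ∈ range (r + 1), 4 ^ k * (r.choose k : ℤ) := by
        rw [show (5 : ℤ) = 4 + 1 by norm_num, add_pow]
        simp
      rw [h5, mul_comm]
      exact single_le_sum (f := fun k => (4 : ℤ) ^ k * (r.choose k : ℤ))
        (fun k _ => by positivity) (Finset.mem_range.2 (by omega))
    · rw [Nat.choose_eq_zero_of_lt hk]
      simp
  · rw [abs_zero]
    positivity

theorem ovI_eq (n q r : ℕ) : ovI n q r = ovR n q r := by
  unfold ovI
  set e := 2 * n + 3 * r + 1 with he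
  set B := 2 ^ (e + 1) with hB
  have hBH : B = 2 ^ e + 2 ^ e := by rw [hB, pow_succ]; ring
  have hH : (3 : ℤ) ^ n * 5 ^ r < 2 ^ e := by
    rw [he, pow_add, pow_add, pow_mul, pow_mul, pow_one]
    have : (3 : ℤ) ^ n * 5 ^ r ≤ (2 ^ 2) ^ n * (2 ^ 3) ^ r :=
      mul_le_mul (pow_le_pow_left₀ (by norm_num) (by norm_num) _)
        (pow_le_pow_left₀ (by norm_num) (by norm_num) _) (by positivity) (by positivity)
    have h0 : (0 : ℤ) < (2 ^ 2) ^ n * (2 ^ 3) ^ r := by positivity
    linarith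
  set D := n + r + q + 1 with hD
  have hdeg : ((X + C (-2) : ℤ[X]) ^ n * (1 + C 4 * X) ^ r).natDegree < D := by
    refine lt_of_le_of_lt natDegree_mul_le ?_
    have h1 : ((X + C (-2) : ℤ[X]) ^ n).natDegree ≤ n := by
      refine natDegree_pow_le.trans ?_
      rw [natDegree_X_add_C, mul_one]
    have h2 : ((1 + C 4 * X : ℤ[X]) ^ r).natDegree ≤ r := by
      refine natDegree_pow_le.trans ?_
      have : (1 + C 4 * X : ℤ[X]).natDegree ≤ 1 := by compute_degree
      calc r * _ ≤ r * 1 := Nat.mul_le_mul_left _ this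
        _ = r := mul_one r
    omega
  have heval := eval_eq_sum_range' hdeg (B : ℤ)
  simp only [coeff_ovPoly, eval_mul, eval_pow, eval_add, eval_X, eval_C, eval_one] at heval
  set a : ℕ → ℕ := fun i => (ovR n i r + 2 ^ e).toNat with ha
  have hpos : ∀ i, 0 ≤ ovR n i r + 2 ^ e := fun i => by
    have := abs_le.1 (abs_ovR_le n i r)
    linarith [this.1]
  have hcast : ∀ i, (a i : ℤ) = ovR n i r + 2 ^ e := fun i => Int.toNat_of_nonneg (hpos i)
  have hlt : ∀ i, a i < B := fun i => by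
    have h1 := abs_le.1 (abs_ovR_le n i r)
    have : (a i : ℤ) < (B : ℤ) := by
      rw [hcast, hBH]
      push_cast
      linarith [h1.2]
    exact_mod_cast this
  have hB2 : 2 ≤ B := by
    rw [hB, pow_succ]
    have := Nat.one_le_two_pow (n := e)
    omega
  have hgeo : (2 ^ ((e + 1) * D) - 1) / (B - 1) = ∑ i ∈ range D, B ^ i := by
    rw [Nat.geomSum_eq hB2, show 2 ^ ((e + 1) * D) = B ^ D by rw [hB, ← pow_mul]]
  have hP : (B - 2) ^ n * (1 + 4 * B) ^ r + 2 ^ e * ∑ i ∈ range D, B ^ i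
      = ∑ i ∈ range D, a i * B ^ i := by
    have : (((B - 2) ^ n * (1 + 4 * B) ^ r + 2 ^ e * ∑ i ∈ range D, B ^ i : ℕ) : ℤ)
        = ((∑ i ∈ range D, a i * B ^ i : ℕ) : ℤ) := by
      push_cast [Nat.cast_sub hB2, hcast]
      rw [sub_eq_add_neg, heval, mul_sum, ← sum_add_distrib]
      exact sum_congr rfl fun i _ => by ring
    exact_mod_cast this
  rw [hgeo, hP, show 2 ^ ((e + 1) * q) = B ^ q by rw [hB, ← pow_mul],
    digit_sum (by omega) q D a (by omega) hlt]
  simp only [Int.ofNat_eq_natCast, hcast]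
  push_cast
  ring

end Poly

end P359.Chk
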