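import Vale.Agent.P359.CertBlocksA
import Vale.Agent.P359.CertBlocksB
import Vale.Agent.P359.CertBlocksC
import Vale.Agent.P359.CertBlocksD
import Vale.Agent.P359.CertBlocksE

/-!
P359: every planar block of weight at most 88 is positive.
-/

namespace P359

theorem cert_blocks : ∀ L, 1 ≤ L → L ≤ 88 → cert.BlockPos L := by
  intro L h1 h2
  interval_cases L
  · exact cert_block1
  · exact cert_block2
  · exact cert_block3
  · exact cert_block4
  · exact cert_block5
  · exact cert_block6
  · exact cert_block7
  · exact cert_block8
  · exact cert_block9
  · exact cert_block10
  · exact cert_block11
  · exact cert_block12
  · exact cert_block13
  · exact cert_block14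
  · exact cert_block15
  · exact cert_block16
  · exact cert_block17
  · exact cert_block18
  · exact cert_block19
  · exact cert_block20
  · exact cert_block21
  · exact cert_block22
  · exact cert_block23
  · exact cert_block24
  · exact cert_block25
  · exact cert_block26
  · exact cert_block27
  · exact cert_block28
  · exact cert_block29
  · exact cert_block30
  · exact cert_block31
  · exact cert_block32
  · exact cert_block33
  · exact cert_block34
  · exact cert_block35
  · exact cert_block36
  · exact cert_block37
  · exact cert_block38
  · exact cert_block39
  · exact cert_block40
  · exact cert_block41
  · exact cert_block42
  · exact cert_block43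
  · exact cert_block44
  · exact cert_block45
  · exact cert_block46
  · exact cert_block47
  · exact cert_block48
  · exact cert_block49
  · exact cert_block50
  · exact cert_block51
  · exact cert_block52
  · exact cert_block53
  · exact cert_block54
  · exact cert_block55
  · exact cert_block56
  · exact cert_block57
  · exact cert_block58
  · exact cert_block59
  · exact cert_block60
  · exact cert_block61
  · exact cert_block62
  · exact cert_block63
  · exact cert_block64
  · exact cert_block65
  · exact cert_block66
  · exact cert_block67
  · exact cert_block68
  · exact cert_block69
  · exact cert_block70
  · exact cert_block71
  · exact cert_block72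
  · exact cert_block73
  · exact cert_block74
  · exact cert_block75
  · exact cert_block76
  · exact cert_block77
  · exact cert_block78
  · exact cert_block79
  · exact cert_block80
  · exact cert_block81
  · exact cert_block82
  · exact cert_block83
  · exact cert_block84
  · exact cert_block85
  · exact cert_block86
  · exact cert_block87
  · exact cert_block88

end P359
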