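import Vale.Agent.P359.PlanarTools

/-!
P359: positivity from rounded integer witnesses.
-/

namespace P359.Chk

open Finset Matrix
open scoped BigOperators

/-- Signed entry number `i` of width `w` of a packed natural number. -/
def getI (P w i : ℕ) : ℤ := Int.ofNat (P / 2 ^ (w * i) % 2 ^ w) - Int.ofNat (2 ^ (w - 1))

/-- Entry `(i,j)` of a packed symmetric matrix. -/
def getS (P w i j : ℕ) : ℤ := getI P w (max i j * (max i j + 1) / 2 + min i j)

theorem getS_comm (P w i j : ℕ) : getS P w i j = getS P w j i := by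
  simp [getS, max_comm, min_comm]

/-- Entry `(q,i)` of a packed upper triangular matrix. -/
def getT (P w q i : ℕ) : ℤ := if q ≤ i then getI P w (i * (i + 1) / 2 + q) else 0

/-- Integer residual. -/
def resid (k Pa Pr : ℕ) (i j : ℕ) : ℤ :=
  getS Pa 128 i j - ∑ q ∈ range (min i j + 1), getT Pr 80 q i * getT Pr 80 q j
    - if i = j then (k : ℤ) else 0

/-- Strict diagonal dominance of the residual. -/
def domOK (k Pa Pr : ℕ) : Bool :=
  (List.range k).all fun i =>
    decide (∑ j ∈ range k, |resid k Pa Pr i j| < 2 * resid k Pa Pr i i)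

/-- The rounded matrix less `k`. -/
noncomputable def rounded (k Pa : ℕ) : Matrix (Fin k) (Fin k) ℝ := fun i j =>
  (getS Pa 128 i j : ℝ) - if i = j then (k : ℝ) else 0

theorem rounded_pos {k Pa Pr : ℕ} (h : domOK k Pa Pr = true) (u : Fin k → ℝ) :
    nsq u ≤ quad (rounded k Pa) u := by
  have hd := fun i : Fin k => of_decide_eq_true (List.all_eq_true.1 h i (List.mem_range.2 i.isLt))
  set R : Matrix (Fin k) (Fin k) ℝ := fun q i => (getT Pr 80 q i : ℝ) with hR
  have hE : ∀ i j : Fin k, (rounded k Pa - Rᵀ * R) i j = (resid k Pa Pr i j : ℝ) := by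
    intro i j
    have hs : ∑ q : Fin k, getT Pr 80 q i * getT Pr 80 q j
        = ∑ q ∈ range (min (i : ℕ) j + 1), getT Pr 80 q i * getT Pr 80 q j := by
      rw [Fin.sum_univ_eq_sum_range (fun q => getT Pr 80 q i * getT Pr 80 q j) k]
      refine (sum_subset ?_ fun q _ hq => ?_).symm
      · intro q hq
        simp only [mem_range] at hq ⊢
        omega
      · simp only [mem_range] at hq
        rcases le_or_gt (i : ℕ) j with h1 | h1
        · rw [getT, if_neg (by omega), zero_mul]
        · simp [getT, show ¬ q ≤ (j : ℕ) by omega]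
    have hm : (Rᵀ * R) i j
        = ((∑ q : Fin k, getT Pr 80 q i * getT Pr 80 q j : ℤ) : ℝ) := by
      rw [Matrix.mul_apply, Int.cast_sum]
      refine sum_congr rfl fun q _ => ?_
      rw [Matrix.transpose_apply, Int.cast_mul]
    rw [Matrix.sub_apply, hm, hs]
    simp only [rounded, resid, Fin.ext_iff]
    split_ifs <;> push_cast <;> ring
  refine le_trans (by rw [one_mul]) (quad_lower_of_dominant (c := 1) R (fun i j => ?_) (fun i => ?_) u)
  · simp only [rounded, getS_comm Pa 128 (i : ℕ) j, eq_comm (a := i)]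
  · simp only [hE]
    have h1 := hd i
    rw [← Fin.sum_univ_eq_sum_range (fun j => |resid k Pa Pr i j|) k,
      ← add_sum_erase _ _ (mem_univ i)] at h1
    have h2 : 0 ≤ |resid k Pa Pr i i| := abs_nonneg _
    have h3 : (0 : ℤ) ≤ ∑ x ∈ univ.erase i, |resid k Pa Pr i x| :=
      sum_nonneg fun _ _ => abs_nonneg _
    have h4 : 0 < resid k Pa Pr i i := by omega
    rw [abs_of_pos h4] at h1
    have h5 : (1 : ℤ) + ∑ x ∈ univ.erase i, |resid k Pa Pr i x| ≤ resid k Pa Pr i i := by omega
    exact_mod_cast h5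

/-- A rounded matrix bounds the original from below. -/
theorem quad_round {k Pa : ℕ} (A : Matrix (Fin k) (Fin k) ℝ) (s : Fin k → ℝ)
    (h : ∀ i j, |A i j - (getS Pa 128 i j : ℝ) * (s i * s j)| ≤ s i * s j) (z : Fin k → ℝ)
    (hs : ∀ i, 0 ≤ s i) :
    quad (rounded k Pa) (fun i => s i * z i) ≤ quad A z := by
  have h1 : quad A z - quad (rounded k Pa) (fun i => s i * z i)
      = (∑ i, ∑ j, z i * ((A i j - (getS Pa 128 i j : ℝ) * (s i * s j)) * z j))
        + (k : ℝ) * ∑ i, (s i * z i) ^ 2 := by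
    simp only [quad, dotProduct, mulVec, rounded, mul_sum]
    rw [← sum_sub_distrib, ← sum_add_distrib]
    refine sum_congr rfl fun i _ => ?_
    have e : (k : ℝ) * (s i * z i) ^ 2
        = ∑ j, if i = j then s i * z i * ((k : ℝ) * (s j * z j)) else 0 := by
      simp [sum_ite_eq]
      ring
    rw [e, ← sum_sub_distrib, ← sum_add_distrib]
    refine sum_congr rfl fun j _ => ?_
    by_cases hij : i = j
    · subst hij
      simp only [if_true]
      ring
    · rw [if_neg hij, if_neg hij]
      ring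
  have h2 : -(∑ i, |s i * z i|) ^ 2
      ≤ ∑ i, ∑ j, z i * ((A i j - (getS Pa 128 i j : ℝ) * (s i * s j)) * z j) := by
    rw [sq, sum_mul_sum, ← sum_neg_distrib]
    refine sum_le_sum fun i _ => ?_
    rw [← sum_neg_distrib]
    refine sum_le_sum fun j _ => ?_
    rw [abs_mul, abs_mul, abs_of_nonneg (hs i), abs_of_nonneg (hs j)]
    have h3 := mul_le_mul_of_nonneg_right (h i j) (mul_nonneg (abs_nonneg (z i)) (abs_nonneg (z j)))
    rw [← abs_mul, ← abs_mul] at h3
    have h4 := neg_abs_le ((A i j - (getS Pa 128 i j : ℝ) * (s i * s j)) * (z i * z j))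
    rw [abs_mul (z i)] at h3
    linarith [show z i * ((A i j - (getS Pa 128 i j : ℝ) * (s i * s j)) * z j)
      = (A i j - (getS Pa 128 i j : ℝ) * (s i * s j)) * (z i * z j) by ring]
  have h5 : (∑ i, |s i * z i|) ^ 2 ≤ (k : ℝ) * ∑ i, (s i * z i) ^ 2 := by
    have := sq_sum_le_card_mul_sum_sq (s := (univ : Finset (Fin k))) (f := fun i => |s i * z i|)
    simpa [mul_pow, sq_abs] using this
  linarith

theorem nsq_scale {k : ℕ} (s : Fin k → ℝ) (hs : ∀ i, 1 ≤ s i) (z : Fin k → ℝ) :
    nsq z ≤ nsq (fun i => s i * z i) := by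
  simp only [nsq, dotProduct]
  refine sum_le_sum fun i _ => ?_
  have h1 : 1 ≤ s i * s i := by nlinarith [hs i]
  nlinarith [mul_self_nonneg (z i)]

end P359.Chk
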