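import Vale.Agent.P359.CertDefs

/-!
P359: closed forms of the planar quantities, for the certificate checker.

* `pCoord`: two partial binomial sums;
* `pTriDot`: a single sum.
-/

namespace P359

open Finset
open scoped BigOperators

theorem sector_one {L j a b e : ℕ} (hj : j ≤ L) (h : a + b + e = L) :
    ∑ i ∈ range (a + 1), ((b + i).choose i : ℚ) * ((e + (a - i)).choose (a - i) : ℚ)
        * (if b + i = j then 1 else 0)
      = (j.choose b : ℚ) * (L - j).choose e := by
  by_cases hc : b ≤ j ∧ e ≤ L - j
  · rw [sum_eq_single (j - b)]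
    · rw [if_pos (by omega), show b + (j - b) = j by omega,
        show e + (a - (j - b)) = L - j by omega, mul_one,
        ← Nat.choose_symm (show j - b ≤ j by omega), show j - (j - b) = b by omega,
        ← Nat.choose_symm (show a - (j - b) ≤ L - j by omega),
        show L - j - (a - (j - b)) = e by omega]
    · intro i _ hi
      rw [if_neg (by omega), mul_zero]
    · intro hn
      simp only [mem_range] at hn
      omega
  · rw [sum_eq_zero]
    · rcases le_or_gt b j with hb | hb
      · rw [Nat.choose_eq_zero_of_lt (show L - j < e by omega), Nat.cast_zero, mul_zero]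
      · rw [Nat.choose_eq_zero_of_lt hb, Nat.cast_zero, zero_mul]
    · intro i hi
      rw [mem_range] at hi
      rw [if_neg (by omega), mul_zero]

theorem sectorCoef_ext {L j a b e : ℕ} (hj : 2 * j < L) (h : a + b + e = L) :
    sectorCoef L (Cert.extBasis L j) a b e
      = (-1) ^ a * ((j.choose b : ℚ) * (L - j).choose e
          - ((L - j).choose b : ℚ) * j.choose e) := by
  rw [sectorCoef, if_pos h]
  congr 1
  have e1 := sector_one (a := a) (b := b) (e := e) (show j ≤ L by omega) h
  have e2 := sector_one (a := a) (b := b) (e := e) (show L - j ≤ L by omega) h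
  rw [show L - (L - j) = j by omega] at e2
  rw [← e1, ← e2, ← sum_sub_distrib]
  refine sum_congr rfl fun i hi => ?_
  rw [mem_range] at hi
  simp only [Cert.extBasis]
  by_cases h1 : b + i = j
  · rw [if_pos h1, if_pos h1, if_neg (show ¬ b + i = L - j by omega)]
    ring
  · by_cases h2 : b + i + j = L
    · rw [if_neg h1, if_pos h2, if_neg h1, if_pos (show b + i = L - j by omega)]
      ring
    · rw [if_neg h1, if_neg h2, if_neg h1, if_neg (show ¬ b + i = L - j by omega)]
      ring

/-- `∑_{b ≤ n} C(j,b) 2^b`. -/
def binPart (j n : ℕ) : ℕ := ∑ b ∈ range (n + 1), j.choose b * 2 ^ b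

/-- Closed form of the channel coordinate. -/
theorem pCoord_closed {L n j : ℕ} (hn : n ≤ L) (hj : 2 * j < L) :
    Cert.pCoord L n j = (-1) ^ L * (n.factorial : ℚ) / 2 ^ n
      * (((L - j).choose (L - n) : ℚ) * binPart j n
          - (j.choose (L - n) : ℚ) * binPart (L - j) n) := by
  unfold Cert.pCoord binPart
  have h : ∀ a ∈ range (n + 1),
      (-1 : ℚ) ^ (n - a) * (n.choose a : ℚ) * sectorCoef L (Cert.extBasis L j) a (n - a) (L - n)
        * (a.factorial * (n - a).factorial) / 2 ^ a
      = (-1) ^ n * (n.factorial : ℚ) / 2 ^ n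
        * ((((L - j).choose (L - n) : ℚ) * j.choose (n - a)
          - (j.choose (L - n) : ℚ) * (L - j).choose (n - a)) * 2 ^ (n - a)) := by
    intro a ha
    rw [mem_range] at ha
    have ha' : a ≤ n := by omega
    rw [sectorCoef_ext hj (by omega), ← Nat.choose_mul_factorial_mul_factorial ha',
      show (2 : ℚ) ^ n = 2 ^ a * 2 ^ (n - a) by rw [← pow_add, Nat.add_sub_cancel' ha'],
      show (-1 : ℚ) ^ n = (-1) ^ (n - a) * (-1) ^ a by rw [← pow_add, Nat.sub_add_cancel ha']]
    push_cast
    field_simp
  rw [sum_congr rfl h, ← mul_sum]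
  have hs : ∀ c d : ℚ, ∑ a ∈ range (n + 1),
      (c * (j.choose (n - a) : ℚ) - d * ((L - j).choose (n - a) : ℚ)) * 2 ^ (n - a)
      = c * ((∑ b ∈ range (n + 1), j.choose b * 2 ^ b : ℕ) : ℚ)
        - d * ((∑ b ∈ range (n + 1), (L - j).choose b * 2 ^ b : ℕ) : ℚ) := by
    intro c d
    push_cast
    rw [← sum_range_reflect, mul_sum, mul_sum, ← sum_sub_distrib]
    refine sum_congr rfl fun b hb => ?_
    rw [mem_range] at hb
    rw [show n - (n + 1 - 1 - b) = b by omega]
    ring
  rw [hs, show (-1 : ℚ) ^ L = (-1) ^ (L - n) * (-1) ^ n by rw [← pow_add, Nat.sub_add_cancel hn]]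
  ring

/-- Numerator of the closed form of the overlap. -/
def ovNum (n q L : ℕ) : ℤ :=
  ∑ i ∈ range (n + 1),
    if i ≤ q then (-2) ^ (n - i) * (n.choose i : ℤ) * ((L - n).choose (q - i) : ℤ) * 4 ^ (q - i)
    else 0

theorem pOv_closed {n q L : ℕ} (hn : n ≤ L) (hq : q ≤ L) :
    pOv n q L = (q.factorial : ℚ) / (2 ^ n * 3 ^ (L - n)) * (ovNum n q L : ℚ) := by
  unfold pOv pChan ovNum
  simp only [mul_sum, sum_mul, sum_div]
  rw [sum_comm]
  push_cast
  rw [mul_sum]
  refine sum_congr rfl fun i hi => ?_
  rw [mem_range] at hi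
  by_cases hy : n - i ≤ L - q
  · -- `y = L - q - (n - i)` is the power of the impurity slot
    set y := L - q - (n - i) with hy'
    by_cases hiq : i ≤ q
    · rw [if_pos hiq]
      rw [← sum_range_add_sum_Ico _ (show i ≤ q + 1 by omega), sum_eq_zero (s := range i) (fun a ha => by
        rw [mem_range] at ha
        rw [if_neg (by omega)]
        simp), zero_add, sum_Ico_eq_sum_range]
      have hb : ∑ x ∈ range (q + 1 - i), ((q - i).choose x : ℚ) * 3 ^ (q - i - x)
          = 4 ^ (q - i) := by
        rw [show q + 1 - i = q - i + 1 by omega, show (4 : ℚ) = 1 + 3 by norm_num, add_pow]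
        refine sum_congr rfl fun x _ => ?_
        rw [one_pow]
        ring
      rw [show ((q.factorial : ℚ) / (2 ^ n * 3 ^ (L - n))) * ((-2) ^ (n - i) * (n.choose i : ℚ)
          * ((L - n).choose (q - i) : ℚ) * 4 ^ (q - i))
          = ((q.factorial : ℚ) / (2 ^ n * 3 ^ (L - n))) * ((-2) ^ (n - i) * (n.choose i : ℚ)
          * ((L - n).choose (q - i) : ℚ)) * 4 ^ (q - i) by ring, ← hb, mul_sum]
      refine sum_congr rfl fun x hx => ?_
      rw [mem_range] at hx
      have hm : i + x + (L - q) - n = x + y := by omega
      rw [hm, if_pos (by omega), show i + x - i = x by omega]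
      rcases le_or_gt (x + y) (L - n) with hle | hgt
      · have hc : ((L - n).choose (x + y) : ℚ) * (x + y).choose x
            = (L - n).choose (q - i) * (q - i).choose x := by
          have hqi : q - i ≤ L - n := by omega
          have h1 := Nat.choose_mul (n := L - n) (k := q - i) (s := x) (by omega)
          have h2 := Nat.choose_mul (n := L - n) (k := x + y) (s := x) (by omega)
          rw [show x + y - x = y by omega] at h2
          rw [show (L - n - x).choose (q - i - x) = (L - n - x).choose y by
            rw [← Nat.choose_symm (show q - i - x ≤ L - n - x by omega)]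
            congr 1
            omega] at h1
          have := h2.trans h1.symm
          exact_mod_cast this
        have hf : (q.choose (i + x) : ℚ) * ((i + x).factorial * (q - (i + x)).factorial)
            = q.factorial := by
          rw [← mul_assoc]
          exact_mod_cast Nat.choose_mul_factorial_mul_factorial (show i + x ≤ q by omega)
        have hp : (3 : ℚ) ^ (L - n) = 3 ^ (x + y) * 3 ^ (q - i - x) := by
          rw [← pow_add]; congr 1; omega
        have h2n : (2 : ℚ) ^ n = 2 ^ (n - i) * 2 ^ i := by
          rw [← pow_add]; congr 1; omega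
        rw [hp, h2n, ← hf, div_pow, div_pow, one_pow, pow_add (3 : ℚ) x y,
          pow_add (2 : ℚ) i x,
          show (-2 : ℚ) ^ (n - i) = (-1) ^ (n - i) * 2 ^ (n - i) by rw [← mul_pow]; norm_num]
        field_simp
        linear_combination ((q.choose (i + x) : ℚ) * (n.choose i : ℚ)) * hc
      · exfalso
        omega
    · rw [if_neg hiq, mul_zero]
      refine sum_eq_zero fun a ha => ?_
      rw [mem_range] at ha
      rw [if_neg (by omega)]
      simp
  · rw [sum_eq_zero]
    · split_ifs with hiq
      · rw [Nat.choose_eq_zero_of_lt (show L - n < q - i by omega)]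
        simp
      · simp
    · intro a ha
      rw [mem_range] at ha
      rw [if_neg (by omega)]
      simp

/-- Closed form of the triple overlap. -/
theorem pTriDot_closed {n q L : ℕ} (hn : n ≤ L) (hq : q ≤ L) :
    pTriDot n q L = (-1) ^ (L - q) * ((L - q).factorial : ℚ) * (4 / 3) ^ (L - q)
      * (q.factorial : ℚ) / (2 ^ n * 3 ^ (L - n)) * (ovNum n q L : ℚ) := by
  rw [pTriDot, pOv_closed hn hq, pNorm, show (1 / (3 : ℚ) + 1) = 4 / 3 by norm_num]
  ring

end P359
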