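import Vale.Agent.P359.CertDefs

/-!
P359: a nonnegative channel kernel implies a strictly positive block (for large weights, where
the rank one `restK` part is not needed).
-/

namespace P359

open Matrix Finset
open scoped BigOperators

namespace Cert

variable (C : Cert)

/-- Size of the channel kernel in weight `L`. -/
def kdim (L : ℕ) : ℕ := min L C.N0 + 1

/-- The channel kernel in weight `L`. -/
def kerMat (L : ℕ) : Matrix (Fin (C.kdim L)) (Fin (C.kdim L)) ℚ := fun n m => C.pKer L n m

/-- The channel kernel is positive semidefinite. -/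
def KerPos (L : ℕ) : Prop :=
  ∀ u : Fin (C.kdim L) → ℝ, 0 ≤ quad (fun n m => (C.kerMat L n m : ℝ)) u

variable {C}

theorem margin_pos (hV : C.Valid) (L : ℕ) : 0 < C.margin L := by
  have h1 := hV.eps2
  have h2 := hV.t2
  have : (0 : ℚ) < 1 - 2 * C.t2 := by linarith
  unfold margin
  positivity

/-- A nonnegative channel kernel gives a strictly positive block. -/
theorem blockPos_of_kerPos (hV : C.Valid) {L : ℕ} (h : C.KerPos L) : C.BlockPos L := by
  have hm : (0 : ℝ) < C.margin L := by exact_mod_cast margin_pos hV L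
  refine ⟨C.margin L, hm, fun y => ?_⟩
  set u : Fin (C.kdim L) → ℝ := fun n => ∑ i : Fin (bdim L), (pCoord L n i : ℝ) * y i with hu
  have e : quad (fun i j => (C.block L i j : ℝ)) y
      = ((L - 1).factorial : ℝ) * (∑ i : Fin (bdim L), (2 * (i : ℝ) - L) * y i) ^ 2
        + quad (fun n m => (C.kerMat L n m : ℝ)) u
        + ∑ i : Fin (bdim L),
            (C.margin L : ℝ) * ((i : ℕ).factorial * (L - i).factorial) * y i ^ 2 := by
    simp only [quad, dotProduct, mulVec, block, kerMat, Rat.cast_add, Rat.cast_sum, Rat.cast_mul,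
      Rat.cast_sub, Rat.cast_natCast, Rat.cast_ofNat, apply_ite (Rat.cast : ℚ → ℝ),
      Rat.cast_zero, add_mul, sum_add_distrib, mul_add]
    congr 1
    · congr 1
      · simp only [sq, mul_sum, sum_mul]
        rw [sum_comm]
        refine sum_congr rfl fun i _ => sum_congr rfl fun j _ => ?_
        ring
      · simp only [hu, kdim, mul_sum, sum_mul]
        rw [sum_congr rfl fun i _ => sum_comm, sum_comm]
        rw [← Fin.sum_univ_eq_sum_range (fun n => ∑ i : Fin (bdim L), ∑ j : Fin (bdim L),
          ∑ m ∈ range (min L C.N0 + 1),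
            y i * ((C.pKer L n m : ℝ) * (pCoord L n i : ℝ) * (pCoord L m j : ℝ) * y j))
          (min L C.N0 + 1)]
        refine sum_congr rfl fun n _ => ?_
        rw [sum_congr rfl fun i _ => sum_comm, sum_comm]
        rw [← Fin.sum_univ_eq_sum_range (fun m => ∑ i : Fin (bdim L), ∑ j : Fin (bdim L),
            y i * ((C.pKer L n m : ℝ) * (pCoord L n i : ℝ) * (pCoord L m j : ℝ) * y j))
          (min L C.N0 + 1)]
        refine sum_congr rfl fun m _ => ?_
        rw [sum_comm]
        refine sum_congr rfl fun i _ => sum_congr rfl fun j _ => ?_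
        ring
    · refine sum_congr rfl fun i _ => ?_
      simp only [ite_mul, zero_mul, sum_ite_eq, mem_univ, if_true]
      ring
  rw [e]
  have h1 : (0 : ℝ) ≤ ((L - 1).factorial : ℝ)
      * (∑ i : Fin (bdim L), (2 * (i : ℝ) - L) * y i) ^ 2 := by positivity
  have h2 := h u
  have h3 : (C.margin L : ℝ) * nsq y ≤ ∑ i : Fin (bdim L),
      (C.margin L : ℝ) * ((i : ℕ).factorial * (L - i).factorial) * y i ^ 2 := by
    rw [nsq, dotProduct, mul_sum]
    refine sum_le_sum fun i _ => ?_
    have hf : (1 : ℝ) ≤ ((i : ℕ).factorial * (L - i).factorial : ℝ) := by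
      exact_mod_cast Nat.one_le_iff_ne_zero.2 (Nat.mul_ne_zero (Nat.factorial_ne_zero _)
        (Nat.factorial_ne_zero _))
    have hy : (0 : ℝ) ≤ (C.margin L : ℝ) * y i ^ 2 := by positivity
    nlinarith [mul_le_mul_of_nonneg_left hf hy]
  linarith

end Cert

end P359
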