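import Vale.Agent.P359.OverlapBound
import Vale.Agent.P359.HighestWeight

/-!
P359, piece C4b: the overlap formula and bound without hypotheses.
-/

namespace P359

open Finset Matrix
open scoped BigOperators Kronecker

/-- Exchange of the two electrons in `(Two A B) × electron`. -/
def swapPairEl (A B : ℕ) : Two A B × Fin (B + 1) ≃ Two A B × Fin (B + 1) where
  toFun p := ((p.1.1, p.2), p.1.2)
  invFun p := ((p.1.1, p.2), p.1.2)
  left_inv _ := rfl
  right_inv _ := rfl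

theorem jsum_swapPairEl (A B : ℕ) :
    (jsum (raise2 A B) (raise B)).submatrix (swapPairEl A B) (swapPairEl A B)
      = jsum (raise2 A B) (raise B) := by
  ext ⟨⟨a, b⟩, e⟩ ⟨⟨a', b'⟩, e'⟩
  simp only [jsum, Matrix.submatrix_apply, swapPairEl, Equiv.coe_fn_mk, Matrix.add_apply,
    kroneckerMap_apply, raise2, Matrix.one_apply, Prod.mk.injEq]
  split_ifs <;> simp_all <;> ring

theorem pull4_tri3_hw {A B n q r r' : ℕ} (hnA : n ≤ A) (hnB : n ≤ B) (hqA : q ≤ A) (hqB : q ≤ B)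
    (hrD : r ≤ A + B - 2 * n) (hrB : r ≤ B) (h : n + r = q + r') :
    ∃ c : ℝ, pull4 A B q (tri3 A B n r) = c • hwVec (A + B - 2 * q) B r' := by
  set D := A + B - 2 * n with hD
  set D' := A + B - 2 * q with hD'
  have hn := chan_intertwines (A := A) (B := B) (D := D) (n := n) (by omega) hnA hnB
  have hq := chan_intertwines (A := A) (B := B) (D := D') (n := q) (by omega) hqA hqB
  have k1 := hn.kronRight (w'' := (Fin.val : Fin (B + 1) → ℕ)) (J'' := raise B)
  have k2 := hq.transpose.kronRight (w'' := (Fin.val : Fin (B + 1) → ℕ)) (J'' := raise B)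
  set u := (chan A B D n ⊗ₖ (1 : Matrix (Fin (B + 1)) (Fin (B + 1)) ℝ)) *ᵥ hwVec D B r with hu
  have hu0 : jsum (raise2 A B) (raise B) *ᵥ u = 0 :=
    k1.mulVec_ker (by rw [← raise2_eq_jsum]; exact hwVec_ker hrD hrB)
  have hus : Supp (fun p : Two A B × Fin (B + 1) => wt2 p.1 + (p.2 : ℕ)) (n + r) u :=
    k1.supp (by push_cast; ring) (hwVec_supp D B r)
  have hs0 : jsum (raise2 A B) (raise B) *ᵥ (u ∘ swapPairEl A B) = 0 := by
    conv_lhs => rw [← jsum_swapPairEl]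
    rw [Matrix.submatrix_mulVec_equiv, Function.comp_assoc]
    simp [hu0]
  have hss : Supp (fun p : Two A B × Fin (B + 1) => wt2 p.1 + (p.2 : ℕ)) (n + r)
      (u ∘ swapPairEl A B) := by
    intro p hp
    refine hus _ fun h' => hp ?_
    simp only [swapPairEl, Equiv.coe_fn_mk, wt2] at h' ⊢
    omega
  set w := ((chan A B D' q)ᵀ ⊗ₖ (1 : Matrix (Fin (B + 1)) (Fin (B + 1)) ℝ)) *ᵥ (u ∘ swapPairEl A B)
    with hw
  have hw0 : raise2 D' B *ᵥ w = 0 := by
    rw [raise2_eq_jsum]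
    exact k2.mulVec_ker hs0
  have hws : Supp wt2 r' w := k2.supp (by omega) hss
  have e : pull4 A B q (tri3 A B n r) = w := by
    funext ⟨m, b⟩
    simp only [hw, hu, pull4, tri3, mulVec, dotProduct, Fintype.sum_prod_type, kroneckerMap_apply,
      Matrix.transpose_apply, Matrix.one_apply, Function.comp_apply, swapPairEl, Equiv.coe_fn_mk,
      mul_ite, mul_one, mul_zero, ite_mul, zero_mul, sum_ite_eq, mem_univ, if_true]
    rfl
  exact ⟨_, e.trans (hw_unique hws hw0)⟩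

theorem nsq_tri4 (A B n r : ℕ) : nsq (tri4 A B n r) = nsq (tri3 A B n r) := by
  unfold nsq dotProduct tri4
  simp only [Fintype.sum_prod_type]
  exact sum_congr rfl fun a _ => sum_comm

/-- `‖F_n‖²`. -/
theorem nsq_tri3_eq {A B n r : ℕ} (hA : n ≤ A) (hB : n ≤ B) :
    nsq (tri3 A B n r) = nsq (hwVec A B n) * nsq (hwVec (A + B - 2 * n) B r) :=
  nsq_tri3 (chan_gram (by omega) hA hB)

theorem tri_dot_symm (A B n q r r' : ℕ) :
    tri3 A B q r' ⬝ᵥ tri4 A B n r = tri3 A B n r ⬝ᵥ tri4 A B q r' := by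
  unfold dotProduct tri4
  simp only [Fintype.sum_prod_type]
  refine sum_congr rfl fun a _ => sum_comm.trans (sum_congr rfl fun b _ => sum_congr rfl fun e _ => ?_)
  ring

/-- Exact overlap of channel `n` on electron 3 and channel `q` on electron 4 at weight `L`. -/
theorem overlap_eq {A B n q L : ℕ} (hnA : n ≤ A) (hqA : q ≤ A) (hnB : n ≤ B) (hqB : q ≤ B)
    (hL : n + q ≤ L) (hn : L - n ≤ B) (hq : L - q ≤ B) (hr : L - n ≤ A + B - 2 * n) :
    tri3 A B n (L - n) ⬝ᵥ tri4 A B q (L - q) =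
      (-1 : ℝ) ^ (L - q) * nsq (hwVec (A + B - 2 * q) B (L - q)) * ovSum A B n q L :=
  tri3_dot_tri4_eq hqA hqB hL hq hr (pull4_tri3_hw hnA hnB hqA hqB hr hn (by omega))

theorem ovBound_nonneg (n q L : ℕ) : 0 ≤ ovBound n q L := by
  unfold ovBound
  positivity

/-- C4b: uniform bound on the overlap. -/
theorem overlap_sq_le {A B n q L : ℕ} (hB : 10000 ≤ B) (hA1 : 2 * B ≤ A + 10) (hA2 : A ≤ 2 * B + 4)
    (hnq : n ≤ q) (hq : q ≤ 30) (hL : n + q ≤ L) (hL0 : 0 < L) (hLB : L ≤ B + n) :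
    (tri3 A B n (L - n) ⬝ᵥ tri4 A B q (L - q)) ^ 2 ≤
      ovBound n q L * nsq (tri3 A B n (L - n)) * nsq (tri4 A B q (L - q)) := by
  rw [overlap_eq (by omega) (by omega) (by omega) (by omega) hL (by omega) (by omega) (by omega),
    nsq_tri4, nsq_tri3_eq (by omega) (by omega), nsq_tri3_eq (by omega) (by omega)]
  have h := mul_le_mul_of_nonneg_left (ovSum_sq_le hB hA1 hA2 hnq hq hL hL0 hLB)
    (nsq_nonneg (hwVec (A + B - 2 * q) B (L - q)))
  calc _ = nsq (hwVec (A + B - 2 * q) B (L - q)) *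
        (ovSum A B n q L ^ 2 * nsq (hwVec (A + B - 2 * q) B (L - q))) := by
        rw [mul_pow, mul_pow, ← pow_mul, pow_mul', neg_one_sq, one_pow]; ring
    _ ≤ _ := h
    _ = _ := by ring

/-- Geometric decay of the bound in `L`. -/
theorem ovBound_succ_le {n q L : ℕ} (hL : n + q ≤ L) (hL0 : 0 < L) :
    ovBound n q (L + 1) ≤
      (336 / 1000 : ℝ) ^ 2 * (((L : ℝ) + 1) / L) ^ (2 * q) * ovBound n q L := by
  have hL' : (0 : ℝ) < L := by exact_mod_cast hL0
  unfold ovBound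
  rw [show 2 * (L + 1 - q - n) = 2 * (L - q - n) + 2 by omega, pow_add]
  push_cast
  have h1 : (1 + 17 * (q : ℝ) / (100 * ((L : ℝ) + 1))) ^ (2 * n)
      ≤ (1 + 17 * q / (100 * L)) ^ (2 * n) := by
    gcongr
    linarith
  have h2 : (76 / 100 / (((L + 1 - q : ℕ) : ℝ) + 1)) ^ (q - n)
      ≤ (76 / 100 / (((L - q : ℕ) : ℝ) + 1)) ^ (q - n) := by
    gcongr
    omega
  have e : (151 / 100 * ((L : ℝ) + 1)) ^ (2 * q)
      = (((L : ℝ) + 1) / L) ^ (2 * q) * (151 / 100 * L) ^ (2 * q) := by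
    rw [← mul_pow]; congr 1; field_simp
  rw [e, ← mul_div_assoc, div_le_div_iff_of_pos_right (by positivity)]
  calc _ ≤ (336 / 1000 : ℝ) ^ (2 * (L - q - n)) * (336 / 1000) ^ 2 *
        ((((L : ℝ) + 1) / L) ^ (2 * q) * (151 / 100 * L) ^ (2 * q)) *
        (1 + 17 * q / (100 * L)) ^ (2 * n) * (67 / 100) ^ (n + q) *
        (76 / 100 / (((L - q : ℕ) : ℝ) + 1)) ^ (q - n) := by gcongr
    _ = _ := by ring

end P359
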