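import Vale.Agent.P359.CertArith
import Vale.Agent.P359.CertRound
import Vale.Agent.P359.ClosedForms
import Vale.Agent.P359.KerPos
import Vale.Agent.P359.OverlapHW

/-!
P359: exact checker of the planar blocks.
-/

namespace P359

open Finset Matrix Filter Topology
open scoped BigOperators

theorem pTriDot_symm {n q L : ℕ} (hn : n ≤ L) (hq : q ≤ L) : pTriDot n q L = pTriDot q n L := by
  have hA : Tendsto (fun Q : ℕ => ((2 * Q + 0 - 0 : ℕ) : ℝ) / Q) atTop (𝓝 2) :=
    tendsto_two_mul_add_sub 0 0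
  have h1 := tendsto_overlap hA tendsto_self_div hn hq
  have h2 := tendsto_overlap hA tendsto_self_div hq hn
  have e : ∀ Q : ℕ, tri3 (2 * Q + 0 - 0) Q q (L - q) ⬝ᵥ tri4 (2 * Q + 0 - 0) Q n (L - n)
      = tri3 (2 * Q + 0 - 0) Q n (L - n) ⬝ᵥ tri4 (2 * Q + 0 - 0) Q q (L - q) :=
    fun Q => tri_dot_symm _ _ _ _ _ _
  simp only [e] at h2
  exact_mod_cast tendsto_nhds_unique h1 h2

namespace Chk

open Cert

/-- `(-1)^k x`. -/
def sg (k x : ℕ) : ℤ := if k % 2 = 0 then Int.ofNat x else -Int.ofNat x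

theorem sg_eq (k x : ℕ) : ((sg k x : ℤ) : ℚ) = (-1) ^ k * (x : ℚ) := by
  unfold sg
  rcases Nat.even_or_odd k with h | h
  · rw [if_pos (Nat.even_iff.1 h), h.neg_one_pow]
    simp
  · rw [if_neg (by rw [Nat.odd_iff.1 h]; omega), h.neg_one_pow]
    simp

/-- Overlap part of the scaled kernel. -/
def xker (N : ℕ) (G : ℕ → ℕ → ℕ → ℤ) (L n m : ℕ) : ℤ :=
  sg (L - m) ((L - m).factorial * 4 ^ (L - m) * 3 ^ (n + m) * (n.factorial * m.factorial)) *
    ∑ e ∈ range 5, if 2 ≤ n + e ∧ 2 ≤ m + e then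
      G e n m * Int.ofNat ((m + e - 2).factorial * 2 ^ (3 * N + 2 - (n + m + (n + e - 2)))) *
        ovI (n + e - 2) (m + e - 2) (L - n)
      else 0

/-- The common denominator. -/
def den (N L : ℕ) : ℕ := 2 ^ (160 + (3 * N + 2)) * 3 ^ (2 * L)

/-- Lower integer part of the scaled diagonal. -/
def kdiag (C : Cert) (L n : ℕ) : ℤ :=
  ⌊((if n ∈ killedCh then C.Λ else 0) + (C.margin L / 2 + C.v n * C.tailW L)) *
    (((L - n).factorial * n.factorial * 4 ^ (L - n) * 3 ^ L * 2 ^ (160 + (3 * C.N0 + 2 - n)) : ℕ)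
      : ℚ)⌋

/-- The scaled kernel. -/
def kmat (C : Cert) (G : ℕ → ℕ → ℕ → ℤ) (L n m : ℕ) : ℤ :=
  xker C.N0 G L n m + if n = m then kdiag C L n else 0

/-- The rounded kernel bounds the scaled one (upper triangle). -/
def kerRoundOK (C : Cert) (G : ℕ → ℕ → ℕ → ℤ) (L Sa Pa : ℕ) : Bool :=
  (List.range (min L C.N0 + 1)).all fun j => (List.range (j + 1)).all fun i =>
    decide (|kmat C G L i j - getS Pa 128 i j *
      Int.ofNat (2 ^ (Sa / 2 ^ (16 * i) % 2 ^ 16 + Sa / 2 ^ (16 * j) % 2 ^ 16))|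
      ≤ Int.ofNat (2 ^ (Sa / 2 ^ (16 * i) % 2 ^ 16 + Sa / 2 ^ (16 * j) % 2 ^ 16)))

/-- Integer channel coordinate. -/
def cint (L n j : ℕ) : ℤ :=
  Int.ofNat (fbinom (L - j) (L - n) * fbinPart j n)
    - Int.ofNat (fbinom j (L - n) * fbinPart (L - j) n)

/-- Scaled channel coordinate. -/
def wco (L Sa n j : ℕ) : ℤ := Int.ofNat (2 ^ (Sa / 2 ^ (16 * n) % 2 ^ 16)) * cint L n j

/-- Scaled lower bound of the block. -/
def bmat (C : Cert) (L Sa Pa i j : ℕ) : ℤ :=
  Int.ofNat (den C.N0 L * (L - 1).factorial) *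
      ((2 * Int.ofNat i - Int.ofNat L) * (2 * Int.ofNat j - Int.ofNat L))
    + (∑ n ∈ range (min L C.N0 + 1), wco L Sa n i * ∑ m ∈ range (min L C.N0 + 1),
        (getS Pa 128 n m - if n = m then Int.ofNat (min L C.N0 + 1) else 0) * wco L Sa m j)
    + if i = j then ⌊C.margin L * ((den C.N0 L * (i.factorial * (L - i).factorial) : ℕ) : ℚ)⌋
      else 0

/-- The rounded block bounds the scaled one (upper triangle). -/
def blockRoundOK (C : Cert) (L Sa Pa Sb Pb : ℕ) : Bool :=
  (List.range ((L + 1) / 2)).all fun j => (List.range (j + 1)).all fun i =>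
    decide (|bmat C L Sa Pa i j - getS Pb 128 i j *
      Int.ofNat (2 ^ (Sb / 2 ^ (16 * i) % 2 ^ 16 + Sb / 2 ^ (16 * j) % 2 ^ 16))|
      ≤ Int.ofNat (2 ^ (Sb / 2 ^ (16 * i) % 2 ^ 16 + Sb / 2 ^ (16 * j) % 2 ^ 16)))

variable {C : Cert} {G : ℕ → ℕ → ℕ → ℤ}

/-- The hypothesis on the Gram table. -/
def GramTable (C : Cert) (G : ℕ → ℕ → ℕ → ℤ) : Prop :=
  ∀ e : ℕ, e < 5 → ∀ n ≤ C.N0, ∀ m ≤ C.N0, C.gram ((e : ℤ) - 2) n m = (G e n m : ℚ) / 2 ^ 160

theorem gram_zero {d : ℤ} {n m : ℕ} (h : (n : ℤ) + d < 0 ∨ (m : ℤ) + d < 0) :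
    C.gram d n m = 0 := by
  unfold Cert.gram
  refine sum_eq_zero fun s hs => ?_
  simp only [mem_filter, Cert.chans, mem_range, mem_univ, true_and] at hs
  obtain ⟨hd, ⟨-, h1⟩, -, h2⟩ := hs
  rw [hd] at h1 h2
  omega

theorem gram_symm (d : ℤ) (n m : ℕ) : C.gram d n m = C.gram d m n := by
  unfold Cert.gram
  refine sum_congr ?_ fun s _ => mul_comm _ _
  ext s
  simp only [mem_filter]
  tauto

theorem ovR_eq_ovNum (n q L : ℕ) : ovR n q (L - n) = ovNum n q L := rfl

/-- Scale from channel `n` coordinates. -/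
def asc (n : ℕ) : ℚ := (n.factorial : ℚ) / 2 ^ n

theorem xker_term (hG : GramTable C G) {L n m e : ℕ} (he : e < 5) (hn : n ≤ min L C.N0)
    (hm : m ≤ min L C.N0) :
    (den C.N0 L : ℚ) * (asc n * asc m) *
      (C.gram ((e : ℤ) - 2) n m * pTriDot ((n : ℤ) + ((e : ℤ) - 2)).toNat
        ((m : ℤ) + ((e : ℤ) - 2)).toNat ((L : ℤ) + ((e : ℤ) - 2)).toNat)
    = ((sg (L - m) ((L - m).factorial * 4 ^ (L - m) * 3 ^ (n + m) * (n.factorial * m.factorial))
      : ℤ) : ℚ) * (((if 2 ≤ n + e ∧ 2 ≤ m + e then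
      G e n m * Int.ofNat ((m + e - 2).factorial * 2 ^ (3 * C.N0 + 2 - (n + m + (n + e - 2)))) *
        ovI (n + e - 2) (m + e - 2) (L - n)
      else 0 : ℤ)) : ℚ) := by
  obtain ⟨hnL, hnN⟩ := le_min_iff.1 hn
  obtain ⟨hmL, hmN⟩ := le_min_iff.1 hm
  by_cases hc : 2 ≤ n + e ∧ 2 ≤ m + e
  · obtain ⟨h1, h2⟩ := hc
    rw [if_pos ⟨h1, h2⟩, show ((n : ℤ) + ((e : ℤ) - 2)).toNat = n + e - 2 by omega,
      show ((m : ℤ) + ((e : ℤ) - 2)).toNat = m + e - 2 by omega,
      show ((L : ℤ) + ((e : ℤ) - 2)).toNat = L + e - 2 by omega,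
      hG e he n hnN m hmN, pTriDot_closed (by omega) (by omega), ← ovR_eq_ovNum, ovI_eq,
      show L + e - 2 - (m + e - 2) = L - m by omega,
      show L + e - 2 - (n + e - 2) = L - n by omega, sg_eq]
    set n' := n + e - 2 with hn'
    set m' := m + e - 2 with hm'
    have p2 : (2 : ℚ) ^ (3 * C.N0 + 2)
        = 2 ^ (3 * C.N0 + 2 - (n + m + n')) * (2 ^ n * 2 ^ m * 2 ^ n') := by
      rw [← pow_add, ← pow_add, ← pow_add]
      congr 1
      omega
    have p3 : (3 : ℚ) ^ (2 * L) = 3 ^ (n + m) * (3 ^ (L - n) * 3 ^ (L - m)) := by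
      rw [← pow_add, ← pow_add]
      congr 1
      omega
    simp only [den, asc, Int.ofNat_eq_natCast]
    push_cast
    rw [pow_add (2 : ℚ) 160, p2, p3, div_pow]
    field_simp
  · rw [if_neg hc, gram_zero (by omega)]
    simp

theorem xker_eq (hG : GramTable C G) {L n m : ℕ} (hn : n ≤ min L C.N0) (hm : m ≤ min L C.N0) :
    (den C.N0 L : ℚ) * (asc n * asc m) *
      (∑ d ∈ ({-2, -1, 0, 1, 2} : Finset ℤ),
        C.gram d n m * pTriDot ((n : ℤ) + d).toNat ((m : ℤ) + d).toNat ((L : ℤ) + d).toNat)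
    = (xker C.N0 G L n m : ℚ) := by
  have hset : ({-2, -1, 0, 1, 2} : Finset ℤ)
      = (range 5).map ⟨fun e : ℕ => (e : ℤ) - 2, fun a b h => by simpa using h⟩ := by
    decide
  unfold xker
  rw [hset, sum_map, mul_sum, Int.cast_mul, Int.cast_sum, mul_sum]
  refine sum_congr rfl fun e he => ?_
  exact xker_term hG (mem_range.1 he) hn hm

theorem pKer_symm {L n m : ℕ} (hn : n ≤ L) (hm : m ≤ L) : C.pKer L n m = C.pKer L m n := by
  unfold Cert.pKer
  congr 1
  · congr 1
    · refine sum_congr rfl fun d _ => ?_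
      by_cases h : (n : ℤ) + d < 0 ∨ (m : ℤ) + d < 0
      · rw [gram_zero h, gram_zero h.symm]
        simp
      · rw [gram_symm, pTriDot_symm (by omega) (by omega)]
    · by_cases h : n = m
      · subst h; rfl
      · rw [if_neg (fun h' => h h'.1), if_neg (fun h' => h h'.1.symm)]
  · by_cases h : n = m
    · subst h; rfl
    · rw [if_neg h, if_neg (Ne.symm h)]

theorem kmat_le (hG : GramTable C G) {L : ℕ} (u : Fin (C.kdim L) → ℝ) :
    quad (fun n m : Fin (C.kdim L) => (kmat C G L n m : ℝ)) u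
      ≤ (den C.N0 L : ℝ) * quad (fun n m => (C.kerMat L n m : ℝ))
          (fun n => (asc n : ℝ) * u n) := by
  have hk : ∀ n : Fin (C.kdim L), (n : ℕ) ≤ min L C.N0 := fun n =>
    Nat.lt_succ_iff.1 n.isLt
  have key : ∀ n m : Fin (C.kdim L),
      (den C.N0 L : ℚ) * (asc n * asc m) * C.kerMat L n m
        = (xker C.N0 G L n m : ℚ) + if (n : ℕ) = m then
          ((if (n : ℕ) ∈ killedCh then C.Λ else 0) + (C.margin L / 2 + C.v n * C.tailW L)) *
          (((L - n).factorial * (n : ℕ).factorial * 4 ^ (L - n) * 3 ^ L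
            * 2 ^ (160 + (3 * C.N0 + 2 - n)) : ℕ) : ℚ) else 0 := by
    intro n m
    rw [Cert.kerMat, Cert.pKer, mul_add, mul_add, xker_eq hG (hk n) (hk m), add_assoc]
    congr 1
    by_cases h : (n : ℕ) = m
    · rw [if_pos h, if_pos h, ← h]
      obtain ⟨hnL, hnN⟩ := le_min_iff.1 (hk n)
      have p2 : (2 : ℚ) ^ (3 * C.N0 + 2) = 2 ^ (3 * C.N0 + 2 - (n : ℕ)) * 2 ^ (n : ℕ) := by
        rw [← pow_add]; congr 1; omega
      have p3 : (3 : ℚ) ^ (2 * L) = 3 ^ L * (3 ^ (L - n) * 3 ^ (n : ℕ)) := by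
        rw [← pow_add, ← pow_add]; congr 1; omega
      simp only [den, asc, pNorm]
      push_cast
      rw [pow_add (2 : ℚ) 160, pow_add (2 : ℚ) 160, p2, p3,
        show (1 / (3 : ℚ) + 1) = 4 / 3 by norm_num, show (1 / (2 : ℚ) + 1) = 3 / 2 by norm_num,
        div_pow, div_pow]
      simp only [true_and]
      split_ifs with hK
      · field_simp
      · field_simp
        ring
    · rw [if_neg h, if_neg h, if_neg (fun h' => h h'.1)]
      simp
  simp only [quad, dotProduct, mulVec, mul_sum]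
  refine sum_le_sum fun n _ => sum_le_sum fun m _ => ?_
  have e : (den C.N0 L : ℝ) * ((asc n : ℝ) * u n * ((C.kerMat L n m : ℝ) * ((asc m : ℝ) * u m)))
      = (((den C.N0 L : ℚ) * (asc n * asc m) * C.kerMat L n m : ℚ) : ℝ) * (u n * u m) := by
    push_cast
    ring
  rw [e, key n m]
  unfold kmat kdiag
  by_cases h : (n : ℕ) = m
  · have hnm : n = m := Fin.ext h
    subst hnm
    rw [if_pos h, if_pos h]
    push_cast
    set c : ℚ := ((if (n : ℕ) ∈ killedCh then C.Λ else 0) + (C.margin L / 2 + C.v n * C.tailW L)) *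
      (((L - n).factorial * (n : ℕ).factorial * 4 ^ (L - n) * 3 ^ L
        * 2 ^ (160 + (3 * C.N0 + 2 - n)) : ℕ) : ℚ) with hc
    have hf : ((⌊c⌋ : ℤ) : ℝ) ≤ (c : ℝ) := by exact_mod_cast Int.floor_le c
    have := mul_le_mul_of_nonneg_right hf (mul_self_nonneg (u n))
    simp only [hc] at this
    push_cast at this
    linarith
  · rw [if_neg h, if_neg h]
    push_cast
    linarith

/-- The scale of channel `n`. -/
noncomputable def sca (S n : ℕ) : ℝ := (2 : ℝ) ^ (S / 2 ^ (16 * n) % 2 ^ 16)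

theorem sca_one (S n : ℕ) : 1 ≤ sca S n := one_le_pow₀ (by norm_num)

theorem kmat_symm (hG : GramTable C G) {L n m : ℕ} (hn : n ≤ min L C.N0) (hm : m ≤ min L C.N0) :
    kmat C G L n m = kmat C G L m n := by
  have h : (xker C.N0 G L n m : ℚ) = (xker C.N0 G L m n : ℚ) := by
    rw [← xker_eq hG hn hm, ← xker_eq hG hm hn, mul_comm (asc n)]
    congr 1
    refine sum_congr rfl fun d _ => ?_
    by_cases hd : (n : ℤ) + d < 0 ∨ (m : ℤ) + d < 0
    · rw [gram_zero hd, gram_zero hd.symm]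
      simp
    · have := le_min_iff.1 hn
      have := le_min_iff.1 hm
      rw [gram_symm, pTriDot_symm (by omega) (by omega)]
  unfold kmat
  rw [show xker C.N0 G L n m = xker C.N0 G L m n by exact_mod_cast h]
  by_cases hnm : n = m
  · subst hnm; rfl
  · rw [if_neg hnm, if_neg (Ne.symm hnm)]

theorem ker_round (hG : GramTable C G) {L Sa Pa : ℕ} (h : kerRoundOK C G L Sa Pa = true)
    (u : Fin (C.kdim L) → ℝ) :
    quad (rounded (C.kdim L) Pa) (fun n => sca Sa n * u n)
      ≤ (den C.N0 L : ℝ) * quad (fun n m => (C.kerMat L n m : ℝ))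
          (fun n => (asc n : ℝ) * u n) := by
  refine le_trans (quad_round (fun n m : Fin (C.kdim L) => (kmat C G L n m : ℝ)) (fun n => sca Sa n)
    (fun n m => ?_) u (fun n => zero_le_one.trans (sca_one _ _))) (kmat_le hG u)
  simp only [kerRoundOK, List.all_eq_true, List.mem_range, decide_eq_true_eq] at h
  have hn : (n : ℕ) ≤ min L C.N0 := Nat.lt_succ_iff.1 n.isLt
  have hm : (m : ℕ) ≤ min L C.N0 := Nat.lt_succ_iff.1 m.isLt
  have hb : ∀ a b : ℕ, sca Sa a * sca Sa b
      = ((Int.ofNat (2 ^ (Sa / 2 ^ (16 * a) % 2 ^ 16 + Sa / 2 ^ (16 * b) % 2 ^ 16)) : ℤ) : ℝ) := by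
    intro a b
    simp [sca, pow_add]
  rcases le_total (n : ℕ) m with hle | hle
  · have := h m m.isLt n (by omega)
    rw [hb]
    exact_mod_cast this
  · have := h n n.isLt m (by omega)
    rw [kmat_symm hG hn hm, getS_comm, mul_comm (sca Sa n), hb]
    exact_mod_cast this

/-- Channel kernel check. -/
theorem blockPos_wide (hV : C.Valid) (hG : GramTable C G) {L Sa Pa Pr : ℕ}
    (h1 : kerRoundOK C G L Sa Pa = true) (h2 : domOK (min L C.N0 + 1) Pa Pr = true) :
    C.BlockPos L := by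
  refine blockPos_of_kerPos hV fun z => ?_
  set u : Fin (C.kdim L) → ℝ := fun n => z n / (asc n : ℝ) with hu
  have ha : ∀ n : ℕ, (asc n : ℝ) ≠ 0 := fun n => by
    unfold asc
    push_cast
    positivity
  have hz : (fun n : Fin (C.kdim L) => (asc n : ℝ) * u n) = z := by
    funext n
    simp only [hu]
    field_simp [ha n]
  have h3 := (rounded_pos h2 (fun n => sca Sa n * u n)).trans (ker_round hG h1 u)
  rw [hz] at h3
  have hD : (0 : ℝ) < (den C.N0 L : ℝ) := by
    unfold den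
    positivity
  exact nonneg_of_mul_nonneg_right ((P359.nsq_nonneg _).trans h3) hD

theorem cint_eq {L n j : ℕ} (hn : n ≤ L) (hj : 2 * j < L) :
    pCoord L n j = (-1) ^ L * (asc n * (cint L n j : ℚ)) := by
  rw [pCoord_closed hn hj, cint, asc]
  simp only [fbinom_eq, fbinPart_eq, binPart, Int.ofNat_eq_natCast]
  push_cast
  ring

theorem bmat_symm (L Sa Pa i j : ℕ) : bmat C L Sa Pa i j = bmat C L Sa Pa j i := by
  unfold bmat
  congr 1
  · congr 1
    · ring
    · simp only [mul_sum]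
      rw [sum_comm]
      refine sum_congr rfl fun n _ => sum_congr rfl fun m _ => ?_
      rw [getS_comm Pa 128 n m]
      simp only [eq_comm (a := n)]
      ring
  · by_cases h : i = j
    · subst h; rfl
    · rw [if_neg h, if_neg (Ne.symm h)]

theorem block_lower (hG : GramTable C G) {L Sa Pa : ℕ} (hL : 1 ≤ L)
    (h : kerRoundOK C G L Sa Pa = true) (y : Fin (bdim L) → ℝ) :
    quad (fun i j : Fin (bdim L) => (bmat C L Sa Pa i j : ℝ)) y
      ≤ (den C.N0 L : ℝ) * quad (fun i j => (C.block L i j : ℝ)) y := by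
  have hj : ∀ i : Fin (bdim L), 2 * (i : ℕ) < L := fun i => by
    have := i.isLt
    simp only [bdim] at this
    omega
  set w : Fin (C.kdim L) → ℝ := fun n => ∑ i : Fin (bdim L), (cint L n i : ℝ) * y i with hw
  have hr := ker_round hG h w
  have eu : ∀ n : Fin (C.kdim L), (fun i : Fin (bdim L) => (pCoord L n i : ℝ)) ⬝ᵥ y
      = (-1) ^ L * ((asc n : ℝ) * w n) := by
    intro n
    simp only [dotProduct, hw, mul_sum]
    refine sum_congr rfl fun i _ => ?_
    rw [cint_eq ((Nat.lt_succ_iff.1 n.isLt).trans (min_le_left _ _)) (hj i)]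
    push_cast
    ring
  have eB : quad (fun i j => (C.block L i j : ℝ)) y
      = ((L - 1).factorial : ℝ) * (∑ i : Fin (bdim L), (2 * (i : ℝ) - L) * y i) ^ 2
        + quad (fun n m => (C.kerMat L n m : ℝ)) (fun n => (asc n : ℝ) * w n)
        + ∑ i : Fin (bdim L),
            (C.margin L : ℝ) * ((i : ℕ).factorial * (L - i).factorial) * y i ^ 2 := by
    have e2 : quad (fun n m => (C.kerMat L n m : ℝ)) (fun n => (asc n : ℝ) * w n)
        = ∑ n : Fin (C.kdim L), ∑ m : Fin (C.kdim L), (C.pKer L n m : ℝ)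
          * (((fun i : Fin (bdim L) => (pCoord L n i : ℝ)) ⬝ᵥ y)
          * ((fun i : Fin (bdim L) => (pCoord L m i : ℝ)) ⬝ᵥ y)) := by
      simp only [eu]
      simp only [quad, dotProduct, mulVec, Cert.kerMat, mul_sum]
      refine sum_congr rfl fun n _ => sum_congr rfl fun m _ => ?_
      have : ((-1 : ℝ) ^ L) * (-1) ^ L = 1 := by rw [← mul_pow]; norm_num
      linear_combination (-((C.pKer L n m : ℝ) * ((asc n : ℝ) * w n) * ((asc m : ℝ) * w m))) * this
    rw [e2]
    simp only [quad, dotProduct, mulVec, Cert.block, Rat.cast_add, Rat.cast_sum, Rat.cast_mul,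
      Rat.cast_sub, Rat.cast_natCast, Rat.cast_ofNat, apply_ite (Rat.cast : ℚ → ℝ),
      Rat.cast_zero, add_mul, sum_add_distrib, mul_add]
    congr 1
    · congr 1
      · simp only [sq, mul_sum, sum_mul]
        rw [sum_comm]
        refine sum_congr rfl fun i _ => sum_congr rfl fun j _ => ?_
        ring
      · simp only [kdim, mul_sum, sum_mul]
        rw [sum_congr rfl fun i _ => sum_comm, sum_comm]
        rw [← Fin.sum_univ_eq_sum_range (fun n => ∑ i : Fin (bdim L), ∑ j : Fin (bdim L),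
          ∑ m ∈ range (min L C.N0 + 1),
            y i * ((C.pKer L n m : ℝ) * (pCoord L n i : ℝ) * (pCoord L m j : ℝ) * y j))
          (min L C.N0 + 1)]
        refine sum_congr rfl fun n _ => ?_
        rw [sum_congr rfl fun i _ => sum_comm, sum_comm]
        rw [← Fin.sum_univ_eq_sum_range (fun m => ∑ i : Fin (bdim L), ∑ j : Fin (bdim L),
            y i * ((C.pKer L n m : ℝ) * (pCoord L n i : ℝ) * (pCoord L m j : ℝ) * y j))
          (min L C.N0 + 1)]
        refine sum_congr rfl fun m _ => ?_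
        rw [sum_comm]
        refine sum_congr rfl fun i _ => sum_congr rfl fun j _ => ?_
        ring
    · refine sum_congr rfl fun i _ => ?_
      simp only [ite_mul, zero_mul, sum_ite_eq, mem_univ, if_true]
      ring
  have eM : quad (fun i j : Fin (bdim L) => (bmat C L Sa Pa i j : ℝ)) y
      = ((den C.N0 L : ℕ) : ℝ) * ((L - 1).factorial : ℝ)
          * (∑ i : Fin (bdim L), (2 * (i : ℝ) - L) * y i) ^ 2
        + quad (rounded (C.kdim L) Pa) (fun n => sca Sa n * w n)
        + ∑ i : Fin (bdim L),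
            ((⌊C.margin L * ((den C.N0 L * ((i : ℕ).factorial * (L - i).factorial) : ℕ) : ℚ)⌋
              : ℤ) : ℝ) * y i ^ 2 := by
    simp only [quad, dotProduct, mulVec, bmat, Int.cast_add, Int.cast_mul, Int.cast_sum,
      Int.cast_sub, apply_ite (Int.cast : ℤ → ℝ), Int.cast_zero, Int.ofNat_eq_natCast,
      Int.cast_natCast, Int.cast_ofNat, add_mul, sum_add_distrib, mul_add]
    congr 1
    · congr 1
      · simp only [sq, mul_sum, sum_mul]
        rw [sum_comm]
        refine sum_congr rfl fun i _ => sum_congr rfl fun j _ => ?_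
        push_cast
        ring
      · simp only [kdim, mul_sum, sum_mul, rounded, hw]
        rw [sum_congr rfl fun i _ => sum_comm, sum_comm]
        rw [← Fin.sum_univ_eq_sum_range (fun n => ∑ i : Fin (bdim L), ∑ j : Fin (bdim L),
          ∑ m ∈ range (min L C.N0 + 1),
            y i * ((wco L Sa n i : ℝ) * (((getS Pa 128 n m : ℝ)
              - if n = m then ((min L C.N0 + 1 : ℕ) : ℝ) else 0) * (wco L Sa m j : ℝ)) * y j))
          (min L C.N0 + 1)]
        refine sum_congr rfl fun n _ => ?_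
        rw [sum_congr rfl fun i _ => sum_comm, sum_comm]
        rw [← Fin.sum_univ_eq_sum_range (fun m => ∑ i : Fin (bdim L), ∑ j : Fin (bdim L),
            y i * ((wco L Sa n i : ℝ) * (((getS Pa 128 n m : ℝ)
              - if (n : ℕ) = m then ((min L C.N0 + 1 : ℕ) : ℝ) else 0) * (wco L Sa m j : ℝ)) * y j))
          (min L C.N0 + 1)]
        refine sum_congr rfl fun m _ => ?_
        rw [sum_comm]
        refine sum_congr rfl fun i _ => sum_congr rfl fun j _ => ?_
        simp only [wco, Int.ofNat_eq_natCast, Int.cast_mul, Int.cast_natCast, Nat.cast_pow,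
          Nat.cast_ofNat, sca, Fin.ext_iff]
        push_cast
        ring
    · refine sum_congr rfl fun i _ => ?_
      simp only [Fin.ext_iff.symm, ite_mul, zero_mul, mul_ite, mul_zero, sum_ite_eq, mem_univ,
        if_true]
      ring
  rw [eM, eB, mul_add, mul_add]
  refine add_le_add (add_le_add (le_of_eq (by ring)) hr) ?_
  rw [mul_sum]
  refine sum_le_sum fun i _ => ?_
  have hf : ((⌊C.margin L * ((den C.N0 L * ((i : ℕ).factorial * (L - i).factorial) : ℕ) : ℚ)⌋
      : ℤ) : ℝ) ≤ ((C.margin L * ((den C.N0 L * ((i : ℕ).factorial * (L - i).factorial) : ℕ) : ℚ)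
        : ℚ) : ℝ) := by exact_mod_cast Int.floor_le _
  push_cast at hf
  have := mul_le_mul_of_nonneg_right hf (sq_nonneg (y i))
  push_cast
  linarith

/-- Full block check. -/
theorem blockPos_narrow (hG : GramTable C G) {L Sa Pa Sb Pb Pr : ℕ} (hL : 1 ≤ L)
    (h1 : kerRoundOK C G L Sa Pa = true) (h2 : blockRoundOK C L Sa Pa Sb Pb = true)
    (h3 : domOK ((L + 1) / 2) Pb Pr = true) : C.BlockPos L := by
  have hD : (0 : ℝ) < (den C.N0 L : ℝ) := by
    unfold den
    positivity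
  refine ⟨1 / (den C.N0 L : ℝ), by positivity, fun y => ?_⟩
  have hb : quad (rounded (bdim L) Pb) (fun i => sca Sb i * y i)
      ≤ quad (fun i j : Fin (bdim L) => (bmat C L Sa Pa i j : ℝ)) y := by
    refine quad_round _ (fun i => sca Sb i) (fun i j => ?_) y
      (fun i => zero_le_one.trans (sca_one _ _))
    simp only [blockRoundOK, List.all_eq_true, List.mem_range, decide_eq_true_eq] at h2
    have he : ∀ a b : ℕ, sca Sb a * sca Sb b
        = ((Int.ofNat (2 ^ (Sb / 2 ^ (16 * a) % 2 ^ 16 + Sb / 2 ^ (16 * b) % 2 ^ 16)) : ℤ)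
          : ℝ) := by
      intro a b
      simp [sca, pow_add]
    rcases le_total (i : ℕ) j with hle | hle
    · have := h2 j j.isLt i (by omega)
      rw [he]
      exact_mod_cast this
    · have := h2 i i.isLt j (by omega)
      rw [bmat_symm, getS_comm, mul_comm (sca Sb i), he]
      exact_mod_cast this
  have h4 : nsq y ≤ (den C.N0 L : ℝ) * quad (fun i j => (C.block L i j : ℝ)) y :=
    (((nsq_scale (fun i => sca Sb i) (fun i => sca_one _ _) y).trans
      (rounded_pos h3 _)).trans hb).trans (block_lower hG hL h1 y)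
  rw [div_mul_eq_mul_div, one_mul, div_le_iff₀ hD]
  linarith

end Chk

end P359
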