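import Vale.Agent.P359.Overlap

/-!
P359, piece C4b: explicit bound on the overlap, uniform in large degrees.
-/

namespace P359

open Finset Matrix
open scoped BigOperators

/-- Bound on the squared normalised overlap of channels `n ≤ q` at weight `L`. -/
noncomputable def ovBound (n q L : ℕ) : ℝ :=
  (336 / 1000 : ℝ) ^ (2 * (L - q - n)) * (151 / 100 * L) ^ (2 * q) *
      (1 + 17 * q / (100 * L)) ^ (2 * n) * (67 / 100) ^ (n + q) *
      (76 / 100 / ((L - q : ℕ) + 1)) ^ (q - n)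
    / (n.factorial * q.factorial)

theorem descFactorial_le_pow_mul {θ : ℝ} (hθ : θ ≤ 1) {Y N : ℕ} (hYN : Y ≤ N)
    (h : (Y : ℝ) ≤ θ * N) : ∀ t, (Y.descFactorial t : ℝ) ≤ θ ^ t * N.descFactorial t := by
  intro t
  induction t with
  | zero => simp
  | succ t ih =>
    rw [Nat.descFactorial_succ, Nat.descFactorial_succ, pow_succ]
    rcases le_or_gt Y t with hY | hY
    · rw [Nat.sub_eq_zero_of_le hY, zero_mul, Nat.cast_zero]
      have h0 : (0 : ℝ) ≤ θ ^ t * N.descFactorial t := le_trans (Nat.cast_nonneg _) ih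
      have h1 : 0 ≤ θ * ((N - t : ℕ) : ℝ) := by
        rcases Nat.eq_zero_or_pos N with hN | hN
        · simp [hN]
        · refine mul_nonneg ?_ (Nat.cast_nonneg _)
          have : (0 : ℝ) < N := by exact_mod_cast hN
          nlinarith [(Nat.cast_nonneg Y : (0 : ℝ) ≤ Y)]
      calc (0 : ℝ) ≤ (θ ^ t * N.descFactorial t) * (θ * (N - t : ℕ)) := mul_nonneg h0 h1
        _ = _ := by push_cast; ring
    · push_cast [Nat.cast_sub hY.le, Nat.cast_sub (hY.le.trans hYN)]
      have ht : (0 : ℝ) ≤ t := t.cast_nonneg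
      have hY' : (t : ℝ) ≤ Y := by exact_mod_cast hY.le
      have h1 : (Y : ℝ) - t ≤ θ * ((N : ℝ) - t) := by nlinarith
      calc ((Y : ℝ) - t) * Y.descFactorial t ≤ (θ * ((N : ℝ) - t)) * (θ ^ t * N.descFactorial t) :=
            mul_le_mul h1 ih (Nat.cast_nonneg _) (by linarith)
        _ = _ := by ring

/-- Hypergeometric weights are at most `C(s+t,s) θ^t`. -/
theorem hyper_le {θ : ℝ} (hθ0 : 0 ≤ θ) (hθ : θ ≤ 1) {X Y : ℕ} (h : (Y : ℝ) ≤ θ * (X + Y : ℕ))
    (s t : ℕ) :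
    (X.choose s : ℝ) * Y.choose t ≤ θ ^ t * (X + Y).choose (s + t) * (s + t).choose s := by
  rcases lt_or_ge Y t with ht | ht
  · rw [Nat.choose_eq_zero_of_lt ht]
    simp only [Nat.cast_zero, mul_zero]
    positivity
  have h1 := descFactorial_le_pow_mul hθ (Nat.le_add_left Y X) h t
  have h2 : X.descFactorial s ≤ (X + Y - t).descFactorial s :=
    Nat.descFactorial_le s (by omega)
  have h3 : (X + Y - t).descFactorial s * (X + Y).descFactorial t
      = (X + Y).descFactorial (s + t) := by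
    have := Nat.descFactorial_mul_descFactorial (n := X + Y) (Nat.le_add_left t s)
    rwa [Nat.add_sub_cancel] at this
  have h4 : (s + t).choose s * (s.factorial * t.factorial) = (s + t).factorial := by
    have := Nat.choose_mul_factorial_mul_factorial (Nat.le_add_right s t)
    rwa [Nat.add_sub_cancel_left, mul_assoc] at this
  have hf : (0 : ℝ) < (s.factorial * t.factorial : ℕ) := by
    exact_mod_cast Nat.mul_pos s.factorial_pos t.factorial_pos
  refine le_of_mul_le_mul_right ?_ hf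
  calc (X.choose s : ℝ) * Y.choose t * (s.factorial * t.factorial : ℕ)
      = (X.descFactorial s : ℝ) * Y.descFactorial t := by
        rw [Nat.descFactorial_eq_factorial_mul_choose, Nat.descFactorial_eq_factorial_mul_choose]
        push_cast
        ring
    _ ≤ ((X + Y - t).descFactorial s : ℝ) * (θ ^ t * (X + Y).descFactorial t) :=
        mul_le_mul (by exact_mod_cast h2) h1 (Nat.cast_nonneg _) (Nat.cast_nonneg _)
    _ = θ ^ t * (((X + Y).descFactorial (s + t) : ℕ) : ℝ) := by rw [← h3]; push_cast; ring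
    _ = _ := by
        rw [Nat.descFactorial_eq_factorial_mul_choose, ← h4]
        push_cast
        ring

theorem abs_chanCoef_le {θ : ℝ} (hθ0 : 0 ≤ θ) (hθ : θ ≤ 1) {A B n : ℕ} (hA : n ≤ A) (hB : n ≤ B)
    (h : ((B - n : ℕ) : ℝ) ≤ θ * (A + B - 2 * n : ℕ)) (a b m L : ℕ) (hb : n ≤ b) (hL : m ≤ L) :
    |chanCoef A B n a b m| ≤ θ ^ (b - n) *
      ∑ i ∈ range (n + 1), if i ≤ a then
        (n.choose i : ℝ) * θ ^ i * ((L : ℝ) ^ (a - i) / (a - i).factorial) else 0 := by
  unfold chanCoef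
  rw [mul_sum]
  refine (abs_sum_le_sum_abs _ _).trans (sum_le_sum fun i hi => ?_)
  rw [mem_range] at hi
  by_cases h1 : i ≤ a ∧ n - i ≤ b ∧ a + b = m + n
  · rw [if_pos h1, if_pos h1.1]
    obtain ⟨ha, hb', hab⟩ := h1
    have hsum : A - n + (B - n) = A + B - 2 * n := by omega
    have hh := hyper_le hθ0 hθ (X := A - n) (Y := B - n) (by rw [hsum]; exact h) (a - i) (b - (n - i))
    rw [hsum, show a - i + (b - (n - i)) = m by omega, show b - (n - i) = b - n + i by omega] at hh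
    rw [abs_div, abs_mul, abs_mul, abs_mul, abs_pow, abs_neg, abs_one, one_pow, one_mul,
      Nat.abs_cast, Nat.abs_cast, Nat.abs_cast, Nat.abs_cast,
      show b - (n - i) = b - n + i by omega]
    rcases Nat.eq_zero_or_pos ((A + B - 2 * n).choose m) with h0 | h0
    · rw [h0, Nat.cast_zero, div_zero]
      positivity
    rw [div_le_iff₀ (by exact_mod_cast h0)]
    have hc : (m.choose (a - i) : ℝ) ≤ (L : ℝ) ^ (a - i) / (a - i).factorial :=
      le_trans (by exact_mod_cast Nat.choose_le_choose (a - i) hL) (Nat.choose_le_pow_div _ _)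
    calc (n.choose i : ℝ) * (A - n).choose (a - i) * (B - n).choose (b - n + i)
        = n.choose i * (((A - n).choose (a - i) : ℝ) * (B - n).choose (b - n + i)) := by ring
      _ ≤ n.choose i * (θ ^ (b - n + i) * (A + B - 2 * n).choose m *
            ((L : ℝ) ^ (a - i) / (a - i).factorial)) :=
          mul_le_mul_of_nonneg_left (hh.trans (mul_le_mul_of_nonneg_left hc (by positivity)))
            (Nat.cast_nonneg _)
      _ = _ := by rw [pow_add]; ring
  · rw [if_neg h1, abs_zero]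
    split_ifs
    · positivity
    · simp

theorem sum_binom_div_factorial (ρ : ℝ) (T : ℕ) :
    ∑ s ∈ range (T + 1), ρ ^ s / ((s.factorial : ℝ) * (T - s).factorial)
      = (1 + ρ) ^ T / T.factorial := by
  rw [add_comm (1 : ℝ) ρ, add_pow, sum_div]
  refine sum_congr rfl fun s hs => ?_
  rw [mem_range] at hs
  rw [Nat.cast_choose ℝ (by omega : s ≤ T), one_pow, mul_one]
  field_simp

theorem le_ratio_inv {B A q : ℕ} {ρ : ℝ} (hB : q < B) (hA : q < A)
    (h : ((B - q : ℕ) : ℝ) ≤ ρ * (A - q : ℕ)) {a : ℕ} (ha : a ≤ q) :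
    (q.choose a : ℝ) / ((A.choose a : ℝ) * B.choose (q - a)) ≤
      q.factorial * ρ ^ a / ((B - q : ℕ) : ℝ) ^ q := by
  have hA' : ((A - q : ℕ) : ℝ) ^ a ≤ A.descFactorial a := by
    exact_mod_cast le_trans (Nat.pow_le_pow_left (by omega : A - q ≤ A + 1 - a) a)
      (Nat.pow_sub_le_descFactorial A a)
  have hB' : ((B - q : ℕ) : ℝ) ^ (q - a) ≤ B.descFactorial (q - a) := by
    exact_mod_cast le_trans (Nat.pow_le_pow_left (by omega : B - q ≤ B + 1 - (q - a)) (q - a))
      (Nat.pow_sub_le_descFactorial B (q - a))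
  have hBq : (0 : ℝ) < (B - q : ℕ) := by exact_mod_cast (by omega : 0 < B - q)
  have hAq : (0 : ℝ) < (A - q : ℕ) := by exact_mod_cast (by omega : 0 < A - q)
  have hρ : 0 < ρ := by
    by_contra hc
    nlinarith
  have e : (q.choose a : ℝ) / ((A.choose a : ℝ) * B.choose (q - a))
      = q.factorial / ((A.descFactorial a : ℝ) * B.descFactorial (q - a)) := by
    rw [Nat.cast_choose ℝ ha, Nat.descFactorial_eq_factorial_mul_choose,
      Nat.descFactorial_eq_factorial_mul_choose]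
    push_cast
    have : (0 : ℝ) < A.choose a := by exact_mod_cast Nat.choose_pos (by omega)
    have : (0 : ℝ) < B.choose (q - a) := by exact_mod_cast Nat.choose_pos (by omega)
    field_simp
  rw [e, div_le_div_iff₀ (lt_of_lt_of_le (by positivity) (mul_le_mul hA' hB' (by positivity)
    (Nat.cast_nonneg _))) (by positivity), mul_assoc (q.factorial : ℝ)]
  refine mul_le_mul_of_nonneg_left ?_ (Nat.cast_nonneg _)
  calc ((B - q : ℕ) : ℝ) ^ q = ((B - q : ℕ) : ℝ) ^ a * ((B - q : ℕ) : ℝ) ^ (q - a) := by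
        rw [← pow_add, Nat.add_sub_cancel' ha]
    _ ≤ (ρ * (A - q : ℕ)) ^ a * B.descFactorial (q - a) := by gcongr
    _ = ρ ^ a * (((A - q : ℕ) : ℝ) ^ a * B.descFactorial (q - a)) := by rw [mul_pow]; ring
    _ ≤ _ := by gcongr

theorem sum_double_le {θ ρ M : ℝ} (hθ : 0 ≤ θ) (hρ : 0 ≤ ρ) (hM : 0 < M) {n q : ℕ} (hnq : n ≤ q) :
    (q.factorial : ℝ) * ∑ a ∈ range (q + 1), ρ ^ a * (M ^ (q - a) / (q - a).factorial) *
        (∑ i ∈ range (n + 1), if i ≤ a then
          (n.choose i : ℝ) * θ ^ i * (M ^ (a - i) / (a - i).factorial) else 0)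
      ≤ ((1 + ρ) * M) ^ q * (1 + θ * ρ * q / M) ^ n := by
  simp only [mul_sum, mul_ite, mul_zero]
  rw [sum_comm, add_comm 1 (θ * ρ * q / M), add_pow, mul_sum]
  refine sum_le_sum fun i hi => ?_
  rw [mem_range] at hi
  have hiq : i ≤ q := by omega
  rw [show q + 1 = i + (q - i + 1) by omega, sum_range_add]
  rw [sum_eq_zero fun a ha => if_neg (by rw [mem_range] at ha; omega), zero_add]
  simp only [Nat.le_add_right, if_true, Nat.add_sub_cancel_left]
  have e : ∀ s ∈ range (q - i + 1),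
      (q.factorial : ℝ) * (ρ ^ (i + s) * (M ^ (q - (i + s)) / (q - (i + s)).factorial) *
          ((n.choose i : ℝ) * θ ^ i * (M ^ s / s.factorial)))
      = ((q.factorial : ℝ) * n.choose i * (θ * ρ) ^ i * M ^ (q - i)) *
          (ρ ^ s / ((s.factorial : ℝ) * (q - i - s).factorial)) := by
    intro s hs
    rw [mem_range] at hs
    rw [Nat.sub_add_eq, show M ^ (q - i) = M ^ (q - i - s) * M ^ s by
      rw [← pow_add, Nat.sub_add_cancel (by omega)], pow_add, mul_pow]
    ring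
  rw [sum_congr rfl e, ← mul_sum, sum_binom_div_factorial, one_pow, mul_one]
  have h1 : (q.factorial : ℝ) / (q - i).factorial ≤ (q : ℝ) ^ i := by
    rw [div_le_iff₀ (by positivity)]
    have : (q - i).factorial * q.descFactorial i = q.factorial := Nat.factorial_mul_descFactorial hiq
    calc (q.factorial : ℝ) = q.descFactorial i * (q - i).factorial := by
          rw [← this]; push_cast; ring
      _ ≤ _ := by
          gcongr
          exact_mod_cast Nat.descFactorial_le_pow q i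
  calc (q.factorial : ℝ) * n.choose i * (θ * ρ) ^ i * M ^ (q - i) *
        ((1 + ρ) ^ (q - i) / (q - i).factorial)
      = ((q.factorial : ℝ) / (q - i).factorial) * (n.choose i * (θ * ρ) ^ i) *
          ((1 + ρ) * M) ^ (q - i) := by rw [mul_pow (1 + ρ) M]; ring
    _ ≤ (q : ℝ) ^ i * (n.choose i * (θ * ρ) ^ i) * ((1 + ρ) * M) ^ (q - i) * (1 + ρ) ^ i := by
        calc _ ≤ (q : ℝ) ^ i * (n.choose i * (θ * ρ) ^ i) * ((1 + ρ) * M) ^ (q - i) := by gcongr
          _ ≤ _ := le_mul_of_one_le_right (by positivity) (one_le_pow₀ (by linarith))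
    _ = _ := by
        rw [show ((1 + ρ) * M) ^ q = ((1 + ρ) * M) ^ (q - i) * ((1 + ρ) * M) ^ i by
          rw [← pow_add, Nat.sub_add_cancel hiq]]
        rw [div_pow, mul_pow (1 + ρ) M i, mul_pow (θ * ρ) (q : ℝ) i]
        field_simp

theorem abs_ovSum_le {θ ρ : ℝ} (hθ0 : 0 ≤ θ) (hθ : θ ≤ 1) (hρ : 0 ≤ ρ) {A B n q L : ℕ}
    (hnq : n ≤ q) (hqA : q < A) (hqB : q < B) (hL : n + q ≤ L) (hL0 : 0 < L)
    (h1 : ((B - n : ℕ) : ℝ) ≤ θ * (A + B - 2 * n : ℕ))
    (h2 : ((B - q : ℕ) : ℝ) ≤ ρ * (A - q : ℕ)) :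
    |ovSum A B n q L| * ((B - q : ℕ) : ℝ) ^ q ≤
      θ ^ (L - q - n) * (((1 + ρ) * L) ^ q * (1 + θ * ρ * q / L) ^ n) := by
  have hL0' : (0 : ℝ) < L := by exact_mod_cast hL0
  refine le_trans ?_ (mul_le_mul_of_nonneg_left (sum_double_le hθ0 hρ hL0' hnq) (by positivity))
  have hBq : (0 : ℝ) < ((B - q : ℕ) : ℝ) ^ q :=
    pow_pos (by exact_mod_cast (by omega : 0 < B - q)) q
  rw [← le_div_iff₀ hBq]
  unfold ovSum
  refine (abs_sum_le_sum_abs _ _).trans ?_
  simp only [mul_sum, sum_div]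
  refine sum_le_sum fun a ha => ?_
  rw [mem_range] at ha
  have hr := le_ratio_inv hqB hqA h2 (a := a) (by omega)
  have hc := abs_chanCoef_le hθ0 hθ (by omega) (by omega) h1 a (L - q) (a + (L - q) - n) L
    (by omega) (by omega)
  have hd : ((L - n).choose (a + (L - q) - n) : ℝ) ≤ (L : ℝ) ^ (q - a) / (q - a).factorial := by
    rw [← Nat.choose_symm (by omega : a + (L - q) - n ≤ L - n),
      show L - n - (a + (L - q) - n) = q - a by omega]
    exact le_trans (by exact_mod_cast Nat.choose_le_choose (q - a) (Nat.sub_le L n))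
      (Nat.choose_le_pow_div _ _)
  rw [abs_div, abs_mul, abs_mul, Nat.abs_cast, Nat.abs_cast,
    abs_of_nonneg (by positivity : (0 : ℝ) ≤ (A.choose a : ℝ) * B.choose (q - a))]
  calc (q.choose a : ℝ) * (L - n).choose (a + (L - q) - n) *
        |chanCoef A B n a (L - q) (a + (L - q) - n)| / ((A.choose a : ℝ) * B.choose (q - a))
      = ((q.choose a : ℝ) / ((A.choose a : ℝ) * B.choose (q - a))) *
          (((L - n).choose (a + (L - q) - n) : ℝ) *
            |chanCoef A B n a (L - q) (a + (L - q) - n)|) := by ring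
    _ ≤ (q.factorial * ρ ^ a / ((B - q : ℕ) : ℝ) ^ q) * ((L : ℝ) ^ (q - a) / (q - a).factorial *
          (θ ^ (L - q - n) * ∑ i ∈ range (n + 1), if i ≤ a then
            (n.choose i : ℝ) * θ ^ i * ((L : ℝ) ^ (a - i) / (a - i).factorial) else 0)) :=
        mul_le_mul hr (mul_le_mul hd hc (abs_nonneg _) (by positivity)) (by positivity)
          (by positivity)
    _ = _ := by
        simp only [mul_sum, sum_div, mul_ite, mul_zero, ite_div, zero_div]
        exact sum_congr rfl fun i _ => by split_ifs <;> ring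

theorem inv_nsq_hwVec_le {A B n : ℕ} {κ : ℝ} (hκ : 0 ≤ κ) (hA : 2 * n ≤ A) (hB : 2 * n ≤ B)
    (h : (A : ℝ) ≤ κ * (A + B - 2 * n : ℕ)) :
    (n.factorial : ℝ) ≤ (κ * B) ^ n * nsq (hwVec A B n) := by
  rw [nsq_hwVec (by omega) (by omega)]
  have h1 : (((A + B - 2 * n : ℕ) : ℝ)) ^ n ≤ (A + B - n + 1).descFactorial n := by
    exact_mod_cast le_trans (Nat.pow_le_pow_left (by omega : A + B - 2 * n ≤ A + B - n + 1 + 1 - n) n)
      (Nat.pow_sub_le_descFactorial _ n)
  have h2 : (A.descFactorial n : ℝ) ≤ (A : ℝ) ^ n := by exact_mod_cast Nat.descFactorial_le_pow A n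
  have h3 : (B.descFactorial n : ℝ) ≤ (B : ℝ) ^ n := by exact_mod_cast Nat.descFactorial_le_pow B n
  have pA : (0 : ℝ) < A.choose n := by exact_mod_cast Nat.choose_pos (by omega)
  have pB : (0 : ℝ) < B.choose n := by exact_mod_cast Nat.choose_pos (by omega)
  have pf : (0 : ℝ) < n.factorial := by exact_mod_cast n.factorial_pos
  rw [← mul_div_assoc, le_div_iff₀ (mul_pos pA pB)]
  refine le_of_mul_le_mul_right ?_ pf
  calc (n.factorial : ℝ) * (A.choose n * B.choose n) * n.factorial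
      = (A.descFactorial n : ℝ) * B.descFactorial n := by
        rw [Nat.descFactorial_eq_factorial_mul_choose, Nat.descFactorial_eq_factorial_mul_choose]
        push_cast; ring
    _ ≤ (A : ℝ) ^ n * (B : ℝ) ^ n := by gcongr
    _ ≤ (κ * (A + B - 2 * n : ℕ)) ^ n * (B : ℝ) ^ n := by gcongr
    _ = (κ * B) ^ n * ((A + B - 2 * n : ℕ) : ℝ) ^ n := by rw [← mul_pow, ← mul_pow]; ring
    _ ≤ (κ * B) ^ n * (A + B - n + 1).descFactorial n := by gcongr
    _ = _ := by
        rw [Nat.descFactorial_eq_factorial_mul_choose]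
        push_cast; ring

/-- One step of the ratio of norms of highest weight vectors. -/
theorem nsq_hwVec_step {D B r : ℕ} {σ : ℝ} (hD : 2 * B ≤ D) (hr : r < B)
    (h : (D : ℝ) + 2 ≤ σ * ((D : ℝ) + B + 2)) :
    ((r : ℝ) + 1) * nsq (hwVec D B r) ≤ σ * B * nsq (hwVec (D + 2) B (r + 1)) := by
  rw [nsq_hwVec (by omega) hr.le, nsq_hwVec (by omega) hr,
    show D + 2 + B - (r + 1) + 1 = D + B - r + 1 + 1 by omega]
  have a1 : (((D + B - r + 1 + 1).choose (r + 1) : ℕ) : ℝ) * (r + 1)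
      = ((D + B - r + 1).choose r : ℝ) * ((D : ℝ) + B - r + 2) := by
    have := Nat.add_one_mul_choose_eq (D + B - r + 1) r
    have hc : (((D + B - r + 1 + 1 : ℕ)) : ℝ) = (D : ℝ) + B - r + 2 := by
      push_cast [Nat.cast_sub (by omega : r ≤ D + B)]
      ring
    rw [← hc, mul_comm ((D + B - r + 1).choose r : ℝ)]
    exact_mod_cast this.symm
  have a2 : ((D + 2).choose (r + 1) : ℝ) * (r + 1) * ((D : ℝ) + 1 - r)
      = (D.choose r : ℝ) * ((D : ℝ) + 2) * ((D : ℝ) + 1) := by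
    have := Nat.add_one_mul_choose_eq (D + 1) r
    have e1 : (((D + 2).choose (r + 1) : ℕ) : ℝ) * (r + 1) = ((D : ℝ) + 2) * (D + 1).choose r := by
      exact_mod_cast this.symm
    have := Nat.choose_mul_succ_eq D r
    have e2 : (D.choose r : ℝ) * ((D : ℝ) + 1) = (D + 1).choose r * ((D : ℝ) + 1 - r) := by
      rw [show (D : ℝ) + 1 - r = ((D + 1 - r : ℕ) : ℝ) by
        push_cast [Nat.cast_sub (by omega : r ≤ D + 1)]; ring]
      exact_mod_cast this
    rw [e1, mul_assoc, ← e2]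
    ring
  have a3 := choose_succ_real B r
  have p1 : (0 : ℝ) < D.choose r := by exact_mod_cast Nat.choose_pos (by omega)
  have p2 : (0 : ℝ) < (D + 2).choose (r + 1) := by exact_mod_cast Nat.choose_pos (by omega)
  have p3 : (0 : ℝ) < B.choose r := by exact_mod_cast Nat.choose_pos hr.le
  have p4 : (0 : ℝ) < B.choose (r + 1) := by exact_mod_cast Nat.choose_pos hr
  have hr' : (r : ℝ) + 1 ≤ B := by exact_mod_cast hr
  have hD' : 2 * (B : ℝ) ≤ D := by exact_mod_cast hD
  have hr0 : (0 : ℝ) ≤ r := r.cast_nonneg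
  have key : ((D : ℝ) + 2) * ((D : ℝ) + 1) * ((B : ℝ) - r)
      ≤ σ * B * ((D : ℝ) + B - r + 2) * ((D : ℝ) + 1 - r) := by
    have hid : ((D : ℝ) + B + 2) * ((D : ℝ) + 1) * ((B : ℝ) - r)
        ≤ B * ((D : ℝ) + B - r + 2) * ((D : ℝ) + 1 - r) := by
      nlinarith [mul_nonneg hr0 (mul_nonneg (by linarith : (0 : ℝ) ≤ (D : ℝ) + B + 2 - 2 * B)
        (by linarith : (0 : ℝ) ≤ (D : ℝ) + 1)), mul_nonneg hr0 (mul_nonneg (by linarith : (0 : ℝ) ≤ (D : ℝ) + 1 - 2 * B)
        (by linarith : (0 : ℝ) ≤ (D : ℝ) + B + 2)), mul_nonneg hr0 (mul_nonneg (by linarith : (0 : ℝ) ≤ (B : ℝ)) hr0)]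
    have hσ : 0 ≤ σ := by
      by_contra hc
      nlinarith
    calc _ ≤ σ * ((D : ℝ) + B + 2) * ((D : ℝ) + 1) * ((B : ℝ) - r) :=
          mul_le_mul_of_nonneg_right (mul_le_mul_of_nonneg_right h (by linarith)) (by linarith)
      _ = σ * (((D : ℝ) + B + 2) * ((D : ℝ) + 1) * ((B : ℝ) - r)) := by ring
      _ ≤ σ * (B * ((D : ℝ) + B - r + 2) * ((D : ℝ) + 1 - r)) :=
          mul_le_mul_of_nonneg_left hid hσ
      _ = _ := by ring
  have p5 : (0 : ℝ) < (r : ℝ) + 1 := by linarith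
  have eN : ((D + B - r + 1 + 1).choose (r + 1) : ℝ)
      = ((D + B - r + 1).choose r : ℝ) * ((D : ℝ) + B - r + 2) / (r + 1) := by
    rw [eq_div_iff p5.ne', a1]
  have eD : ((D + 2).choose (r + 1) : ℝ)
      = (D.choose r : ℝ) * ((D : ℝ) + 2) * ((D : ℝ) + 1) / ((r + 1) * ((D : ℝ) + 1 - r)) := by
    rw [eq_div_iff (mul_ne_zero p5.ne' (by linarith)), ← mul_assoc, a2]
  have eB : (B.choose (r + 1) : ℝ) = (B.choose r : ℝ) * ((B : ℝ) - r) / (r + 1) := by
    rw [eq_div_iff p5.ne', a3]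
  rw [eN, eD, eB]
  have q1 : (0 : ℝ) < (D : ℝ) + 1 - r := by linarith
  have q2 : (0 : ℝ) < (B : ℝ) - r := by linarith
  have q3 : (0 : ℝ) ≤ ((D + B - r + 1).choose r : ℝ) := Nat.cast_nonneg _
  rw [← sub_nonneg]
  have : σ * B * (((D + B - r + 1).choose r : ℝ) * ((D : ℝ) + B - r + 2) / (r + 1) /
      ((D.choose r : ℝ) * ((D : ℝ) + 2) * ((D : ℝ) + 1) / ((r + 1) * ((D : ℝ) + 1 - r)) *
        ((B.choose r : ℝ) * ((B : ℝ) - r) / (r + 1)))) -
      ((r : ℝ) + 1) * (((D + B - r + 1).choose r : ℝ) / ((D.choose r : ℝ) * B.choose r))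
      = ((r : ℝ) + 1) * ((D + B - r + 1).choose r) *
        (σ * B * ((D : ℝ) + B - r + 2) * ((D : ℝ) + 1 - r) - ((D : ℝ) + 2) * ((D : ℝ) + 1) * ((B : ℝ) - r))
        / ((D.choose r : ℝ) * B.choose r * ((D : ℝ) + 2) * ((D : ℝ) + 1) * ((B : ℝ) - r)) := by
    field_simp
  rw [this]
  refine div_nonneg (mul_nonneg (by positivity) (by linarith)) ?_
  have : (0 : ℝ) ≤ (D : ℝ) := D.cast_nonneg
  positivity

theorem nsq_hwVec_iterate {D B r : ℕ} {σ : ℝ} (hσ : 0 ≤ σ) (hD : 2 * B ≤ D) : ∀ k : ℕ, r + k ≤ B →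
    (∀ j < k, ((D + 2 * j : ℕ) : ℝ) + 2 ≤ σ * (((D + 2 * j : ℕ) : ℝ) + B + 2)) →
    ((r : ℝ) + 1) ^ k * nsq (hwVec D B r) ≤ (σ * B) ^ k * nsq (hwVec (D + 2 * k) B (r + k)) := by
  intro k
  induction k with
  | zero => simp
  | succ k ih =>
    intro hk h
    have h0 := ih (by omega) fun j hj => h j (by omega)
    have h1 := nsq_hwVec_step (D := D + 2 * k) (B := B) (r := r + k) (σ := σ) (by omega) (by omega)
      (h k (Nat.lt_succ_self k))
    have hn : 0 ≤ nsq (hwVec (D + 2 * k) B (r + k)) := by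
      unfold nsq dotProduct
      exact sum_nonneg fun p _ => mul_self_nonneg _
    rw [pow_succ, pow_succ, show D + 2 * (k + 1) = D + 2 * k + 2 by ring,
      show r + (k + 1) = r + k + 1 by ring]
    calc ((r : ℝ) + 1) ^ k * (r + 1) * nsq (hwVec D B r)
        = ((r : ℝ) + 1) * (((r : ℝ) + 1) ^ k * nsq (hwVec D B r)) := by ring
      _ ≤ ((r : ℝ) + 1) * ((σ * B) ^ k * nsq (hwVec (D + 2 * k) B (r + k))) := by gcongr
      _ ≤ ((r + k : ℕ) + 1 : ℝ) * ((σ * B) ^ k * nsq (hwVec (D + 2 * k) B (r + k))) := by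
          gcongr
          simp
      _ = (σ * B) ^ k * (((r + k : ℕ) + 1 : ℝ) * nsq (hwVec (D + 2 * k) B (r + k))) := by ring
      _ ≤ _ := by
          rw [mul_assoc ((σ * B) ^ k)]
          gcongr

/-- The scalar overlap bound, for impurity degree `A` within `2B-10..2B+4`. -/
theorem ovSum_sq_le {A B n q L : ℕ} (hB : 10000 ≤ B) (hA1 : 2 * B ≤ A + 10) (hA2 : A ≤ 2 * B + 4)
    (hnq : n ≤ q) (hq : q ≤ 30) (hL : n + q ≤ L) (hL0 : 0 < L) (hLB : L ≤ B + n) :
    ovSum A B n q L ^ 2 * nsq (hwVec (A + B - 2 * q) B (L - q)) ≤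
      ovBound n q L * nsq (hwVec A B n) * nsq (hwVec A B q) *
        nsq (hwVec (A + B - 2 * n) B (L - n)) := by
  have eA1 : 2 * (B : ℝ) ≤ A + 10 := by exact_mod_cast hA1
  have eA2 : (A : ℝ) ≤ 2 * B + 4 := by exact_mod_cast hA2
  have eB : (10000 : ℝ) ≤ B := by exact_mod_cast hB
  have eq30 : (q : ℝ) ≤ 30 := by exact_mod_cast hq
  have en30 : (n : ℝ) ≤ q := by exact_mod_cast hnq
  have en0 : (0 : ℝ) ≤ n := n.cast_nonneg
  have c1 : ((A + B - 2 * n : ℕ) : ℝ) = A + B - 2 * n := by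
    push_cast [Nat.cast_sub (by omega : 2 * n ≤ A + B)]; ring
  have c2 : ((A + B - 2 * q : ℕ) : ℝ) = A + B - 2 * q := by
    push_cast [Nat.cast_sub (by omega : 2 * q ≤ A + B)]; ring
  have c3 : ((B - q : ℕ) : ℝ) = B - q := by push_cast [Nat.cast_sub (by omega : q ≤ B)]; ring
  have c4 : ((A - q : ℕ) : ℝ) = A - q := by push_cast [Nat.cast_sub (by omega : q ≤ A)]; ring
  have c5 : ((B - n : ℕ) : ℝ) = B - n := by push_cast [Nat.cast_sub (by omega : n ≤ B)]; ring
  have hs := abs_ovSum_le (θ := 336 / 1000) (ρ := 503 / 1000) (by norm_num) (by norm_num)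
    (by norm_num) (A := A) (B := B) hnq (by omega) (by omega) hL hL0
    (by rw [c1, c5]; linarith) (by rw [c3, c4]; linarith)
  have hn1 := inv_nsq_hwVec_le (A := A) (B := B) (n := n) (κ := 67 / 100) (by norm_num) (by omega)
    (by omega) (by rw [c1]; linarith)
  have hn2 := inv_nsq_hwVec_le (A := A) (B := B) (n := q) (κ := 67 / 100) (by norm_num) (by omega)
    (by omega) (by rw [c2]; linarith)
  have hk := nsq_hwVec_iterate (D := A + B - 2 * q) (B := B) (r := L - q) (σ := 76 / 100)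
    (by norm_num) (by omega) (q - n) (by omega) (fun j hj => by
      have : ((A + B - 2 * q + 2 * j : ℕ) : ℝ) ≤ A + B := by
        exact_mod_cast (by omega : A + B - 2 * q + 2 * j ≤ A + B)
      linarith)
  rw [show A + B - 2 * q + 2 * (q - n) = A + B - 2 * n by omega,
    show L - q + (q - n) = L - n by omega] at hk
  have nn : ∀ D r : ℕ, 0 ≤ nsq (hwVec D B r) := fun D r => by
    unfold nsq dotProduct
    exact sum_nonneg fun p _ => mul_self_nonneg _
  have nA : ∀ r : ℕ, 0 ≤ nsq (hwVec A B r) := fun r => by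
    unfold nsq dotProduct
    exact sum_nonneg fun p _ => mul_self_nonneg _
  have hL0' : (0 : ℝ) < L := by exact_mod_cast hL0
  have hBq : (0 : ℝ) < (B : ℝ) - q := by linarith
  -- square of the sum bound
  have hsq : ovSum A B n q L ^ 2 * ((B : ℝ) - q) ^ (2 * q) ≤
      (336 / 1000 : ℝ) ^ (2 * (L - q - n)) * ((1503 / 1000 * L) ^ (2 * q) *
        (1 + 17 * q / (100 * L)) ^ (2 * n)) := by
    rw [c3] at hs
    have h2 : (1 : ℝ) + 336 / 1000 * (503 / 1000) * q / L ≤ 1 + 17 * q / (100 * L) := by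
      rw [show (336 / 1000 * (503 / 1000) * (q : ℝ) / L) = (336 * 503 / 10000 * q) / (100 * L) by
        field_simp; ring]
      gcongr
      norm_num
    calc ovSum A B n q L ^ 2 * ((B : ℝ) - q) ^ (2 * q)
        = (|ovSum A B n q L| * ((B : ℝ) - q) ^ q) ^ 2 := by rw [mul_pow, sq_abs, ← pow_mul']
      _ ≤ ((336 / 1000 : ℝ) ^ (L - q - n) * ((1503 / 1000 * L) ^ q *
            (1 + 17 * q / (100 * L)) ^ n)) ^ 2 := by
          refine pow_le_pow_left₀ (mul_nonneg (abs_nonneg _) (pow_nonneg hBq.le _)) (hs.trans ?_) 2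
          rw [show (1 : ℝ) + 503 / 1000 = 1503 / 1000 by norm_num]
          gcongr
      _ = _ := by ring
  have hlam : (1503 / 1000 * (L : ℝ)) * B ≤ (151 / 100 * L) * ((B : ℝ) - q) := by nlinarith
  -- combine
  have hprod : (n.factorial : ℝ) * q.factorial * ((L - q : ℕ) + 1 : ℝ) ^ (q - n) *
      nsq (hwVec (A + B - 2 * q) B (L - q)) ≤
      (67 / 100 * (B : ℝ)) ^ (n + q) * (76 / 100 * B) ^ (q - n) *
        (nsq (hwVec A B n) * nsq (hwVec A B q) * nsq (hwVec (A + B - 2 * n) B (L - n))) := by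
    calc _ = (n.factorial : ℝ) * q.factorial *
          (((L - q : ℕ) + 1 : ℝ) ^ (q - n) * nsq (hwVec (A + B - 2 * q) B (L - q))) := by ring
      _ ≤ ((67 / 100 * (B : ℝ)) ^ n * nsq (hwVec A B n)) *
            ((67 / 100 * (B : ℝ)) ^ q * nsq (hwVec A B q)) *
            ((76 / 100 * (B : ℝ)) ^ (q - n) * nsq (hwVec (A + B - 2 * n) B (L - n))) := by
          refine mul_le_mul (mul_le_mul hn1 hn2 (by positivity) (mul_nonneg (by positivity) (nA n)))
            hk (mul_nonneg (by positivity) (nn _ _)) (mul_nonneg (mul_nonneg (by positivity) (nA n))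
              (mul_nonneg (by positivity) (nA q)))
      _ = _ := by rw [pow_add]; ring
  have P : (0 : ℝ) < (n.factorial : ℝ) * q.factorial * ((L - q : ℕ) + 1 : ℝ) ^ (q - n) := by
    positivity
  refine le_of_mul_le_mul_right ?_ (mul_pos P (pow_pos hBq (2 * q)))
  calc ovSum A B n q L ^ 2 * nsq (hwVec (A + B - 2 * q) B (L - q)) *
        ((n.factorial : ℝ) * q.factorial * ((L - q : ℕ) + 1 : ℝ) ^ (q - n) *
          ((B : ℝ) - q) ^ (2 * q))
      = (ovSum A B n q L ^ 2 * ((B : ℝ) - q) ^ (2 * q)) *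
          ((n.factorial : ℝ) * q.factorial * ((L - q : ℕ) + 1 : ℝ) ^ (q - n) *
            nsq (hwVec (A + B - 2 * q) B (L - q))) := by ring
    _ ≤ ((336 / 1000 : ℝ) ^ (2 * (L - q - n)) * ((1503 / 1000 * L) ^ (2 * q) *
          (1 + 17 * q / (100 * L)) ^ (2 * n))) *
          ((67 / 100 * (B : ℝ)) ^ (n + q) * (76 / 100 * B) ^ (q - n) *
            (nsq (hwVec A B n) * nsq (hwVec A B q) * nsq (hwVec (A + B - 2 * n) B (L - n)))) :=
        mul_le_mul hsq hprod (mul_nonneg P.le (nn _ _)) (by positivity)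
    _ = (336 / 1000 : ℝ) ^ (2 * (L - q - n)) * ((1503 / 1000 * L * B) ^ (2 * q)) *
          ((1 + 17 * q / (100 * L)) ^ (2 * n) * (67 / 100) ^ (n + q) * (76 / 100) ^ (q - n) *
            (nsq (hwVec A B n) * nsq (hwVec A B q) * nsq (hwVec (A + B - 2 * n) B (L - n)))) := by
        rw [mul_pow (67 / 100 : ℝ), mul_pow (76 / 100 : ℝ), mul_pow _ (B : ℝ) (2 * q),
          show (B : ℝ) ^ (2 * q) = (B : ℝ) ^ (n + q) * (B : ℝ) ^ (q - n) by
            rw [← pow_add]; congr 1; omega]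
        ring
    _ ≤ (336 / 1000 : ℝ) ^ (2 * (L - q - n)) * ((151 / 100 * L * ((B : ℝ) - q)) ^ (2 * q)) *
          ((1 + 17 * q / (100 * L)) ^ (2 * n) * (67 / 100) ^ (n + q) * (76 / 100) ^ (q - n) *
            (nsq (hwVec A B n) * nsq (hwVec A B q) * nsq (hwVec (A + B - 2 * n) B (L - n)))) := by
        refine mul_le_mul_of_nonneg_right (mul_le_mul_of_nonneg_left
          (pow_le_pow_left₀ (by positivity) hlam _) (by positivity)) ?_
        exact mul_nonneg (by positivity) (mul_nonneg (mul_nonneg (nA n) (nA q)) (nn _ _))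
    _ = _ := by
        unfold ovBound
        rw [mul_pow _ ((B : ℝ) - q) (2 * q), div_pow (76 / 100 : ℝ)]
        have : ((L - q : ℕ) + 1 : ℝ) ^ (q - n) ≠ 0 := by positivity
        field_simp

end P359
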