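import Vale.Agent.P359.Scalars

/-!
P359, piece C4b: overlap of the channel vectors of electron 3 and of electron 4.
-/

namespace P359

open Finset Matrix
open scoped BigOperators

/-- Channel `n` of (impurity, electron 3) times electron 4, highest weight: weight `n + r`. -/
noncomputable def tri3 (A B n r : ℕ) : Three A B → ℝ := fun p =>
  ∑ m : Fin (A + B - 2 * n + 1),
    chan A B (A + B - 2 * n) n (p.1, p.2.1) m * hwVec (A + B - 2 * n) B r (m, p.2.2)

/-- The same with electrons 3 and 4 exchanged. -/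
noncomputable def tri4 (A B n r : ℕ) : Three A B → ℝ := fun p =>
  tri3 A B n r (p.1, p.2.2, p.2.1)

/-- Pull back of a triple vector by channel `q` of (impurity, electron 4). -/
noncomputable def pull4 (A B q : ℕ) (v : Three A B → ℝ) : Two (A + B - 2 * q) B → ℝ := fun p =>
  ∑ a : Fin (A + 1), ∑ e : Fin (B + 1),
    chan A B (A + B - 2 * q) q (a, e) p.1 * v (a, p.2, e)

/-- The scalar in the overlap of channel `n` (electron 3) and `q` (electron 4) at weight `L`. -/
noncomputable def ovSum (A B n q L : ℕ) : ℝ :=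
  ∑ a ∈ range (q + 1),
    (q.choose a : ℝ) * (L - n).choose (a + (L - q) - n) *
        chanCoef A B n a (L - q) (a + (L - q) - n)
      / ((A.choose a : ℝ) * B.choose (q - a))

theorem chan_zero_col (A B D n : ℕ) (p : Two A B) :
    chan A B D n p 0 = hwVec A B n p := by
  unfold chan hwVec chanCoef
  simp only [Fin.val_zero, Nat.choose_zero_right, Nat.cast_one, Real.sqrt_one, mul_one, div_one,
    zero_add]
  by_cases h : (p.1 : ℕ) + p.2 = n
  · rw [if_pos h, sum_eq_single (p.1 : ℕ)]
    · rw [if_pos ⟨le_rfl, by omega, h⟩, show n - (p.1 : ℕ) = p.2 by omega]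
      simp
    · intro i _ hi
      rw [if_neg]
      intro h'
      omega
    · intro hn
      simp only [mem_range] at hn
      omega
  · rw [if_neg h, sum_eq_zero, zero_div]
    intro i _
    rw [if_neg fun h' => h h'.2.2]

theorem chanCoef_eq_zero {A B n a b m : ℕ} (h : a + b ≠ m + n) : chanCoef A B n a b m = 0 :=
  sum_eq_zero fun _ _ => if_neg fun h' => h h'.2.2

theorem tri3_dot_tri4 (A B n q r r' : ℕ) :
    tri3 A B n r ⬝ᵥ tri4 A B q r' =
      ∑ p : Two (A + B - 2 * q) B,
        hwVec (A + B - 2 * q) B r' p * pull4 A B q (tri3 A B n r) p := by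
  unfold dotProduct pull4
  simp only [tri4]
  conv_lhs => arg 2; ext p; rw [tri3.eq_def A B q r']; simp only [mul_sum]
  simp only [Fintype.sum_prod_type, mul_sum]
  rw [sum_congr rfl fun a _ => sum_congr rfl fun b _ => sum_comm,
    sum_congr rfl fun a _ => sum_comm, sum_comm, sum_congr rfl fun m _ => sum_comm]
  refine sum_congr rfl fun m _ => sum_congr rfl fun b _ => sum_congr rfl fun x _ =>
    sum_congr rfl fun e _ => ?_
  ring

theorem nsq_tri3 {A B n r : ℕ}
    (hc : (chan A B (A + B - 2 * n) n)ᵀ * chan A B (A + B - 2 * n) n =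
      nsq (hwVec A B n) • (1 : Matrix (Fin (A + B - 2 * n + 1)) (Fin (A + B - 2 * n + 1)) ℝ)) :
    nsq (tri3 A B n r) = nsq (hwVec A B n) * nsq (hwVec (A + B - 2 * n) B r) := by
  generalize nsq (hwVec A B n) = c at hc ⊢
  have key : ∀ m m' : Fin (A + B - 2 * n + 1),
      ∑ a : Fin (A + 1), ∑ b : Fin (B + 1),
        chan A B (A + B - 2 * n) n (a, b) m * chan A B (A + B - 2 * n) n (a, b) m'
      = c * if m = m' then 1 else 0 := by
    intro m m'
    have := congrFun (congrFun hc m) m'
    simpa [Matrix.mul_apply, Fintype.sum_prod_type, Matrix.one_apply] using this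
  unfold nsq
  simp only [dotProduct, tri3, mul_sum, Fintype.sum_prod_type, sum_mul]
  rw [sum_congr rfl fun a _ => sum_congr rfl fun b _ => sum_comm,
    sum_congr rfl fun a _ => sum_comm, sum_comm,
    sum_congr rfl fun m _ => sum_congr rfl fun a _ => sum_congr rfl fun b _ => sum_comm,
    sum_congr rfl fun m _ => sum_congr rfl fun a _ => sum_comm,
    sum_congr rfl fun m _ => sum_comm,
    sum_congr rfl fun m _ => sum_congr rfl fun m' _ => sum_congr rfl fun a _ => sum_comm,
    sum_congr rfl fun m _ => sum_congr rfl fun m' _ => sum_comm]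
  refine sum_congr rfl fun m _ => ?_
  trans ∑ m' : Fin (A + B - 2 * n + 1), ∑ e : Fin (B + 1),
      (hwVec (A + B - 2 * n) B r (m, e) * hwVec (A + B - 2 * n) B r (m', e)) *
        ∑ a : Fin (A + 1), ∑ b : Fin (B + 1),
          chan A B (A + B - 2 * n) n (a, b) m' * chan A B (A + B - 2 * n) n (a, b) m
  · refine sum_congr rfl fun m' _ => sum_congr rfl fun e _ => ?_
    simp only [mul_sum]
    refine sum_congr rfl fun a _ => sum_congr rfl fun b _ => ?_
    ring
  · simp only [key]
    rw [sum_comm]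
    refine sum_congr rfl fun e _ => ?_
    simp only [mul_ite, mul_one, mul_zero]
    rw [sum_ite_eq', if_pos (mem_univ _)]
    ring

theorem tri3_apply {A B n r : ℕ} (hr : r ≤ A + B - 2 * n) (a : Fin (A + 1)) (b e : Fin (B + 1))
    (h : (a : ℕ) + b + e = n + r) (hn : n ≤ (a : ℕ) + b) :
    tri3 A B n r (a, b, e) =
      (-1 : ℝ) ^ (e : ℕ) * r.choose ((a : ℕ) + b - n) *
          chanCoef A B n a b ((a : ℕ) + b - n)
        / (Real.sqrt ((A.choose (a : ℕ) : ℝ) * B.choose (b : ℕ)) * Real.sqrt (B.choose (e : ℕ))) := by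
  unfold tri3 chan hwVec
  rw [sum_eq_single (⟨(a : ℕ) + b - n, by omega⟩ : Fin (A + B - 2 * n + 1))]
  · simp only
    rw [if_pos (by omega), Real.sqrt_mul (Nat.cast_nonneg ((A + B - 2 * n).choose _))]
    have hp : (0 : ℝ) < Real.sqrt ((A + B - 2 * n).choose ((a : ℕ) + b - n)) :=
      Real.sqrt_pos.2 (by exact_mod_cast Nat.choose_pos (by omega))
    field_simp
  · intro m _ hm
    by_cases h1 : (a : ℕ) + b = m + n
    · exact absurd (Fin.ext (by simp only; omega)) hm
    · rw [chanCoef_eq_zero h1]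
      simp
  · simp

theorem pull4_tri3_entry {A B n q L : ℕ} (hqA : q ≤ A) (hqB : q ≤ B) (hL : n + q ≤ L)
    (hB' : L - q ≤ B) (hr : L - n ≤ A + B - 2 * n) :
    pull4 A B q (tri3 A B n (L - n)) (0, ⟨L - q, by omega⟩)
      = ovSum A B n q L / Real.sqrt (B.choose (L - q)) := by
  unfold pull4
  let f : ℕ → ℕ → ℝ := fun a e => (-1 : ℝ) ^ e * q.choose a /
      Real.sqrt ((A.choose a : ℝ) * B.choose e) *
    ((-1 : ℝ) ^ e * (L - n).choose (a + (L - q) - n) * chanCoef A B n a (L - q) (a + (L - q) - n)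
        / (Real.sqrt ((A.choose a : ℝ) * B.choose (L - q)) * Real.sqrt (B.choose e)))
  have e1 : ∀ (a : Fin (A + 1)) (e : Fin (B + 1)),
      chan A B (A + B - 2 * q) q (a, e) 0 * tri3 A B n (L - n) (a, ⟨L - q, by omega⟩, e)
        = if (a : ℕ) + e = q then f a e else 0 := by
    intro a e
    rw [chan_zero_col]
    by_cases h : (a : ℕ) + e = q
    · rw [if_pos h, tri3_apply hr _ _ _ (by simp only; omega) (by simp only; omega)]
      simp only [hwVec, h, if_true, f]
    · simp [hwVec, h]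
  simp only [e1]
  rw [← Fintype.sum_prod_type' (fun (a : Fin (A + 1)) (e : Fin (B + 1)) =>
    if (a : ℕ) + e = q then f a e else 0), sum_two_line hqA hqB f, ovSum, sum_div]
  refine sum_congr rfl fun a ha => ?_
  simp only [f]
  rw [Real.sqrt_mul (by positivity), Real.sqrt_mul (by positivity)]
  have h2 : Real.sqrt (A.choose a : ℝ) ^ 2 = A.choose a := Real.sq_sqrt (by positivity)
  have h3 : Real.sqrt (B.choose (q - a) : ℝ) ^ 2 = B.choose (q - a) := Real.sq_sqrt (by positivity)
  have h4 : ((-1 : ℝ) ^ (q - a)) ^ 2 = 1 := by rw [← pow_mul, pow_mul', neg_one_sq, one_pow]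
  rw [mem_range] at ha
  have q1 : (0 : ℝ) < Real.sqrt (A.choose a) :=
    Real.sqrt_pos.2 (by exact_mod_cast Nat.choose_pos (by omega))
  have q2 : (0 : ℝ) < Real.sqrt (B.choose (q - a)) :=
    Real.sqrt_pos.2 (by exact_mod_cast Nat.choose_pos (by omega))
  have q3 : (0 : ℝ) < Real.sqrt (B.choose (L - q)) :=
    Real.sqrt_pos.2 (by exact_mod_cast Nat.choose_pos hB')
  field_simp
  rw [h2, h3, h4]
  have r1 : (A.choose a : ℝ) ≠ 0 := by exact_mod_cast (Nat.choose_pos (by omega)).ne'
  have r2 : (B.choose (q - a) : ℝ) ≠ 0 := by exact_mod_cast (Nat.choose_pos (by omega)).ne'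
  field_simp

/-- Exact overlap, given that the pull back is a highest weight vector. -/
theorem tri3_dot_tri4_eq {A B n q L : ℕ} (hqA : q ≤ A) (hqB : q ≤ B) (hL : n + q ≤ L)
    (hB' : L - q ≤ B) (hr : L - n ≤ A + B - 2 * n)
    (hw : ∃ c : ℝ, pull4 A B q (tri3 A B n (L - n)) = c • hwVec (A + B - 2 * q) B (L - q)) :
    tri3 A B n (L - n) ⬝ᵥ tri4 A B q (L - q) =
      (-1 : ℝ) ^ (L - q) * nsq (hwVec (A + B - 2 * q) B (L - q)) * ovSum A B n q L := by
  obtain ⟨c, hc⟩ := hw
  have he := pull4_tri3_entry hqA hqB hL hB' hr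
  rw [hc] at he
  have hv : hwVec (A + B - 2 * q) B (L - q) (0, ⟨L - q, by omega⟩) =
      (-1) ^ (L - q) / Real.sqrt (B.choose (L - q)) := by
    simp [hwVec]
  rw [Pi.smul_apply, smul_eq_mul, hv] at he
  have hp : (0 : ℝ) < Real.sqrt (B.choose (L - q)) :=
    Real.sqrt_pos.2 (by exact_mod_cast Nat.choose_pos hB')
  have hs : ((-1 : ℝ) ^ (L - q)) * (-1) ^ (L - q) = 1 := by
    rw [← pow_add, Even.neg_one_pow ⟨_, rfl⟩]
  have hc' : c = (-1) ^ (L - q) * ovSum A B n q L := by
    field_simp at he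
    linear_combination ((-1 : ℝ) ^ (L - q)) * he - c * hs
  rw [tri3_dot_tri4, hc]
  simp only [nsq, dotProduct, Pi.smul_apply, smul_eq_mul, mul_sum, sum_mul]
  refine sum_congr rfl fun p _ => ?_
  rw [hc']
  ring

end P359
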