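import Vale.Agent.P359.HighestWeight
import Vale.Agent.P359.Overlap

/-!
P359: action of channel-to-channel maps on highest weight vectors of three particles.

A map `chan A' B D n' * (chan A B D n)ᵀ` on electron 3 sends a highest weight vector `F` of weight
`L` to a multiple of `tri3 A' B n' (L - n)`, with coefficient `⟨tri3 A B n (L-n), F⟩ / ‖hwVec‖²`.
-/

namespace P359

open Matrix Finset
open scoped BigOperators Kronecker

/-- `chan ⊗ id` into three particles. -/
noncomputable def lift3 {A B D : ℕ} (C : Matrix (Two A B) (Fin (D + 1)) ℝ) :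
    Matrix (Three A B) (Two D B) ℝ :=
  (C ⊗ₖ (1 : Matrix (Fin (B + 1)) (Fin (B + 1)) ℝ)).submatrix (assoc3 A B) id

theorem lift3_apply {A B D : ℕ} (C : Matrix (Two A B) (Fin (D + 1)) ℝ) (p : Three A B)
    (q : Two D B) : lift3 C p q = if p.2.2 = q.2 then C (p.1, p.2.1) q.1 else 0 := by
  simp [lift3, kroneckerMap_apply, Matrix.one_apply]

theorem tri3_eq_lift {A B D n : ℕ} (hD : A + B - 2 * n = D) (r : ℕ) :
    tri3 A B n r = lift3 (chan A B D n) *ᵥ hwVec D B r := by
  subst hD
  funext p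
  simp [tri3, mulVec, dotProduct, lift3_apply, Fintype.sum_prod_type, ite_mul]

theorem act3_mul_transpose {A A' B D : ℕ} (C' : Matrix (Two A' B) (Fin (D + 1)) ℝ)
    (C : Matrix (Two A B) (Fin (D + 1)) ℝ) : act3 (C' * Cᵀ) = lift3 C' * (lift3 C)ᵀ := by
  ext p q
  simp only [Matrix.mul_apply, Matrix.transpose_apply, lift3_apply, act3, Fintype.sum_prod_type]
  by_cases h : p.2.2 = q.2.2
  · rw [if_pos h]
    refine Finset.sum_congr rfl fun m _ => ?_
    simp [h]
  · rw [if_neg h]
    refine (Finset.sum_eq_zero fun m _ => Finset.sum_eq_zero fun e _ => ?_).symm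
    by_cases h1 : p.2.2 = e
    · subst h1
      simp [Ne.symm h]
    · simp [h1]

theorem lift3_intertwines {A B D n : ℕ} (hD : D + 2 * n = A + B) (hA : n ≤ A) (hB : n ≤ B) :
    Intertwines wt2 (raise2 D B) wt3 (raise3 A B) n (lift3 (chan A B D n)) := by
  have h := ((chan_intertwines hD hA hB).kronRight (w'' := fun b : Fin (B + 1) => (b : ℕ))
    (J'' := raise B)).submatrix (Equiv.refl _) (assoc3 A B)
  rw [← raise3_eq_left] at h
  rw [← raise2_eq_jsum] at h
  simp only [Equiv.coe_refl, submatrix_id_id, id_eq, assoc3_apply] at h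
  exact h

/-- The electron-3 channel component of a highest weight vector. -/
theorem lift3_transpose_hw {A B D n L : ℕ} (hD : D + 2 * n = A + B) (hA : n ≤ A) (hB : n ≤ B)
    {F : Three A B → ℝ} (hF : Supp wt3 L F) (hJ : raise3 A B *ᵥ F = 0) :
    (lift3 (chan A B D n))ᵀ *ᵥ F =
      if n ≤ L then (tri3 A B n (L - n) ⬝ᵥ F / nsq (hwVec D B (L - n))) • hwVec D B (L - n)
      else 0 := by
  have hT := (lift3_intertwines hD hA hB).transpose
  have hu := hT.mulVec_ker hJ
  by_cases hnL : n ≤ L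
  · rw [if_pos hnL]
    have hs := hT.supp (m := L) (m' := L - n) (by omega) hF
    set u := (lift3 (chan A B D n))ᵀ *ᵥ F with hu'
    rcases le_or_gt (L - n) B with hrB | hrB
    · have hp := nsq_hwVec_pos (A := D) hrB
      have heq := hw_unique hs hu
      have hdot : tri3 A B n (L - n) ⬝ᵥ F = hwVec D B (L - n) ⬝ᵥ u := by
        rw [tri3_eq_lift (D := D) (by omega), hu', dotProduct_mulVec, vecMul_transpose]
      rw [hdot]
      conv_rhs => rw [heq, dotProduct_smul, smul_eq_mul, ← nsq, mul_div_assoc, div_self hp.ne',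
        mul_one]
      exact heq
    · have h0 : u = 0 := hw_eq_zero hrB hs hu
      have hdot : tri3 A B n (L - n) ⬝ᵥ F = hwVec D B (L - n) ⬝ᵥ u := by
        rw [tri3_eq_lift (D := D) (by omega), hu', dotProduct_mulVec, vecMul_transpose]
      rw [hdot, h0, dotProduct_zero, zero_div, zero_smul]
  · rw [if_neg hnL]
    funext q
    refine Finset.sum_eq_zero fun p _ => ?_
    by_cases hC : lift3 (chan A B D n) p q = 0
    · simp [hC]
    · have := (lift3_intertwines hD hA hB).weight p q hC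
      simp [hF p (by omega)]

/-- Action of a channel-to-channel map on electron 3. -/
theorem act3_chan_hw {A A' B D n n' L : ℕ} (hD : D + 2 * n = A + B) (hD' : D + 2 * n' = A' + B)
    (hA : n ≤ A) (hB : n ≤ B) {F : Three A B → ℝ} (hF : Supp wt3 L F)
    (hJ : raise3 A B *ᵥ F = 0) :
    act3 (chan A' B D n' * (chan A B D n)ᵀ) *ᵥ F =
      if n ≤ L then (tri3 A B n (L - n) ⬝ᵥ F / nsq (hwVec D B (L - n))) • tri3 A' B n' (L - n)
      else 0 := by
  rw [act3_mul_transpose, ← mulVec_mulVec, lift3_transpose_hw hD hA hB hF hJ]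
  split_ifs with h
  · rw [mulVec_smul, tri3_eq_lift (A := A') (n := n') (D := D) (by omega)]
  · rw [mulVec_zero]

/-- Action of a channel-to-channel map on electron 4, for antisymmetric `F`. -/
theorem act4_chan_hw {A A' B D n n' L : ℕ} (hD : D + 2 * n = A + B) (hD' : D + 2 * n' = A' + B)
    (hA : n ≤ A) (hB : n ≤ B) {F : Three A B → ℝ} (hF : Supp wt3 L F)
    (hJ : raise3 A B *ᵥ F = 0) (hanti : ∀ a b e, F (a, b, e) = -F (a, e, b)) :
    act4 (chan A' B D n' * (chan A B D n)ᵀ) *ᵥ F =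
      if n ≤ L then -((tri3 A B n (L - n) ⬝ᵥ F / nsq (hwVec D B (L - n))) • tri4 A' B n' (L - n))
      else 0 := by
  have h3 := act3_chan_hw hD hD' hA hB hF hJ
  funext p
  have hp : (act4 (chan A' B D n' * (chan A B D n)ᵀ) *ᵥ F) p
      = -(act3 (chan A' B D n' * (chan A B D n)ᵀ) *ᵥ F) (swapEl A' B p) := by
    simp only [mulVec, dotProduct, act4_eq, submatrix_apply, ← Finset.sum_neg_distrib]
    refine Fintype.sum_equiv (swapEl A B) _ _ fun q => ?_
    rw [hanti q.1 q.2.1 q.2.2, mul_neg]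
    rfl
  rw [hp, h3]
  split_ifs with h
  · simp [tri4]
  · simp

/-- A sum over `ι` of channel-to-channel maps: the cross form on antisymmetric highest weight
vectors. -/
theorem quad_cross_chan {A A' B L : ℕ} {ι : Type*} (s : Finset ι) (n n' D : ι → ℕ) (g : ι → ℝ)
    (hD : ∀ i ∈ s, D i + 2 * n i = A + B) (hD' : ∀ i ∈ s, D i + 2 * n' i = A' + B)
    (hA : ∀ i ∈ s, n i ≤ A) (hB : ∀ i ∈ s, n i ≤ B)
    (G : Matrix (Two A' B) (Two A B) ℝ)
    (hG : G = ∑ i ∈ s, g i • (chan A' B (D i) (n' i) * (chan A B (D i) (n i))ᵀ))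
    {F : Three A B → ℝ} (hF : Supp wt3 L F)
    (hJ : raise3 A B *ᵥ F = 0) (hanti : ∀ a b e, F (a, b, e) = -F (a, e, b)) :
    quad ((act3 G)ᵀ * act4 G) F =
      -∑ i ∈ s.filter (fun i => n i ≤ L), ∑ j ∈ s.filter (fun j => n j ≤ L),
        g i * (tri3 A B (n i) (L - n i) ⬝ᵥ F / nsq (hwVec (D i) B (L - n i)))
          * (g j * (tri3 A B (n j) (L - n j) ⬝ᵥ F / nsq (hwVec (D j) B (L - n j))))
          * (tri3 A' B (n' i) (L - n i) ⬝ᵥ tri4 A' B (n' j) (L - n j)) := by
  have h3 : act3 G *ᵥ F = ∑ i ∈ s.filter (fun i => n i ≤ L),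
      (g i * (tri3 A B (n i) (L - n i) ⬝ᵥ F / nsq (hwVec (D i) B (L - n i))))
        • tri3 A' B (n' i) (L - n i) := by
    have : act3 G = ∑ i ∈ s, g i • act3 (chan A' B (D i) (n' i) * (chan A B (D i) (n i))ᵀ) := by
      ext p q
      simp only [hG, act3, Matrix.sum_apply, Matrix.smul_apply, smul_eq_mul]
      split_ifs with h
      · rfl
      · simp
    rw [this, sum_mulVec, Finset.sum_filter]
    refine Finset.sum_congr rfl fun i hi => ?_
    rw [smul_mulVec, act3_chan_hw (hD i hi) (hD' i hi) (hA i hi) (hB i hi) hF hJ]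
    split_ifs with h
    · rw [smul_smul]
    · rw [smul_zero]
  have h4 : act4 G *ᵥ F = -∑ i ∈ s.filter (fun i => n i ≤ L),
      (g i * (tri3 A B (n i) (L - n i) ⬝ᵥ F / nsq (hwVec (D i) B (L - n i))))
        • tri4 A' B (n' i) (L - n i) := by
    have : act4 G = ∑ i ∈ s, g i • act4 (chan A' B (D i) (n' i) * (chan A B (D i) (n i))ᵀ) := by
      ext p q
      simp only [hG, act4, Matrix.sum_apply, Matrix.smul_apply, smul_eq_mul]
      split_ifs with h
      · rfl
      · simp
    rw [this, sum_mulVec, Finset.sum_filter, ← Finset.sum_neg_distrib]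
    refine Finset.sum_congr rfl fun i hi => ?_
    rw [smul_mulVec, act4_chan_hw (hD i hi) (hD' i hi) (hA i hi) (hB i hi) hF hJ hanti]
    split_ifs with h
    · rw [smul_neg, smul_smul]
    · rw [smul_zero, neg_zero]
  rw [quad, ← mulVec_mulVec, dotProduct_mulVec, vecMul_transpose, h3, h4, dotProduct_neg,
    sum_dotProduct]
  congr 1
  refine Finset.sum_congr rfl fun i _ => ?_
  rw [dotProduct_sum]
  refine Finset.sum_congr rfl fun j _ => ?_
  rw [smul_dotProduct, dotProduct_smul, smul_eq_mul, smul_eq_mul]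
  ring

end P359
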