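import Vale.Agent.P359.HighestWeight
import Vale.Agent.P359.ChannelAct

/-!
P359: a sector of highest weight vectors of three particles in coordinates independent of `Q`.

A highest weight vector `F` of weight `L` has coefficient function `sectorCoef L x`, with
`x j = coef3 F 0 j (L - j)`.  Its norm, its `restK` energy and its channel coordinates are explicit
finite sums in `x` with weights depending on `Q` only through binomial coefficients.
-/

namespace P359

open Matrix Finset
open scoped BigOperators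

/-- Coefficient function of the highest weight vector with boundary values `x`. -/
def sectorCoef {R : Type*} [Ring R] (L : ℕ) (x : ℕ → R) (a b e : ℕ) : R :=
  if a + b + e = L then
    (-1) ^ a * ∑ i ∈ range (a + 1),
      ((b + i).choose i : R) * ((e + (a - i)).choose (a - i) : R) * x (b + i)
  else 0

/-- Boundary values of a vector. -/
noncomputable def boundary {A B : ℕ} (F : Three A B → ℝ) (L j : ℕ) : ℝ := coef3 F 0 j (L - j)

theorem coef3_of_supp {A B L : ℕ} {F : Three A B → ℝ} (hF : Supp wt3 L F) {a b e : ℕ}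
    (h : a + b + e ≠ L) : coef3 F a b e = 0 := by
  unfold coef3
  split_ifs
  · rw [hF _ (by simpa [wt3] using h), zero_mul]
  · rfl

theorem coef3_eq_sector {A B L : ℕ} {F : Three A B → ℝ} (hF : Supp wt3 L F)
    (hJ : raise3 A B *ᵥ F = 0) {a : ℕ} (ha : a ≤ A) (b e : ℕ) :
    coef3 F a b e = sectorCoef L (boundary F L) a b e := by
  unfold sectorCoef
  split_ifs with h
  · rw [hw3_formula hJ a ha b e]
    congr 1
    refine sum_congr rfl fun i hi => ?_
    rw [mem_range] at hi
    rw [boundary, show L - (b + i) = e + (a - i) by omega]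
  · exact coef3_of_supp hF h

theorem boundary_anti {A B L : ℕ} {F : Three A B → ℝ}
    (hanti : ∀ a b e, F (a, b, e) = -F (a, e, b)) {j : ℕ} (hj : j ≤ L) :
    boundary F L (L - j) = -boundary F L j := by
  simp only [boundary, coef3, show L - (L - j) = j by omega]
  by_cases h : j ≤ B ∧ L - j ≤ B
  · rw [dif_pos ⟨Nat.zero_le _, h.2, h.1⟩, dif_pos ⟨Nat.zero_le _, h.1, h.2⟩, hanti]
    rw [mul_right_comm (A.choose 0 : ℝ)]
    ring
  · rw [dif_neg (by tauto), dif_neg (by tauto), neg_zero]

theorem sqrt3_pos {A B a b e : ℕ} (ha : a ≤ A) (hb : b ≤ B) (he : e ≤ B) :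
    0 < Real.sqrt ((A.choose a : ℝ) * B.choose b * B.choose e) := by
  have := Nat.choose_pos ha
  have := Nat.choose_pos hb
  have := Nat.choose_pos he
  apply Real.sqrt_pos.2
  positivity

theorem apply_eq_coef3 {A B : ℕ} (F : Three A B → ℝ) (a : Fin (A + 1)) (b e : Fin (B + 1)) :
    F (a, b, e) = coef3 F a b e /
      Real.sqrt ((A.choose (a : ℕ) : ℝ) * B.choose (b : ℕ) * B.choose (e : ℕ)) := by
  have h := sqrt3_pos (show (a : ℕ) ≤ A by omega) (show (b : ℕ) ≤ B by omega)
    (show (e : ℕ) ≤ B by omega)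
  rw [coef3, dif_pos ⟨by omega, by omega, by omega⟩]
  field_simp

/-- Sums over `Three A B` of a function supported on weight `L`. -/
theorem sum_three_sector {A B L : ℕ} (hA : L ≤ A) (hB : L ≤ B) (f : ℕ → ℕ → ℕ → ℝ)
    (hf : ∀ a b e, a + b + e ≠ L → f a b e = 0) :
    ∑ p : Three A B, f p.1 p.2.1 p.2.2
      = ∑ a ∈ range (L + 1), ∑ b ∈ range (L + 1 - a), f a b (L - a - b) := by
  simp only [Fintype.sum_prod_type]
  rw [Fin.sum_univ_eq_sum_range (fun a => ∑ b : Fin (B + 1), ∑ e : Fin (B + 1), f a b e) (A + 1)]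
  rw [← sum_subset (s₁ := range (L + 1)) (s₂ := range (A + 1))
    (range_subset_range.2 (by omega))]
  · refine sum_congr rfl fun a ha => ?_
    rw [mem_range] at ha
    rw [Fin.sum_univ_eq_sum_range (fun b => ∑ e : Fin (B + 1), f a b e) (B + 1),
      ← sum_subset (s₁ := range (L + 1 - a)) (s₂ := range (B + 1))
        (range_subset_range.2 (by omega))]
    · refine sum_congr rfl fun b hb => ?_
      rw [mem_range] at hb
      rw [sum_eq_single (⟨L - a - b, by omega⟩ : Fin (B + 1))]
      · intro e _ he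
        exact hf a b e fun h => he (Fin.ext (show (e : ℕ) = L - a - b by omega))
      · simp
    · intro b _ hb
      rw [mem_range] at hb
      exact sum_eq_zero fun e _ => hf a b e (by omega)
  · intro a _ ha
    rw [mem_range] at ha
    exact sum_eq_zero fun b _ => sum_eq_zero fun e _ => hf a b e (by omega)

/-- `‖F‖²` in boundary coordinates. -/
theorem nsq_sector {A B L : ℕ} (hA : L ≤ A) (hB : L ≤ B) {F : Three A B → ℝ}
    (hF : Supp wt3 L F) (hJ : raise3 A B *ᵥ F = 0) :
    nsq F = ∑ a ∈ range (L + 1), ∑ b ∈ range (L + 1 - a),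
      sectorCoef L (boundary F L) a b (L - a - b) ^ 2
        / ((A.choose a : ℝ) * B.choose b * B.choose (L - a - b)) := by
  rw [← sum_three_sector hA hB
    (fun a b e => sectorCoef L (boundary F L) a b e ^ 2
      / ((A.choose a : ℝ) * B.choose b * B.choose e))
    (fun a b e h => by simp [sectorCoef, h])]
  refine sum_congr rfl fun p _ => ?_
  obtain ⟨a, b, e⟩ := p
  simp only
  rw [apply_eq_coef3 F a b e, coef3_eq_sector hF hJ (by omega), div_mul_div_comm,
    Real.mul_self_sqrt (by positivity), sq]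

/-- The channel coordinate of a sector vector on electron 3. -/
noncomputable def chanCoord (A B L n : ℕ) (x : ℕ → ℝ) : ℝ :=
  (-1) ^ (L - n) * ∑ a ∈ range (n + 1),
    (-1) ^ (n - a) * (n.choose a : ℝ) * sectorCoef L x a (n - a) (L - n)
      / ((A.choose a : ℝ) * B.choose (n - a))

theorem chan_coord_eq {A B D n L : ℕ} (hD : D + 2 * n = A + B) (hA : n ≤ A) (hB : n ≤ B)
    (hn : n ≤ L) (hr : L - n ≤ B) {F : Three A B → ℝ} (hF : Supp wt3 L F)
    (hJ : raise3 A B *ᵥ F = 0) :
    tri3 A B n (L - n) ⬝ᵥ F / nsq (hwVec D B (L - n))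
      = chanCoord A B L n (boundary F L) := by
  have h := lift3_transpose_hw hD hA hB hF hJ
  rw [if_pos hn] at h
  have h0 := congrFun h (0, ⟨L - n, by omega⟩)
  rw [Pi.smul_apply, smul_eq_mul, hwVec_zero_entry hr] at h0
  set c := tri3 A B n (L - n) ⬝ᵥ F / nsq (hwVec D B (L - n)) with hc
  have hs : 0 < Real.sqrt (B.choose (L - n) : ℝ) := sqrt_choose_pos hr
  have hsum : ((lift3 (chan A B D n))ᵀ *ᵥ F) (0, ⟨L - n, by omega⟩) * Real.sqrt (B.choose (L - n))
      = ∑ a ∈ range (n + 1), (-1) ^ (n - a) * (n.choose a : ℝ)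
          * sectorCoef L (boundary F L) a (n - a) (L - n)
          / ((A.choose a : ℝ) * B.choose (n - a)) := by
    have e : ((lift3 (chan A B D n))ᵀ *ᵥ F) (0, ⟨L - n, by omega⟩)
        = ∑ p : Two A B, if (p.1 : ℕ) + p.2 = n then
            ((-1) ^ (p.2 : ℕ) * (n.choose (p.1 : ℕ) : ℝ)
              / Real.sqrt ((A.choose (p.1 : ℕ) : ℝ) * B.choose (p.2 : ℕ)))
              * F (p.1, p.2, ⟨L - n, by omega⟩) else 0 := by
      simp only [mulVec, dotProduct, transpose_apply, lift3_apply, Fintype.sum_prod_type, ite_mul,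
        zero_mul, sum_ite_eq', mem_univ, if_true, chan_zero_col, hwVec]
    rw [e, sum_mul]
    have e2 : ∀ p : Two A B, (if (p.1 : ℕ) + p.2 = n then
            ((-1) ^ (p.2 : ℕ) * (n.choose (p.1 : ℕ) : ℝ)
              / Real.sqrt ((A.choose (p.1 : ℕ) : ℝ) * B.choose (p.2 : ℕ)))
              * F (p.1, p.2, ⟨L - n, by omega⟩) else 0) * Real.sqrt (B.choose (L - n))
        = if (p.1 : ℕ) + p.2 = n then (-1) ^ (p.2 : ℕ) * (n.choose (p.1 : ℕ) : ℝ)
            * sectorCoef L (boundary F L) p.1 p.2 (L - n)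
            / ((A.choose (p.1 : ℕ) : ℝ) * B.choose (p.2 : ℕ)) else 0 := by
      intro p
      split_ifs
      · have h1 : 0 < Real.sqrt ((A.choose (p.1 : ℕ) : ℝ) * B.choose (p.2 : ℕ)) := by
          have := Nat.choose_pos (show (p.1 : ℕ) ≤ A by omega)
          have := Nat.choose_pos (show (p.2 : ℕ) ≤ B by omega)
          apply Real.sqrt_pos.2
          positivity
        rw [apply_eq_coef3 F p.1 p.2 ⟨L - n, by omega⟩, coef3_eq_sector hF hJ (by omega)]
        rw [Real.sqrt_mul (by positivity) (B.choose (L - n) : ℝ),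
          show (A.choose (p.1 : ℕ) : ℝ) * B.choose (p.2 : ℕ)
            = Real.sqrt ((A.choose (p.1 : ℕ) : ℝ) * B.choose (p.2 : ℕ))
              * Real.sqrt ((A.choose (p.1 : ℕ) : ℝ) * B.choose (p.2 : ℕ))
            from (Real.mul_self_sqrt (by positivity)).symm]
        rw [Real.sqrt_mul_self h1.le]
        field_simp
      · rw [zero_mul]
    rw [sum_congr rfl fun p _ => e2 p,
      sum_two_line hA hB (fun a b => (-1 : ℝ) ^ b * (n.choose a : ℝ)
        * sectorCoef L (boundary F L) a b (L - n) / ((A.choose a : ℝ) * B.choose b))]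
  unfold chanCoord
  rw [← hsum, h0]
  have hsq : ((-1 : ℝ) ^ (L - n)) * (-1) ^ (L - n) = 1 := by
    rw [← mul_pow]; norm_num
  field_simp
  linear_combination (-c) * hsq

/-- The energy of `restK` in boundary coordinates. -/
theorem quad_restK_sector {A Q L : ℕ} (hA : L ≤ A) (hQ : 1 ≤ Q) (hQL : L ≤ Q)
    {F : Three A Q → ℝ} (hF : Supp wt3 L F) (hJ : raise3 A Q *ᵥ F = 0) :
    quad (restK A Q) F = ∑ a ∈ range L,
      (∑ b ∈ range (L + 1 - a), ((b : ℝ) - (L - a - b : ℕ))
          * sectorCoef L (boundary F L) a b (L - a - b)) ^ 2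
        / ((A.choose a : ℝ) * (2 * Q) * (2 * Q - 2).choose (L - a - 1)) := by
  have h1 : quad (restK A Q) F = ∑ a : Fin (A + 1), ∑ m : Fin (2 * Q - 2 + 1),
      (∑ q : Two Q Q, pairIso Q q m * F (a, q)) ^ 2 := by
    simp only [quad, dotProduct, mulVec, Fintype.sum_prod_type]
    refine sum_congr rfl fun a _ => ?_
    have : ∀ b e : Fin (Q + 1), (∑ a' : Fin (A + 1), ∑ b' : Fin (Q + 1), ∑ e' : Fin (Q + 1),
        restK A Q (a, b, e) (a', b', e') * F (a', b', e'))
        = ∑ q : Two Q Q, ∑ m, pairIso Q (b, e) m * pairIso Q q m * F (a, q) := by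
      intro b e
      rw [sum_eq_single a (fun a' _ ha => sum_eq_zero fun b' _ => sum_eq_zero fun e' _ => by
        simp [restK, Ne.symm ha]) (by simp), Fintype.sum_prod_type]
      refine sum_congr rfl fun b' _ => sum_congr rfl fun e' _ => ?_
      simp only [restK, if_true]
      rw [P1_eq (b, e) (b', e'), Matrix.mul_apply, sum_mul]
      rfl
    simp only [this]
    rw [← Fintype.sum_prod_type' (fun (b : Fin (Q + 1)) (e : Fin (Q + 1)) =>
      F (a, b, e) * ∑ q : Two Q Q, ∑ m, pairIso Q (b, e) m * pairIso Q q m * F (a, q))]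
    simp only [sq, sum_mul, mul_sum]
    simp only [Fintype.sum_prod_type]
    rw [sum_congr rfl fun b _ => sum_congr rfl fun e _ => sum_congr rfl fun b' _ => sum_comm,
      sum_congr rfl fun b _ => sum_congr rfl fun e _ => sum_comm,
      sum_congr rfl fun b _ => sum_comm, sum_comm]
    refine sum_congr rfl fun m _ => sum_congr rfl fun b _ => sum_congr rfl fun e _ =>
      sum_congr rfl fun b' _ => sum_congr rfl fun e' _ => ?_
    ring
  set g : ℕ → ℕ → ℕ → ℝ := fun a b e => ((b : ℝ) - e) * sectorCoef L (boundary F L) a b e with hg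
  have h2 : ∀ (a : Fin (A + 1)) (m : Fin (2 * Q - 2 + 1)),
      (∑ q : Two Q Q, pairIso Q q m * F (a, q)) ^ 2
        = if (a : ℕ) + (m + 1) = L then
            (∑ b ∈ range (L + 1 - a), g a b (L - a - b)) ^ 2
              / ((A.choose (a : ℕ) : ℝ) * (2 * Q) * (2 * Q - 2).choose (L - a - 1))
          else 0 := by
    intro a m
    have hq : ∀ q : Two Q Q, pairIso Q q m * F (a, q) = if (q.1 : ℕ) + q.2 = m + 1 then
        g a q.1 q.2 / (Real.sqrt (A.choose (a : ℕ))
          * Real.sqrt ((2 * Q : ℝ) * (2 * Q - 2).choose (m : ℕ))) else 0 := by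
      rintro ⟨b, e⟩
      simp only [pairIso]
      split_ifs
      · have hb := sqrt_choose_pos (show (b : ℕ) ≤ Q by omega)
        have he := sqrt_choose_pos (show (e : ℕ) ≤ Q by omega)
        rw [apply_eq_coef3 F a b e, coef3_eq_sector hF hJ (by omega), g1, hg]
        rw [Real.sqrt_mul (show (0 : ℝ) ≤ Q.choose (b : ℕ) by positivity),
          Real.sqrt_mul (show (0 : ℝ) ≤ (A.choose (a : ℕ) : ℝ) * Q.choose (b : ℕ) by positivity),
          Real.sqrt_mul (show (0 : ℝ) ≤ (A.choose (a : ℕ) : ℝ) by positivity)]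
        field_simp
      · rw [zero_mul]
    split_ifs with ha
    · rw [sum_congr rfl fun q _ => hq q]
      have hm : L - a - 1 = m := by omega
      have hs : (∑ q : Two Q Q, if (q.1 : ℕ) + q.2 = m + 1 then
          g a q.1 q.2 / (Real.sqrt (A.choose (a : ℕ))
            * Real.sqrt ((2 * Q : ℝ) * (2 * Q - 2).choose (m : ℕ))) else 0)
          = (∑ b ∈ range (L + 1 - a), g a b (L - a - b)) / (Real.sqrt (A.choose (a : ℕ))
            * Real.sqrt ((2 * Q : ℝ) * (2 * Q - 2).choose (m : ℕ))) := by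
        rw [sum_two_line (n := (m : ℕ) + 1) (by omega) (by omega)
          (fun b e => g a b e / (Real.sqrt (A.choose (a : ℕ))
            * Real.sqrt ((2 * Q : ℝ) * (2 * Q - 2).choose (m : ℕ)))), sum_div,
          show L + 1 - (a : ℕ) = (m : ℕ) + 1 + 1 by omega]
        refine sum_congr rfl fun b hb => ?_
        rw [mem_range] at hb
        rw [show L - (a : ℕ) - b = (m : ℕ) + 1 - b by omega]
      rw [hs, div_pow, mul_pow, Real.sq_sqrt (by positivity), Real.sq_sqrt (by positivity), hm]
      ring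
    · rw [sum_eq_zero, zero_pow two_ne_zero]
      rintro ⟨b, e⟩ _
      rw [hq]
      split_ifs with hbe
      · have : sectorCoef L (boundary F L) a b e = 0 := by
          simp only at hbe
          rw [sectorCoef, if_neg (by omega)]
        simp [hg, this]
      · rfl
  rw [h1, sum_congr rfl fun a _ => sum_congr rfl fun m _ => h2 a m,
    Fin.sum_univ_eq_sum_range (fun a => ∑ m : Fin (2 * Q - 2 + 1), if a + (m + 1) = L then
      (∑ b ∈ range (L + 1 - a), g a b (L - a - b)) ^ 2
        / ((A.choose a : ℝ) * (2 * Q) * (2 * Q - 2).choose (L - a - 1)) else 0) (A + 1),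
    ← sum_subset (s₁ := range L) (s₂ := range (A + 1)) (range_subset_range.2 (by omega))]
  · refine sum_congr rfl fun a ha => ?_
    rw [mem_range] at ha
    by_cases hm : L - a - 1 < 2 * Q - 2 + 1
    · rw [sum_eq_single (⟨L - a - 1, hm⟩ : Fin (2 * Q - 2 + 1))]
      · rw [if_pos (by simp only; omega)]
      · intro m _ hne
        rw [if_neg fun h => hne (Fin.ext (show (m : ℕ) = L - a - 1 by omega))]
      · simp
    · rw [sum_eq_zero fun m _ => if_neg (by omega),
        Nat.choose_eq_zero_of_lt (show 2 * Q - 2 < L - a - 1 by omega)]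
      simp
  · intro a _ ha
    rw [mem_range] at ha
    exact sum_eq_zero fun m _ => if_neg (by omega)

end P359
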