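import Vale.Agent.P359.PlanarOverlap
import Vale.Agent.P359.Sector
import Vale.Agent.P359.OverlapBound

/-!
P359: the certificate, its finite-`Q` operators, and its computable planar blocks.
Contract between search/checker, block limits, tail and assembly.
-/

namespace P359

open Matrix Finset
open scoped BigOperators

/-- A sum-of-squares certificate: rows `s`, each a map `X_d` between channels `n` and `n+d`. -/
structure Cert where
  /-- largest channel used -/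
  N0 : ℕ
  /-- number of rows -/
  S : ℕ
  shift : Fin S → ℤ
  g : Fin S → ℕ → ℚ
  α : Fin S → ℚ
  /-- multiplier of the killed channels -/
  Λ : ℚ
  ε1 : ℚ
  t1 : ℚ
  ε2 : ℚ
  t2 : ℚ
  /-- slack on channel `n` -/
  v : ℕ → ℚ
  t3 : ℚ

/-- Channels `0, 1, 3` are killed by antisymmetry. -/
def killedCh : Finset ℕ := {0, 1, 3}

namespace Cert

variable (C : Cert)

/-- Channels used by row `s`. -/
def chans (s : Fin C.S) : Finset ℕ :=
  (range (C.N0 + 1)).filter (fun n => (0 : ℤ) ≤ n + C.shift s)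

/-- Image channel. -/
def img (s : Fin C.S) (n : ℕ) : ℕ := ((n : ℤ) + C.shift s).toNat

/-- Impurity degree of the image of row `s`. -/
def degA (Q : ℕ) (s : Fin C.S) : ℕ := (((2 * Q - 2 : ℕ) : ℤ) + 2 * C.shift s).toNat

/-- The operator of row `s`. -/
noncomputable def G (Q : ℕ) (s : Fin C.S) :
    Matrix (Two (C.degA Q s) Q) (Two (2 * Q - 2) Q) ℝ :=
  ∑ n ∈ C.chans s, ((C.g s n : ℝ) * Real.sqrt Q ^ (n + C.img s n)) •
    (chan (C.degA Q s) Q (2 * Q - 2 + Q - 2 * n) (C.img s n) *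
      (chan (2 * Q - 2) Q (2 * Q - 2 + Q - 2 * n) n)ᵀ)

/-- Projection on the killed channels. -/
noncomputable def killedProj (Q : ℕ) : Matrix (Two (2 * Q - 2) Q) (Two (2 * Q - 2) Q) ℝ :=
  ∑ n ∈ killedCh, (nsq (hwVec (2 * Q - 2) Q n))⁻¹ •
    (chan (2 * Q - 2) Q (2 * Q - 2 + Q - 2 * n) n *
      (chan (2 * Q - 2) Q (2 * Q - 2 + Q - 2 * n) n)ᵀ)

/-- Slack in weight `L`. -/
def margin (L : ℕ) : ℚ := C.ε2 / 8 * (1 - 2 * C.t2) ^ (3 * L)

/-- Projection on channel `n`. -/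
noncomputable def chanP (Q n : ℕ) : Matrix (Two (2 * Q - 2) Q) (Two (2 * Q - 2) Q) ℝ :=
  (nsq (hwVec (2 * Q - 2) Q n))⁻¹ •
    (chan (2 * Q - 2) Q (2 * Q - 2 + Q - 2 * n) n *
      (chan (2 * Q - 2) Q (2 * Q - 2 + Q - 2 * n) n)ᵀ)

/-- Value of the channel slack in weight `L`. -/
def tailW (L : ℕ) : ℚ := (1 - 2 * C.t3) * (1 - 8 / 5 * C.t3) ^ L

/-- The two-body inequality at flux `Q` and weight `L`. -/
def SectorPos (Q L : ℕ) : Prop :=
  ∀ F : Three (2 * Q - 2) Q → ℝ, Supp wt3 L F → raise3 (2 * Q - 2) Q *ᵥ F = 0 →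
    (∀ a b e, F (a, b, e) = -F (a, e, b)) →
    0 ≤ (1 / 2) * quad (restK (2 * Q - 2) Q) F
        - ∑ s, quad ((act3 (C.G Q s))ᵀ * act4 (C.G Q s)) F
        + (C.Λ : ℝ) * quad (act3 (killedProj Q)) F + (C.margin L : ℝ) * nsq F
        + ∑ n ∈ range (C.N0 + 1), (C.v n : ℝ) * C.tailW L * quad (act3 (chanP Q n)) F

/-! ### Planar values -/

/-- Gram matrix of the rows of shift `d`. -/
def gram (d : ℤ) (n m : ℕ) : ℚ :=
  ∑ s ∈ univ.filter (fun s => C.shift s = d ∧ n ∈ C.chans s ∧ m ∈ C.chans s), C.g s n * C.g s m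

/-- One-body value of the squares on channel `n`. -/
def beta (n : ℕ) : ℚ :=
  ∑ s ∈ univ.filter (fun s => n ∈ C.chans s),
    ((if C.shift s = 0 then 2 * C.α s * C.g s n * pNorm 2 n else 0)
      + C.g s n ^ 2 * pNorm 2 n * pNorm 2 (C.img s n))

/-- Planar one-body eigenvalue of the kinetic term on channel `n`. -/
def pEig (n : ℕ) : ℚ := (3 * n - 1) * (-1 / 2) ^ n

/-- Number of free boundary coordinates of an antisymmetric sector. -/
def bdim (L : ℕ) : ℕ := (L + 1) / 2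

/-- Antisymmetric extension of the `j`-th free coordinate. -/
def extBasis (L j i : ℕ) : ℚ := if i = j then 1 else if i + j = L then -1 else 0

/-- Planar channel coordinate (times `Q^n`) of the `j`-th basis sector vector. -/
def pCoord (L n j : ℕ) : ℚ :=
  (-1) ^ (L - n) * ∑ a ∈ range (n + 1),
    (-1) ^ (n - a) * (n.choose a : ℚ) * sectorCoef L (extBasis L j) a (n - a) (L - n)
      * (a.factorial * (n - a).factorial) / 2 ^ a

/-- Two-body kernel between channels `n` and `m` at weight `L`. -/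
def pKer (L n m : ℕ) : ℚ :=
  ∑ d ∈ ({-2, -1, 0, 1, 2} : Finset ℤ),
      C.gram d n m * pTriDot ((n : ℤ) + d).toNat ((m : ℤ) + d).toNat ((L : ℤ) + d).toNat
    + (if n = m ∧ n ∈ killedCh then C.Λ * pNorm 3 (L - n) / pNorm 2 n else 0)
    + if n = m then (C.margin L / 2 + C.v n * C.tailW L) * pNorm 3 (L - n) / pNorm 2 n else 0

/-- The planar block (times `Q^L`): lower bound of the form in free boundary coordinates. The slack
`margin` is used half on the boundary coordinates and half on the channel coordinates (Bessel). -/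
def block (L : ℕ) : Matrix (Fin (bdim L)) (Fin (bdim L)) ℚ := fun i j =>
  (L - 1).factorial * ((2 * (i : ℚ) - L) * (2 * (j : ℚ) - L))
    + (∑ n ∈ range (min L C.N0 + 1), ∑ m ∈ range (min L C.N0 + 1),
        C.pKer L n m * pCoord L n i * pCoord L m j)
    + if i = j then C.margin L * ((i : ℕ).factorial * (L - i).factorial) else 0

/-- What the checker must deliver for every `1 ≤ L ≤ L0`. -/
def BlockPos (L : ℕ) : Prop :=
  ∃ c : ℝ, 0 < c ∧ ∀ y : Fin (bdim L) → ℝ,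
    c * nsq y ≤ quad (fun i j => (C.block L i j : ℝ)) y

/-- Side conditions on the parameters. -/
structure Valid : Prop where
  shift_le : ∀ s, |C.shift s| ≤ 2
  alpha_zero : ∀ s, C.shift s ≠ 0 → C.α s = 0
  lam : 0 ≤ C.Λ
  eps1 : 0 < C.ε1
  t1 : 0 < C.t1 ∧ C.t1 ≤ 1 / 5
  eps2 : 0 < C.ε2
  t2 : 0 < C.t2 ∧ C.t2 ≤ 1 / 20
  N0_le : 3 ≤ C.N0 ∧ C.N0 + 2 ≤ 30
  v_nonneg : ∀ n, 0 ≤ C.v n
  t3 : 0 < C.t3 ∧ C.t3 ≤ 1 / 5
  gap : ∑ s, C.α s ^ 2 + C.ε1 / C.t1 + C.ε2 / C.t2 ^ 2 < 1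
  one_body : ∀ n ≤ 40, n ∉ killedCh →
    C.beta n + (if n ≤ C.N0 then C.v n / C.t3 else 0)
      < pEig n + C.ε1 / 2 * (1 - 2 * C.t1) ^ n
  one_body_tail : 3 * 40 * (51 / 100 : ℚ) ^ 40 ≤ C.ε1 / 2 * (1 - 2 * C.t1) ^ 40

/-- Rational copy of `ovBound`. -/
def pOvBound (n q L : ℕ) : ℚ :=
  (336 / 1000) ^ (2 * (L - q - n)) * (151 / 100 * L) ^ (2 * q) *
      (1 + 17 * q / (100 * L)) ^ (2 * n) * (67 / 100) ^ (n + q) *
      (76 / 100 / ((L - q : ℕ) + 1)) ^ (q - n)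
    / (n.factorial * q.factorial)

/-- Numerical condition under which all weights above `L0` are controlled by overlap decay. -/
def TailOK (L0 : ℕ) : Prop :=
  64 ≤ L0 ∧ ∀ d ∈ ({-2, -1, 0, 1, 2} : Finset ℤ), ∀ n ≤ C.N0, ∀ m ≤ C.N0,
    4 * (5 * (C.N0 + 1 : ℚ) ^ 2) ^ 2 * C.gram d n m ^ 2 *
        (pNorm 2 n * pNorm 2 ((n : ℤ) + d).toNat) * (pNorm 2 m * pNorm 2 ((m : ℤ) + d).toNat) *
        pOvBound (min ((n : ℤ) + d).toNat ((m : ℤ) + d).toNat)
          (max ((n : ℤ) + d).toNat ((m : ℤ) + d).toNat) (((L0 + 1 : ℕ) : ℤ) + d).toNat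
      ≤ C.margin (L0 + 1) ^ 2

end Cert

end P359
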