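import Vale.Agent.P359.CertData

/-!
P359: the side conditions and the tail condition of the certificate.
-/

namespace P359

open Finset

/-- Shifts are at most two and only the unshifted rows carry `α`. -/
theorem cert_shift : ∀ s, |cert.shift s| ≤ 2 ∧ (cert.shift s ≠ 0 → cert.α s = 0) := by
  decide +kernel

theorem certV_nonneg (n : ℕ) : 0 ≤ certV.getD n 0 := by
  rcases lt_or_ge n certV.length with h | h
  · have : ∀ i : Fin certV.length, 0 ≤ certV.getD i 0 := by decide +kernel
    exact this ⟨n, h⟩
  · rw [List.getD_eq_default _ _ h]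

theorem cert_one_body : ∀ n ∈ List.range 41, n ∉ killedCh →
    cert.beta n + (if n ≤ cert.N0 then cert.v n / cert.t3 else 0)
      < Cert.pEig n + cert.ε1 / 2 * (1 - 2 * cert.t1) ^ n := by
  decide +kernel

theorem cert_valid : cert.Valid where
  shift_le s := (cert_shift s).1
  alpha_zero s := (cert_shift s).2
  lam := by decide +kernel
  eps1 := by decide +kernel
  t1 := by decide +kernel
  eps2 := by decide +kernel
  t2 := by decide +kernel
  N0_le := by decide +kernel
  v_nonneg := certV_nonneg
  t3 := by decide +kernel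
  gap := by decide +kernel
  one_body n hn := cert_one_body n (List.mem_range.2 (by omega))
  one_body_tail := by decide +kernel

theorem cert_tailOK : cert.TailOK 88 := by
  refine ⟨by norm_num, ?_⟩
  have h : ∀ d ∈ ([-2, -1, 0, 1, 2] : List ℤ), ∀ n ∈ List.range 16, ∀ m ∈ List.range 16,
      4 * (5 * (cert.N0 + 1 : ℚ) ^ 2) ^ 2 * cert.gram d n m ^ 2 *
          (pNorm 2 n * pNorm 2 ((n : ℤ) + d).toNat) * (pNorm 2 m * pNorm 2 ((m : ℤ) + d).toNat) *
          Cert.pOvBound (min ((n : ℤ) + d).toNat ((m : ℤ) + d).toNat)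
            (max ((n : ℤ) + d).toNat ((m : ℤ) + d).toNat) (((88 + 1 : ℕ) : ℤ) + d).toNat
        ≤ cert.margin (88 + 1) ^ 2 := by
    decide +kernel
  intro d hd n hn m hm
  refine h d ?_ n (List.mem_range.2 (Nat.lt_succ_iff.2 hn)) m (List.mem_range.2 (Nat.lt_succ_iff.2 hm))
  simpa using hd

end P359
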