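import Vale.Agent.P359.Main
import Vale.Agent.P359.CertValid

/-!
P359: the gap `3/100` from the certificate, given its blocks.
-/

namespace P359

open scoped BigOperators

theorem cert_delta_ge : (3 : ℝ) / 100 ≤ cert.delta := by
  have h : (3 : ℚ) / 100 ≤ 1 - ∑ s, cert.α s ^ 2 - cert.ε1 / cert.t1 - cert.ε2 / cert.t2 ^ 2 := by
    decide +kernel
  have h' := (Rat.cast_le (K := ℝ)).2 h
  push_cast at h'
  exact h'

theorem cert_gap_of_blocks (hB : ∀ L, 1 ≤ L → L ≤ 88 → cert.BlockPos L) :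
    ∃ N0 : ℕ, ∀ N ≥ N0, ∀ ψ : Config (3 * (N - 1)) N → ℂ, IsAnti ψ →
      (3 / 100 : ℝ)
          * (∑ x, ‖ψ x‖ ^ 2 - ‖∑ x, (laughlin N x : ℂ) * ψ x‖ ^ 2 / ∑ x, laughlin N x ^ 2)
        ≤ (∑ x, (starRingEnd ℂ) (ψ x) * H (3 * (N - 1)) N ψ x).re := by
  have hS : ∀ᶠ Q : ℕ in Filter.atTop, ∀ L, cert.SectorPos Q L := by
    filter_upwards [Cert.sectorPos_le_eventually cert_valid hB,
      Cert.sectorPos_tail cert_valid cert_tailOK] with Q h1 h2 L
    rcases le_or_gt L 88 with h | h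
    · exact h1 L h
    · exact h2 L h
  obtain ⟨Q0, h0⟩ := Cert.sq_gap cert_valid hS
  refine ⟨Q0 + 2, fun N hN ψ hψ => gap_complex (by omega) (by norm_num) (fun φ hφ => ?_) hψ⟩
  obtain ⟨M, rfl⟩ : ∃ M, N = M + 2 := ⟨N - 2, by omega⟩
  refine le_trans (mul_le_mul_of_nonneg_right cert_delta_ge ?_) (h0 _ (by omega) M φ hφ)
  exact HR_nonneg (by omega) hφ

end P359
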