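import Vale.Agent.P359.ReducePauli

/-!
P359, piece A: reduction to one pair and the surrounding electrons.
Main results: `reduce_energy` (A1), `square_expand`, `square_expand_const` (A2), linearity and
`E1_nonneg`, `E2_nonneg` (A3), `pauli` (A4), `pauli_tail` (A5), `killed_apply`, `killed` (A6).
-/
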