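import Vale.Agent.P359.Tail2
import Vale.Agent.P359.Reduce

/-!
P359, assembly piece: the electron-electron term is nonnegative, and the decay of
the overlap bound.
-/

namespace P359

open Matrix Finset
open scoped BigOperators

variable {A B M : ℕ}

/-- The electron-electron term is nonnegative. -/
theorem quad_restK_nonneg {A Q : ℕ} (hQ : 1 ≤ Q) (F : Three A Q → ℝ) : 0 ≤ quad (restK A Q) F := by
  simp only [quad, dotProduct, mulVec, Fintype.sum_prod_type (α₁ := Fin (A + 1)), restK, ite_mul,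
    zero_mul]
  refine Finset.sum_nonneg fun a _ => ?_
  have e : ∑ p : Two Q Q, F (a, p) *
      (∑ a' : Fin (A + 1), ∑ q : Two Q Q,
        if a = a' then P1 Q p.1 p.2 q.1 q.2 * F (a', q) else 0) =
      ∑ m, (∑ p : Two Q Q, pairIso Q p m * F (a, p)) ^ 2 := by
    calc _ = ∑ p : Two Q Q, ∑ q : Two Q Q, ∑ m,
          F (a, p) * (pairIso Q p m * pairIso Q q m * F (a, q)) := by
          refine Finset.sum_congr rfl fun p _ => ?_
          rw [Finset.sum_eq_single a (fun a' _ h => by simp [Ne.symm h]) (by simp)]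
          simp only [if_true, P1_eq_sum hQ, Finset.sum_mul, Finset.mul_sum]
      _ = _ := by
          rw [Finset.sum_congr rfl fun p _ => Finset.sum_comm, Finset.sum_comm]
          refine Finset.sum_congr rfl fun m _ => ?_
          rw [sq, Finset.sum_mul_sum]
          exact Finset.sum_congr rfl fun p _ => Finset.sum_congr rfl fun q _ => by ring
  rw [e]
  exact Finset.sum_nonneg fun m _ => sq_nonneg _

/-- One step of the decay of the symmetrised overlap bound. -/
theorem sqrt_ovSym_succ_le {n q qmax L0 L : ℕ} (hn : n ≤ qmax) (hq : q ≤ qmax)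
    (hL0 : 2 * qmax ≤ L0) (hpos : 0 < L0) (hL : L0 ≤ L) :
    Real.sqrt (ovSym n q (L + 1)) ≤
      336 / 1000 * (((L0 : ℝ) + 1) / L0) ^ qmax * Real.sqrt (ovSym n q L) := by
  have h := ovBound_succ_le (n := min n q) (q := max n q) (L := L) (by omega) (by omega)
  have hL0' : (0 : ℝ) < L0 := by exact_mod_cast hpos
  have hLc : (L0 : ℝ) ≤ L := by exact_mod_cast hL
  have h1 : (((L : ℝ) + 1) / L) ^ (2 * max n q) ≤ (((L0 : ℝ) + 1) / L0) ^ (2 * qmax) := by
    have b1 : ((L : ℝ) + 1) / L ≤ ((L0 : ℝ) + 1) / L0 := by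
      rw [div_le_div_iff₀ (by linarith) hL0']
      linarith
    have b2 : (1 : ℝ) ≤ ((L0 : ℝ) + 1) / L0 := by
      rw [le_div_iff₀ hL0']
      linarith
    exact (pow_le_pow_left₀ (div_nonneg (by linarith) (by linarith)) b1 _).trans
      (pow_le_pow_right₀ b2 (by omega))
  have h2 : ovSym n q (L + 1) ≤
      (336 / 1000 * (((L0 : ℝ) + 1) / L0) ^ qmax) ^ 2 * ovSym n q L := by
    refine h.trans (mul_le_mul_of_nonneg_right ?_ (ovBound_nonneg _ _ _))
    rw [mul_pow, ← pow_mul, mul_comm qmax 2]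
    exact mul_le_mul_of_nonneg_left h1 (by norm_num)
  refine (Real.sqrt_le_sqrt h2).trans (le_of_eq ?_)
  rw [Real.sqrt_mul (sq_nonneg _), Real.sqrt_sq (by positivity)]

/-- All weights beyond `L0` follow from the check at `L0`. -/
theorem sum_sqrt_ovSym_le {ι : Type*} (s : Finset ι) (m : ι → ℕ) (w : ι → ℝ) {qmax L0 : ℕ}
    {κ η : ℝ} (hw : ∀ i ∈ s, 0 ≤ w i) (hm : ∀ i ∈ s, m i ≤ qmax) (hL0 : 2 * qmax ≤ L0)
    (hpos : 0 < L0) (hκ : 336 / 1000 * (((L0 : ℝ) + 1) / L0) ^ qmax ≤ κ)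
    (h0 : ∑ i ∈ s, ∑ j ∈ s, w i * w j * Real.sqrt (ovSym (m i) (m j) L0) ≤ η * κ ^ L0) :
    ∀ L, L0 ≤ L →
      ∑ i ∈ s, ∑ j ∈ s, w i * w j * Real.sqrt (ovSym (m i) (m j) L) ≤ η * κ ^ L := by
  intro L hL
  induction L, hL using Nat.le_induction with
  | base => exact h0
  | succ L hL ih =>
    have hκ0 : 0 ≤ κ := le_trans (by positivity) hκ
    have hnn : ∀ i ∈ s, ∀ j ∈ s, 0 ≤ w i * w j * Real.sqrt (ovSym (m i) (m j) L) :=
      fun i hi j hj => mul_nonneg (mul_nonneg (hw i hi) (hw j hj)) (Real.sqrt_nonneg _)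
    calc _ ≤ ∑ i ∈ s, ∑ j ∈ s, κ * (w i * w j * Real.sqrt (ovSym (m i) (m j) L)) := by
          refine Finset.sum_le_sum fun i hi => Finset.sum_le_sum fun j hj => ?_
          have h1 := mul_le_mul_of_nonneg_left
            (sqrt_ovSym_succ_le (hm i hi) (hm j hj) hL0 hpos hL) (mul_nonneg (hw i hi) (hw j hj))
          have h2 := mul_le_mul_of_nonneg_right hκ (hnn i hi j hj)
          linarith
      _ = κ * ∑ i ∈ s, ∑ j ∈ s, w i * w j * Real.sqrt (ovSym (m i) (m j) L) := by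
          simp only [Finset.mul_sum]
      _ ≤ κ * (η * κ ^ L) := mul_le_mul_of_nonneg_left ih hκ0
      _ = _ := by ring

end P359
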