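import Vale.Agent.P359.CertDefs
import Vale.Agent.P359.ChannelAct
import Vale.Agent.P359.Tail3
import Vale.Agent.P359.PairOrth
import Vale.Agent.P359.ReduceExtra

/-!
P359: the two-body inequality in all weights above `L0`, from overlap decay.
-/

namespace P359

open Matrix Finset Filter Topology
open scoped BigOperators

theorem quad_killed_nonneg {Q : ℕ} (F : Three (2 * Q - 2) Q → ℝ) :
    0 ≤ quad (act3 (Cert.killedProj Q)) F := by
  rw [quad_act3]
  refine sum_nonneg fun e _ => ?_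
  simp only [Cert.killedProj, quad, Matrix.sum_mulVec, dotProduct_sum, smul_mulVec, dotProduct_smul,
    smul_eq_mul, ← mulVec_mulVec]
  refine sum_nonneg fun n _ => mul_nonneg (inv_nonneg.2 (nsq_nonneg _)) ?_
  rw [dotProduct_mulVec, ← mulVec_transpose]
  exact nsq_nonneg _

theorem quad_chanP_nonneg {Q : ℕ} (n : ℕ) (F : Three (2 * Q - 2) Q → ℝ) :
    0 ≤ quad (act3 (Cert.chanP Q n)) F := by
  rw [quad_act3]
  refine sum_nonneg fun e _ => ?_
  simp only [Cert.chanP, quad, smul_mulVec, dotProduct_smul, smul_eq_mul, ← mulVec_mulVec]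
  refine mul_nonneg (inv_nonneg.2 (nsq_nonneg _)) ?_
  rw [dotProduct_mulVec, ← mulVec_transpose]
  exact nsq_nonneg _

/-- The coefficient of a highest weight vector on a channel component. -/
noncomputable def coordChan {A B : ℕ} (F : Three A B → ℝ) (L n : ℕ) : ℝ :=
  if n ≤ L then tri3 A B n (L - n) ⬝ᵥ F / nsq (hwVec (A + B - 2 * n) B (L - n)) else 0

theorem coordChan_eq_zero {A B L n : ℕ} (hA : n ≤ A) (hB : n ≤ B) {F : Three A B → ℝ}
    (hF : Supp wt3 L F) (hJ : raise3 A B *ᵥ F = 0) (hr : B < L - n) :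
    coordChan F L n = 0 := by
  have hT := (lift3_intertwines (A := A) (B := B) (D := A + B - 2 * n) (n := n) (by omega) hA hB).transpose
  have hu := hT.mulVec_ker hJ
  have hs := hT.supp (m := L) (m' := L - n) (by omega) hF
  rw [coordChan, if_pos (by omega), tri3_eq_lift (D := A + B - 2 * n) rfl, dotProduct_comm,
    dotProduct_mulVec, ← mulVec_transpose, hw_eq_zero hr hs hu, zero_dotProduct, zero_div]

theorem coordChan_sq_le {A B L n : ℕ} (hA : n ≤ A) (hB : n ≤ B) {F : Three A B → ℝ}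
    (hnL : n ≤ L) (hr : L - n ≤ B) :
    coordChan F L n ^ 2 * nsq (hwVec (A + B - 2 * n) B (L - n))
      ≤ nsq (hwVec A B n) * nsq F := by
  have hp := nsq_hwVec_pos (A := A + B - 2 * n) hr
  have hcs : (tri3 A B n (L - n) ⬝ᵥ F) ^ 2 ≤ nsq (tri3 A B n (L - n)) * nsq F := by
    unfold nsq dotProduct
    simpa [sq] using sum_mul_sq_le_sq_mul_sq univ (tri3 A B n (L - n)) F
  rw [nsq_tri3_eq hA hB] at hcs
  rw [coordChan, if_pos hnL, div_pow, div_mul_eq_mul_div, div_le_iff₀ (by positivity)]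
  calc _ ≤ nsq (hwVec A B n) * nsq (hwVec (A + B - 2 * n) B (L - n)) * nsq F
        * nsq (hwVec (A + B - 2 * n) B (L - n)) :=
        mul_le_mul_of_nonneg_right hcs hp.le
    _ = _ := by ring

theorem overlap_sq_le_symm {A B n q L : ℕ} (hB : 10000 ≤ B) (hA1 : 2 * B ≤ A + 10)
    (hA2 : A ≤ 2 * B + 4) (hn : n ≤ 30) (hq : q ≤ 30) (hL : n + q ≤ L) (hL0 : 0 < L)
    (hn' : L ≤ B + n) (hq' : L ≤ B + q) :
    (tri3 A B n (L - n) ⬝ᵥ tri4 A B q (L - q)) ^ 2 ≤
      ovBound (min n q) (max n q) L * nsq (tri3 A B n (L - n)) * nsq (tri3 A B q (L - q)) := by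
  rcases le_total n q with h | h
  · rw [min_eq_left h, max_eq_right h, ← nsq_tri4 A B q]
    exact overlap_sq_le hB hA1 hA2 h hq hL hL0 hn'
  · rw [min_eq_right h, max_eq_left h, ← tri_dot_symm, mul_assoc, mul_comm (nsq _) (nsq _),
      ← mul_assoc, ← nsq_tri4 A B n]
    exact overlap_sq_le hB hA1 hA2 h hn (by omega) hL0 hq'

theorem ovBound_step {n q L : ℕ} (hnq : n ≤ q) (hq : q ≤ 30) (hL : 63 ≤ L) :
    ovBound n q (L + 1) ≤ (9 / 10 : ℝ) ^ 6 * ovBound n q L := by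
  refine (ovBound_succ_le (by omega) (by omega)).trans ?_
  refine mul_le_mul_of_nonneg_right ?_ (ovBound_nonneg n q L)
  have hL' : (63 : ℝ) ≤ L := by exact_mod_cast hL
  have h1 : ((L : ℝ) + 1) / L ≤ 64 / 63 := by
    rw [div_le_div_iff₀ (by linarith) (by norm_num)]
    linarith
  have h2 : (((L : ℝ) + 1) / L) ^ (2 * q) ≤ (64 / 63 : ℝ) ^ 60 :=
    (pow_le_pow_left₀ (by positivity) h1 _).trans (pow_le_pow_right₀ (by norm_num) (by omega))
  calc _ ≤ (336 / 1000 : ℝ) ^ 2 * (64 / 63) ^ 60 := mul_le_mul_of_nonneg_left h2 (by norm_num)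
    _ ≤ _ := by norm_num

namespace Cert

variable (C : Cert)

/-- The shifts allowed by a valid certificate. -/
def shiftSet : Finset ℤ := {-2, -1, 0, 1, 2}

/-- Impurity degree for shift `d`. -/
def degD (Q : ℕ) (d : ℤ) : ℕ := (((2 * Q - 2 : ℕ) : ℤ) + 2 * d).toNat

theorem cast_pOvBound (n q L : ℕ) : ((pOvBound n q L : ℚ) : ℝ) = ovBound n q L := by
  unfold pOvBound ovBound
  push_cast
  ring

theorem mem_shiftSet {d : ℤ} (h : |d| ≤ 2) : d ∈ shiftSet := by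
  simp only [shiftSet, Finset.mem_insert, Finset.mem_singleton]
  rw [abs_le] at h
  omega

theorem shiftSet_abs {d : ℤ} (h : d ∈ shiftSet) : -2 ≤ d ∧ d ≤ 2 := by
  simp only [shiftSet, Finset.mem_insert, Finset.mem_singleton] at h
  omega

/-- Norms at large flux are at most `7/5` times their planar values. -/
theorem eventually_norms (N : ℕ) :
    ∀ᶠ Q : ℕ in atTop, ∀ d ∈ shiftSet, ∀ n ≤ N,
      (Q : ℝ) ^ n * nsq (hwVec (degD Q d) Q n) ≤ 7 / 5 * (pNorm 2 n : ℝ) := by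
  have h : ∀ d ∈ shiftSet, ∀ n ∈ range (N + 1), ∀ᶠ Q : ℕ in atTop,
      (Q : ℝ) ^ n * nsq (hwVec (degD Q d) Q n) ≤ 7 / 5 * (pNorm 2 n : ℝ) := by
    intro d hd n _
    obtain ⟨d1, d2⟩ := shiftSet_abs hd
    have hA : Tendsto (fun Q : ℕ => (degD Q d : ℝ) / Q) atTop (𝓝 ((2 : ℚ) : ℝ)) := by
      have h0 := tendsto_two_mul_add_sub (2 * d + 4).toNat 6
      push_cast
      refine h0.congr' ?_
      filter_upwards [eventually_ge_atTop 10] with Q hQ
      congr 2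
      unfold degD
      omega
    have hp : (0 : ℝ) < (pNorm 2 n : ℝ) := by
      have : (0 : ℚ) < pNorm 2 n := by unfold pNorm; positivity
      exact_mod_cast this
    filter_upwards [(tendsto_nsq_hwVec (by norm_num) hA tendsto_self_div n).eventually
      (gt_mem_nhds (show (pNorm 2 n : ℝ) < 7 / 5 * (pNorm 2 n : ℝ) by linarith))] with Q hQ
    exact hQ.le
  have h2 := (eventually_all_finset shiftSet).2 fun d hd =>
    (eventually_all_finset (range (N + 1))).2 (h d hd)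
  filter_upwards [h2] with Q hQ d hd n hn
  exact hQ d hd n (Finset.mem_range.2 (by omega))

variable {C}

/-- The term of channels `n`, `m` and shift `d` in the cross form. -/
noncomputable def crossTerm (Q L : ℕ) (F : Three (2 * Q - 2) Q → ℝ) (d : ℤ) (n m : ℕ) : ℝ :=
  (Real.sqrt Q ^ (n + ((n : ℤ) + d).toNat) * coordChan F L n)
    * (Real.sqrt Q ^ (m + ((m : ℤ) + d).toNat) * coordChan F L m)
    * (tri3 (degD Q d) Q ((n : ℤ) + d).toNat (L - n) ⬝ᵥ tri4 (degD Q d) Q ((m : ℤ) + d).toNat (L - m))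

theorem cross_eq_gram (hV : C.Valid) {Q L : ℕ} (hQ : 40 ≤ Q) (hL : C.N0 ≤ L)
    {F : Three (2 * Q - 2) Q → ℝ} (hF : Supp wt3 L F) (hJ : raise3 (2 * Q - 2) Q *ᵥ F = 0)
    (hanti : ∀ a b e, F (a, b, e) = -F (a, e, b)) :
    ∑ s, quad ((act3 (C.G Q s))ᵀ * act4 (C.G Q s)) F
      = -∑ d ∈ shiftSet, ∑ n ∈ range (C.N0 + 1), ∑ m ∈ range (C.N0 + 1),
          (C.gram d n m : ℝ) * crossTerm Q L F d n m := by
  have hN := hV.N0_le.2
  have h1 : ∀ s, quad ((act3 (C.G Q s))ᵀ * act4 (C.G Q s)) F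
      = -∑ n ∈ range (C.N0 + 1), ∑ m ∈ range (C.N0 + 1),
          if n ∈ C.chans s ∧ m ∈ C.chans s then
            (C.g s n : ℝ) * C.g s m * crossTerm Q L F (C.shift s) n m else 0 := by
    intro s
    have hd := abs_le.1 (hV.shift_le s)
    have hmem : ∀ n ∈ C.chans s, n ≤ C.N0 ∧ (0 : ℤ) ≤ n + C.shift s := by
      intro n hn
      simp only [chans, Finset.mem_filter, Finset.mem_range] at hn
      exact ⟨by omega, hn.2⟩
    rw [quad_cross_chan (C.chans s) (fun n => n) (fun n => C.img s n)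
      (fun n => 2 * Q - 2 + Q - 2 * n) (fun n => (C.g s n : ℝ) * Real.sqrt Q ^ (n + C.img s n))
      (fun n hn => by have := hmem n hn; omega)
      (fun n hn => by have := hmem n hn; unfold img degA; omega)
      (fun n hn => by have := hmem n hn; omega) (fun n hn => by have := hmem n hn; omega)
      (C.G Q s) rfl hF hJ hanti]
    congr 1
    have hfil : (C.chans s).filter (fun n => n ≤ L) = C.chans s :=
      Finset.filter_true_of_mem fun n hn => (hmem n hn).1.trans hL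
    have hsub : C.chans s ⊆ range (C.N0 + 1) := Finset.filter_subset _ _
    rw [hfil]
    refine Eq.trans ?_ (sum_subset hsub fun n _ hn => sum_eq_zero fun m _ =>
      if_neg fun h => hn h.1)
    refine sum_congr rfl fun n hn => ?_
    refine Eq.trans ?_ (sum_subset hsub fun m _ hm => if_neg fun h => hm h.2)
    refine sum_congr rfl fun m hm => ?_
    rw [if_pos ⟨hn, hm⟩]
    simp only [crossTerm, coordChan, if_pos ((hmem n hn).1.trans hL),
      if_pos ((hmem m hm).1.trans hL), img]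
    refine Eq.trans (b := (C.g s n : ℝ) * C.g s m *
      (Real.sqrt Q ^ (n + ((n : ℤ) + C.shift s).toNat) *
          (tri3 (2 * Q - 2) Q n (L - n) ⬝ᵥ F /
            nsq (hwVec (2 * Q - 2 + Q - 2 * n) Q (L - n))) *
        (Real.sqrt Q ^ (m + ((m : ℤ) + C.shift s).toNat) *
          (tri3 (2 * Q - 2) Q m (L - m) ⬝ᵥ F /
            nsq (hwVec (2 * Q - 2 + Q - 2 * m) Q (L - m)))) *
        (tri3 (C.degA Q s) Q ((n : ℤ) + C.shift s).toNat (L - n) ⬝ᵥ
          tri4 (C.degA Q s) Q ((m : ℤ) + C.shift s).toNat (L - m)))) (by ring) ?_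
    rfl
  simp only [h1, Finset.sum_neg_distrib]
  congr 1
  rw [← Finset.sum_fiberwise_of_maps_to (t := shiftSet) (g := C.shift)
    fun s _ => mem_shiftSet (hV.shift_le s)]
  refine sum_congr rfl fun d _ => ?_
  rw [Finset.sum_comm]
  refine sum_congr rfl fun n _ => ?_
  rw [Finset.sum_comm]
  refine sum_congr rfl fun m _ => ?_
  simp only [gram, Rat.cast_sum, Finset.sum_mul, Finset.sum_filter]
  refine sum_congr rfl fun s _ => ?_
  by_cases hs : C.shift s = d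
  · subst hs
    simp only [true_and, if_true]
    split_ifs <;> simp
  · simp [hs]

theorem gram_eq_zero {d : ℤ} {n m : ℕ} (h : (n : ℤ) + d < 0 ∨ (m : ℤ) + d < 0) :
    C.gram d n m = 0 := by
  unfold gram
  refine sum_eq_zero fun s hs => ?_
  simp only [Finset.mem_filter, chans, Finset.mem_range] at hs
  omega

theorem margin_nonneg (hV : C.Valid) (L : ℕ) : 0 ≤ (C.margin L : ℝ) := by
  have h1 := hV.eps2
  have h2 := hV.t2.2
  have : (0 : ℚ) ≤ C.margin L :=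
    mul_nonneg (by linarith) (pow_nonneg (by linarith) _)
  exact_mod_cast this

/-- The product of planar norms entering a pair of channels of shift `d`. -/
def pProd (d : ℤ) (n m : ℕ) : ℚ :=
  pNorm 2 n * pNorm 2 ((n : ℤ) + d).toNat * (pNorm 2 m * pNorm 2 ((m : ℤ) + d).toNat)

/-- The tail condition propagated to all weights above `L0`. -/
theorem tail_all (hV : C.Valid) {L0 : ℕ} (hT : C.TailOK L0) {d : ℤ} (hd : d ∈ shiftSet) {n m : ℕ}
    (hn : n ≤ C.N0) (hm : m ≤ C.N0) {L : ℕ} (hL : L0 + 1 ≤ L) :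
    4 * (5 * ((C.N0 : ℝ) + 1) ^ 2) ^ 2 * (C.gram d n m : ℝ) ^ 2 * (pProd d n m : ℝ) *
        ovBound (min ((n : ℤ) + d).toNat ((m : ℤ) + d).toNat)
          (max ((n : ℤ) + d).toNat ((m : ℤ) + d).toNat) ((L : ℤ) + d).toNat
      ≤ (C.margin L : ℝ) ^ 2 := by
  have hN := hV.N0_le.2
  obtain ⟨d1, d2⟩ := shiftSet_abs hd
  have h64 := hT.1
  induction L, hL using Nat.le_induction with
  | base =>
    have h := hT.2 d hd n hn m hm
    have h' : ((4 * (5 * ((C.N0 : ℚ) + 1) ^ 2) ^ 2 * C.gram d n m ^ 2 * pProd d n m *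
        pOvBound (min ((n : ℤ) + d).toNat ((m : ℤ) + d).toNat)
          (max ((n : ℤ) + d).toNat ((m : ℤ) + d).toNat) (((L0 + 1 : ℕ) : ℤ) + d).toNat : ℚ) : ℝ)
        ≤ ((C.margin (L0 + 1) ^ 2 : ℚ) : ℝ) := by
      refine Rat.cast_le.2 (le_of_eq_of_le ?_ h)
      rw [pProd]
      ring
    rw [Rat.cast_mul, cast_pOvBound] at h'
    push_cast at h' ⊢
    exact h'
  | succ L hL ih =>
    have hstep : ovBound (min ((n : ℤ) + d).toNat ((m : ℤ) + d).toNat)
          (max ((n : ℤ) + d).toNat ((m : ℤ) + d).toNat) (((L + 1 : ℕ) : ℤ) + d).toNat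
        ≤ (9 / 10 : ℝ) ^ 6 * ovBound (min ((n : ℤ) + d).toNat ((m : ℤ) + d).toNat)
          (max ((n : ℤ) + d).toNat ((m : ℤ) + d).toNat) ((L : ℤ) + d).toNat := by
      rw [show (((L + 1 : ℕ) : ℤ) + d).toNat = ((L : ℤ) + d).toNat + 1 by omega]
      exact ovBound_step min_le_max (by omega) (by omega)
    have hp : (0 : ℝ) ≤ (pProd d n m : ℝ) := by
      have : (0 : ℚ) ≤ pProd d n m := by unfold pProd pNorm; positivity
      exact_mod_cast this
    have hm2 : (C.margin (L + 1) : ℝ) = (1 - 2 * (C.t2 : ℝ)) ^ 3 * C.margin L := by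
      simp only [margin]
      push_cast
      rw [show 3 * (L + 1) = 3 * L + 3 by omega, pow_add]
      ring
    have ht : (9 / 10 : ℝ) ≤ 1 - 2 * (C.t2 : ℝ) := by
      have : (C.t2 : ℝ) ≤ 1 / 20 := by
        have := (Rat.cast_le (K := ℝ)).2 hV.t2.2
        simpa using this
      linarith
    calc _ ≤ 4 * (5 * ((C.N0 : ℝ) + 1) ^ 2) ^ 2 * (C.gram d n m : ℝ) ^ 2 * (pProd d n m : ℝ) *
          ((9 / 10 : ℝ) ^ 6 * ovBound (min ((n : ℤ) + d).toNat ((m : ℤ) + d).toNat)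
            (max ((n : ℤ) + d).toNat ((m : ℤ) + d).toNat) ((L : ℤ) + d).toNat) :=
          mul_le_mul_of_nonneg_left hstep (by positivity)
      _ = (9 / 10 : ℝ) ^ 6 * (4 * (5 * ((C.N0 : ℝ) + 1) ^ 2) ^ 2 * (C.gram d n m : ℝ) ^ 2 *
          (pProd d n m : ℝ) * ovBound (min ((n : ℤ) + d).toNat ((m : ℤ) + d).toNat)
            (max ((n : ℤ) + d).toNat ((m : ℤ) + d).toNat) ((L : ℤ) + d).toNat) := by ring
      _ ≤ (1 - 2 * (C.t2 : ℝ)) ^ 6 * (C.margin L : ℝ) ^ 2 :=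
          mul_le_mul (pow_le_pow_left₀ (by norm_num) ht 6) ih
            (mul_nonneg (by positivity) (ovBound_nonneg _ _ _)) (pow_nonneg (by linarith) _)
      _ = _ := by rw [hm2]; ring

/-- The scalar estimate behind `abs_term_le`. -/
theorem key_bound {g O cn cm sn sm hn0 hm0 hn1 hm1 Dn Dm ov F qn qm qn' qm' pn pm pn' pm' K M : ℝ}
    (p0 : 0 ≤ hn0) (p1 : 0 ≤ hm0) (p2 : 0 ≤ hn1) (p3 : 0 ≤ hm1) (pDn : 0 ≤ Dn) (pDm : 0 ≤ Dm)
    (pov : 0 ≤ ov) (pF : 0 ≤ F) (q0 : 0 ≤ qn) (q1 : 0 ≤ qm) (q2 : 0 ≤ qn') (q3 : 0 ≤ qm')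
    (hsn : sn ^ 2 = qn * qn') (hsm : sm ^ 2 = qm * qm')
    (hcn : cn ^ 2 * Dn ≤ hn0 * F) (hcm : cm ^ 2 * Dm ≤ hm0 * F)
    (hov : O ^ 2 ≤ ov * (hn1 * Dn) * (hm1 * Dm))
    (hbn : qn * hn0 ≤ 7 / 5 * pn) (hbm : qm * hm0 ≤ 7 / 5 * pm)
    (hbn' : qn' * hn1 ≤ 7 / 5 * pn') (hbm' : qm' * hm1 ≤ 7 / 5 * pm')
    (hK : 0 < K) (hM : 0 ≤ M)
    (htail : 4 * K ^ 2 * g ^ 2 * (pn * pn' * (pm * pm')) * ov ≤ M ^ 2) :
    |g * (sn * cn * (sm * cm) * O)| ≤ M / K * F := by
  have a0 := mul_nonneg q0 p0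
  have a1 := mul_nonneg q1 p1
  have a2 := mul_nonneg q2 p2
  have a3 := mul_nonneg q3 p3
  have e1 : (g * (sn * cn * (sm * cm) * O)) ^ 2
      ≤ g ^ 2 * sn ^ 2 * sm ^ 2 * (cn ^ 2 * cm ^ 2) * (ov * (hn1 * Dn) * (hm1 * Dm)) := by
    rw [show (g * (sn * cn * (sm * cm) * O)) ^ 2
      = g ^ 2 * sn ^ 2 * sm ^ 2 * (cn ^ 2 * cm ^ 2) * O ^ 2 by ring]
    exact mul_le_mul_of_nonneg_left hov (by positivity)
  have e2 : g ^ 2 * sn ^ 2 * sm ^ 2 * (cn ^ 2 * cm ^ 2) * (ov * (hn1 * Dn) * (hm1 * Dm))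
      ≤ g ^ 2 * sn ^ 2 * sm ^ 2 * (ov * hn1 * hm1) * ((hn0 * F) * (hm0 * F)) := by
    rw [show g ^ 2 * sn ^ 2 * sm ^ 2 * (cn ^ 2 * cm ^ 2) * (ov * (hn1 * Dn) * (hm1 * Dm))
      = g ^ 2 * sn ^ 2 * sm ^ 2 * (ov * hn1 * hm1) * ((cn ^ 2 * Dn) * (cm ^ 2 * Dm)) by ring]
    exact mul_le_mul_of_nonneg_left (mul_le_mul hcn hcm (by positivity) (by positivity))
      (by positivity)
  have e3 : qn * hn0 * (qn' * hn1) * (qm * hm0 * (qm' * hm1))
      ≤ 7 / 5 * pn * (7 / 5 * pn') * (7 / 5 * pm * (7 / 5 * pm')) :=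
    mul_le_mul (mul_le_mul hbn hbn' a2 (a0.trans hbn)) (mul_le_mul hbm hbm' a3 (a1.trans hbm))
      (mul_nonneg a1 a3) (mul_nonneg (a0.trans hbn) (a2.trans hbn'))
  have hP : 0 ≤ pn * pn' * (pm * pm') := by
    have : 0 ≤ 7 / 5 * pn * (7 / 5 * pn') * (7 / 5 * pm * (7 / 5 * pm')) := le_trans (by positivity) e3
    linarith
  have key : (g * (sn * cn * (sm * cm) * O)) ^ 2 ≤ (M / K * F) ^ 2 := by
    refine e1.trans (e2.trans ?_)
    calc g ^ 2 * sn ^ 2 * sm ^ 2 * (ov * hn1 * hm1) * ((hn0 * F) * (hm0 * F))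
        = g ^ 2 * ov * F ^ 2 * (qn * hn0 * (qn' * hn1) * (qm * hm0 * (qm' * hm1))) := by
          rw [hsn, hsm]; ring
      _ ≤ g ^ 2 * ov * F ^ 2 * (7 / 5 * pn * (7 / 5 * pn') * (7 / 5 * pm * (7 / 5 * pm'))) :=
          mul_le_mul_of_nonneg_left e3 (by positivity)
      _ = ((7 / 5 : ℝ) ^ 4 / 4 / K ^ 2 * F ^ 2) * (4 * K ^ 2 * g ^ 2 * (pn * pn' * (pm * pm')) * ov) := by
          field_simp
      _ ≤ (1 / K ^ 2 * F ^ 2) * M ^ 2 := by
          refine mul_le_mul ?_ htail (by positivity) (by positivity)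
          gcongr
          norm_num
      _ = _ := by ring
  exact (sq_le_sq₀ (abs_nonneg _) (mul_nonneg (div_nonneg hM hK.le) pF)).1 (by rwa [sq_abs])

/-- One term of the cross form above `L0`. -/
theorem abs_term_le (hV : C.Valid) {L0 : ℕ} (hT : C.TailOK L0) {Q : ℕ} (hQ : 10000 ≤ Q)
    (hnorm : ∀ d ∈ shiftSet, ∀ n ≤ 30,
      (Q : ℝ) ^ n * nsq (hwVec (degD Q d) Q n) ≤ 7 / 5 * (pNorm 2 n : ℝ))
    {L : ℕ} (hL : L0 + 1 ≤ L) {F : Three (2 * Q - 2) Q → ℝ} (hF : Supp wt3 L F)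
    (hJ : raise3 (2 * Q - 2) Q *ᵥ F = 0)
    {d : ℤ} (hd : d ∈ shiftSet) {n m : ℕ} (hn : n ≤ C.N0) (hm : m ≤ C.N0) :
    |(C.gram d n m : ℝ) * crossTerm Q L F d n m|
      ≤ (C.margin L : ℝ) / (5 * ((C.N0 : ℝ) + 1) ^ 2) * nsq F := by
  have hN := hV.N0_le.2
  obtain ⟨d1, d2⟩ := shiftSet_abs hd
  have hR : 0 ≤ (C.margin L : ℝ) / (5 * ((C.N0 : ℝ) + 1) ^ 2) * nsq F :=
    mul_nonneg (div_nonneg (margin_nonneg hV L) (by positivity)) (nsq_nonneg F)
  by_cases hneg : (n : ℤ) + d < 0 ∨ (m : ℤ) + d < 0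
  · simpa [gram_eq_zero hneg] using hR
  by_cases hbig : Q < L - n ∨ Q < L - m
  · have : crossTerm Q L F d n m = 0 := by
      rcases hbig with h | h
      · simp [crossTerm, coordChan_eq_zero (F := F) (by omega) (by omega) hF hJ h]
      · simp [crossTerm, coordChan_eq_zero (F := F) (by omega) (by omega) hF hJ h]
    simpa [this] using hR
  push Not at hneg hbig
  have h64 := hT.1
  have hn' : ((n : ℤ) + d).toNat ≤ 30 := by omega
  have hm' : ((m : ℤ) + d).toNat ≤ 30 := by omega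
  have hcn := coordChan_sq_le (A := 2 * Q - 2) (B := Q) (L := L) (n := n) (F := F) (by omega)
    (by omega) (by omega) hbig.1
  have hcm := coordChan_sq_le (A := 2 * Q - 2) (B := Q) (L := L) (n := m) (F := F) (by omega)
    (by omega) (by omega) hbig.2
  have hov := overlap_sq_le_symm (A := degD Q d) (B := Q) (n := ((n : ℤ) + d).toNat)
    (q := ((m : ℤ) + d).toNat) (L := ((L : ℤ) + d).toNat) hQ (by unfold degD; omega)
    (by unfold degD; omega) hn' hm' (by omega) (by omega) (by omega) (by omega)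
  rw [show ((L : ℤ) + d).toNat - ((n : ℤ) + d).toNat = L - n by omega,
    show ((L : ℤ) + d).toNat - ((m : ℤ) + d).toNat = L - m by omega,
    nsq_tri3_eq (by unfold degD; omega) (by omega), nsq_tri3_eq (by unfold degD; omega) (by omega),
    show degD Q d + Q - 2 * ((n : ℤ) + d).toNat = 2 * Q - 2 + Q - 2 * n by unfold degD; omega,
    show degD Q d + Q - 2 * ((m : ℤ) + d).toNat = 2 * Q - 2 + Q - 2 * m by unfold degD; omega]
    at hov
  have hbn := hnorm 0 (by simp [shiftSet]) n (by omega)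
  have hbm := hnorm 0 (by simp [shiftSet]) m (by omega)
  rw [show degD Q 0 = 2 * Q - 2 by unfold degD; omega] at hbn hbm
  have hbn' := hnorm d hd _ hn'
  have hbm' := hnorm d hd _ hm'
  have htail := tail_all hV hT hd hn hm hL
  unfold crossTerm
  simp only [pProd, Rat.cast_mul] at htail
  have hs : ∀ a b : ℕ, (Real.sqrt Q ^ (a + b)) ^ 2 = (Q : ℝ) ^ a * (Q : ℝ) ^ b := by
    intro a b
    rw [← pow_mul, mul_comm, pow_mul, Real.sq_sqrt (Nat.cast_nonneg Q), pow_add]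
  have hsn := hs n ((n : ℤ) + d).toNat
  have hsm := hs m ((m : ℤ) + d).toNat
  have hDn := nsq_hwVec_pos (A := 2 * Q - 2 + Q - 2 * n) (B := Q) hbig.1
  have hDm := nsq_hwVec_pos (A := 2 * Q - 2 + Q - 2 * m) (B := Q) hbig.2
  have hgoal := key_bound (g := (C.gram d n m : ℝ))
    (O := tri3 (degD Q d) Q ((n : ℤ) + d).toNat (L - n) ⬝ᵥ
      tri4 (degD Q d) Q ((m : ℤ) + d).toNat (L - m))
    (nsq_nonneg _) (nsq_nonneg _) (nsq_nonneg _) (nsq_nonneg _) hDn.le hDm.le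
    (ovBound_nonneg _ _ _) (nsq_nonneg F) (pow_nonneg (Nat.cast_nonneg Q) n)
    (pow_nonneg (Nat.cast_nonneg Q) m) (pow_nonneg (Nat.cast_nonneg Q) ((n : ℤ) + d).toNat)
    (pow_nonneg (Nat.cast_nonneg Q) ((m : ℤ) + d).toNat) hsn hsm hcn hcm hov hbn hbm hbn' hbm'
    (by positivity : (0 : ℝ) < 5 * ((C.N0 : ℝ) + 1) ^ 2) (margin_nonneg hV L) htail
  exact hgoal

/-- All weights above `L0`. -/
theorem sectorPos_tail (hV : C.Valid) {L0 : ℕ} (hT : C.TailOK L0) :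
    ∀ᶠ Q : ℕ in atTop, ∀ L > L0, C.SectorPos Q L := by
  filter_upwards [eventually_norms 30, eventually_ge_atTop 10000] with Q hnorm hQ L hL F hF hJ hanti
  have hN := hV.N0_le.2
  have h64 := hT.1
  rw [cross_eq_gram hV (by omega) (by omega) hF hJ hanti]
  set S := ∑ d ∈ shiftSet, ∑ n ∈ range (C.N0 + 1), ∑ m ∈ range (C.N0 + 1),
    (C.gram d n m : ℝ) * crossTerm Q L F d n m with hS
  set R := (C.margin L : ℝ) / (5 * ((C.N0 : ℝ) + 1) ^ 2) * nsq F with hR
  have hb : ∑ d ∈ shiftSet, ∑ n ∈ range (C.N0 + 1), ∑ m ∈ range (C.N0 + 1), -R ≤ S := by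
    refine sum_le_sum fun d hd => sum_le_sum fun n hn => sum_le_sum fun m hm => ?_
    exact (abs_le.1 (abs_term_le hV hT hQ hnorm (by omega) hF hJ hd
      (by simp only [Finset.mem_range] at hn; omega)
      (by simp only [Finset.mem_range] at hm; omega))).1
  have hc : ∑ d ∈ shiftSet, ∑ n ∈ range (C.N0 + 1), ∑ m ∈ range (C.N0 + 1), -R
      = -((C.margin L : ℝ) * nsq F) := by
    simp only [sum_const, card_range, nsmul_eq_mul, show shiftSet.card = 5 by rfl, hR]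
    push_cast
    field_simp
  have h1 := quad_restK_nonneg (A := 2 * Q - 2) (by omega : 1 ≤ Q) F
  have h2 : 0 ≤ (C.Λ : ℝ) * quad (act3 (killedProj Q)) F :=
    mul_nonneg (by exact_mod_cast hV.lam) (quad_killed_nonneg F)
  have h3 : 0 ≤ ∑ n ∈ range (C.N0 + 1), (C.v n : ℝ) * C.tailW L * quad (act3 (chanP Q n)) F := by
    refine sum_nonneg fun n _ => mul_nonneg (mul_nonneg (by exact_mod_cast hV.v_nonneg n) ?_)
      (quad_chanP_nonneg n F)
    have ht := hV.t3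
    have : (0 : ℚ) ≤ C.tailW L := mul_nonneg (by linarith) (pow_nonneg (by linarith) L)
    exact_mod_cast this
  linarith

end Cert

end P359
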