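import Vale.Agent.P359.Assembly
import Vale.Agent.P359.BlockLimit
import Vale.Agent.P359.TailTwo

/-!
P359: a valid certificate, positive planar blocks up to `L0` and the overlap condition beyond give
the gap at the Laughlin flux.
-/

namespace P359

open scoped BigOperators

theorem gap_of_blocks {C : Cert} (hV : C.Valid) {L0 : ℕ} (hT : C.TailOK L0)
    (hB : ∀ L, 1 ≤ L → L ≤ L0 → C.BlockPos L) :
    ∃ δ : ℝ, 0 < δ ∧ ∃ N0 : ℕ, ∀ N ≥ N0, ∀ ψ : Config (3 * (N - 1)) N → ℂ, IsAnti ψ →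
      δ * (∑ x, ‖ψ x‖ ^ 2 - ‖∑ x, (laughlin N x : ℂ) * ψ x‖ ^ 2 / ∑ x, laughlin N x ^ 2)
        ≤ (∑ x, (starRingEnd ℂ) (ψ x) * H (3 * (N - 1)) N ψ x).re := by
  refine Cert.gap_of_cert hV ?_
  filter_upwards [Cert.sectorPos_le_eventually hV hB, Cert.sectorPos_tail hV hT] with Q h1 h2 L
  rcases le_or_gt L L0 with h | h
  · exact h1 L h
  · exact h2 L h

end P359
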