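import Vale.Agent.P359.Basic

/-!
P359, piece C3 (scalar part): binomial identities and the lower bound for the value of the
majorant on highest-weight vectors.
-/

namespace P359

open Finset
open scoped BigOperators

/-- Upper convolution of binomial coefficients. -/
theorem sum_choose_mul_choose_sub (c : ℕ) : ∀ B d : ℕ,
    ∑ b ∈ range (B + 1), b.choose c * (B - b).choose d = (B + 1).choose (c + d + 1) := by
  intro B
  induction B with
  | zero =>
    intro d
    rcases c with _ | c <;> rcases d with _ | d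
    · simp
    all_goals
      rw [sum_range_succ, sum_range_zero, Nat.choose_eq_zero_of_lt (show 0 + 1 < _ by omega)]
      simp
  | succ B ih =>
    intro d
    rw [sum_range_succ]
    cases d with
    | zero =>
      have h := ih 0
      simp only [Nat.choose_zero_right, mul_one] at h ⊢
      rw [h, Nat.choose_succ_succ' (B + 1) (c + 0)]
      simp only [add_zero]
      ring
    | succ d =>
      have hs : ∑ b ∈ range (B + 1), b.choose c * (B + 1 - b).choose (d + 1)
          = (∑ b ∈ range (B + 1), b.choose c * (B - b).choose d)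
            + ∑ b ∈ range (B + 1), b.choose c * (B - b).choose (d + 1) := by
        rw [← sum_add_distrib]
        refine sum_congr rfl fun b hb => ?_
        have hb' : b ≤ B := Nat.lt_succ_iff.mp (mem_range.mp hb)
        rw [Nat.succ_sub hb', Nat.choose_succ_succ', mul_add]
      rw [hs, ih d, ih (d + 1), Nat.sub_self, Nat.choose_zero_succ, mul_zero, add_zero]
      rw [Nat.choose_succ_succ' (B + 1) (c + (d + 1))]
      rfl

/-- Exchange in a trinomial coefficient. -/
theorem choose_mul_choose_comm (N x y : ℕ) :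
    N.choose x * (N - x).choose y = N.choose y * (N - y).choose x := by
  have h1 := Nat.choose_mul (n := N) (k := x + y) (s := x) (Nat.le_add_right x y)
  have h2 := Nat.choose_mul (n := N) (k := x + y) (s := y) (Nat.le_add_left y x)
  rw [Nat.add_sub_cancel_left] at h1
  rw [Nat.add_sub_cancel_right] at h2
  rw [← h1, ← h2, Nat.choose_symm_add]

theorem choose_split_eq {B j b c : ℕ} (hcb : c ≤ b) (hcj : c ≤ j) :
    (B - j).choose (b - c) * j.choose c * B.choose j
      = b.choose c * (B - b).choose (j - c) * B.choose b := by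
  have h1 := Nat.choose_mul (n := B) (k := j) (s := c) hcj
  have h2 := Nat.choose_mul (n := B) (k := b) (s := c) hcb
  have h3 := choose_mul_choose_comm (B - c) (j - c) (b - c)
  have e1 : B - c - (j - c) = B - j := by omega
  have e2 : B - c - (b - c) = B - b := by omega
  rw [e1, e2] at h3
  calc (B - j).choose (b - c) * j.choose c * B.choose j
      = (B - j).choose (b - c) * (B.choose j * j.choose c) := by ring
    _ = B.choose c * ((B - c).choose (j - c) * (B - j).choose (b - c)) := by rw [h1]; ring
    _ = B.choose c * ((B - c).choose (b - c) * (B - b).choose (j - c)) := by rw [h3]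
    _ = (B.choose b * b.choose c) * (B - b).choose (j - c) := by rw [h2]; ring
    _ = _ := by ring

/-- The square of the splitting coefficient, without case distinction. -/
theorem split_sq {B j b c : ℕ} (hjB : j ≤ B) (hbB : b ≤ B) (hcj : c ≤ j) :
    split B j b c ^ 2
      = (b.choose c : ℝ) * (B - b).choose (j - c) / B.choose j := by
  unfold split
  split_ifs with h
  · rw [Real.sq_sqrt (by positivity)]
    have hb : (B.choose b : ℝ) ≠ 0 := by exact_mod_cast (Nat.choose_pos hbB).ne'
    have hj : (B.choose j : ℝ) ≠ 0 := by exact_mod_cast (Nat.choose_pos hjB).ne'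
    rw [div_eq_div_iff hb hj]
    exact_mod_cast choose_split_eq h hcj
  · rw [Nat.choose_eq_zero_of_lt (not_le.mp h)]
    simp

/-- Total weight of the splitting of one basis vector. -/
theorem sum_split_sq_right {A j a : ℕ} (hjA : j ≤ A) (haA : a ≤ A) :
    ∑ c ∈ range (j + 1), split A j a c ^ 2 = 1 := by
  have hj : (A.choose j : ℝ) ≠ 0 := by exact_mod_cast (Nat.choose_pos hjA).ne'
  rw [sum_congr rfl fun c hc => split_sq hjA haA (Nat.lt_succ_iff.mp (mem_range.mp hc)),
    ← sum_div, div_eq_one_iff_eq hj]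
  have h := Nat.add_choose_eq a (A - a) j
  rw [Nat.add_sub_cancel' haA, Nat.sum_antidiagonal_eq_sum_range_succ
    (fun x y => a.choose x * (A - a).choose y) j] at h
  exact_mod_cast h.symm

/-- Total weight received by one auxiliary index. -/
theorem sum_split_sq_left {B j c : ℕ} (hjB : j ≤ B) (hcj : c ≤ j) :
    ∑ b ∈ range (B + 1), split B j b c ^ 2 = ((B : ℝ) + 1) / ((j : ℝ) + 1) := by
  have hj : (B.choose j : ℝ) ≠ 0 := by exact_mod_cast (Nat.choose_pos hjB).ne'
  have hj1 : ((j : ℝ) + 1) ≠ 0 := by positivity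
  rw [sum_congr rfl fun b hb => split_sq hjB (Nat.lt_succ_iff.mp (mem_range.mp hb)) hcj,
    ← sum_div, div_eq_div_iff hj hj1]
  have h := sum_choose_mul_choose_sub c B (j - c)
  have e : c + (j - c) + 1 = j + 1 := by omega
  rw [e] at h
  have h2 := Nat.add_one_mul_choose_eq B j
  rw [← h] at h2
  exact_mod_cast h2.symm

/-! ### Moments -/

theorem tangent_pow_le {y M : ℝ} (hy : 0 ≤ y) (hM : 0 ≤ M) : ∀ n : ℕ,
    M ^ (n + 1) + (n + 1) * M ^ n * (y - M) ≤ y ^ (n + 1) := by
  intro n
  induction n with
  | zero => simp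
  | succ n ih =>
    have h := mul_le_mul_of_nonneg_right ih hy
    have hnn : 0 ≤ ((n : ℝ) + 1) * M ^ n * (y - M) ^ 2 := by positivity
    push_cast
    rw [pow_succ y (n + 1)]
    ring_nf at h hnn ⊢
    linarith

theorem tangent_pow_le' {y M s : ℝ} (hM : 0 ≤ M) (hs : 0 ≤ s) (hys : -s ≤ y) (n : ℕ) :
    M ^ (n + 1) + (n + 1) * M ^ n * (y - M) ≤ y ^ (n + 1) + s ^ (n + 1) := by
  rcases le_or_gt 0 y with hy | hy
  · have := tangent_pow_le hy hM n
    have := pow_nonneg hs (n + 1)
    linarith
  · have h1 : |y| ≤ s := abs_le.mpr ⟨hys, by linarith⟩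
    have h2 : |y ^ (n + 1)| ≤ s ^ (n + 1) := by
      rw [abs_pow]
      exact pow_le_pow_left₀ (abs_nonneg y) h1 _
    have h3 := (abs_le.mp h2).1
    have h4 : M ^ (n + 1) + ((n : ℝ) + 1) * M ^ n * (y - M)
        = M ^ n * (((n : ℝ) + 1) * y - n * M) := by ring
    have h5 : ((n : ℝ) + 1) * y - n * M ≤ 0 := by
      nlinarith [mul_nonneg (Nat.cast_nonneg (α := ℝ) n) hM]
    have h6 := mul_nonpos_of_nonneg_of_nonpos (pow_nonneg hM n) h5
    linarith

/-- `∫₀¹ u^p (1-u)^q`. -/
noncomputable def betaI (p q : ℕ) : ℝ := ∫ u in (0:ℝ)..1, u ^ p * (1 - u) ^ q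

theorem betaI_step (p q : ℕ) : betaI p (q + 1) = betaI p q - betaI (p + 1) q := by
  unfold betaI
  rw [← intervalIntegral.integral_sub ((by fun_prop : Continuous _).intervalIntegrable _ _)
    ((by fun_prop : Continuous _).intervalIntegrable _ _)]
  refine intervalIntegral.integral_congr fun u _ => ?_
  ring

theorem betaI_eq : ∀ q p : ℕ,
    betaI p q = (p.factorial : ℝ) * q.factorial / (p + q + 1).factorial := by
  intro q
  induction q with
  | zero =>
    intro p
    simp only [betaI, pow_zero, mul_one, add_zero, Nat.factorial_zero, Nat.cast_one,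
      Nat.factorial_succ]
    have h : (p.factorial : ℝ) ≠ 0 := by exact_mod_cast p.factorial_ne_zero
    rw [integral_pow]
    push_cast
    field_simp
    simp
  | succ q ih =>
    intro p
    rw [betaI_step, ih, ih]
    have e : p + 1 + q + 1 = p + (q + 1) + 1 := by omega
    rw [e, show p + (q + 1) + 1 = (p + q + 1) + 1 by omega]
    simp only [Nat.factorial_succ]
    have h : ((p + q).factorial : ℝ) ≠ 0 := by exact_mod_cast (p + q).factorial_ne_zero
    have h1 : ((p : ℝ) + q + 1) ≠ 0 := by positivity
    have h2 : ((p : ℝ) + q + 1 + 1) ≠ 0 := by positivity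
    push_cast
    field_simp
    ring

theorem betaI_shift {k c A : ℕ} (hc : c ≤ A) :
    betaI (k + c) (A - c)
      = ((k + c).choose c : ℝ) / A.choose c * betaI k A := by
  rw [betaI_eq, betaI_eq]
  have e : k + c + (A - c) + 1 = k + A + 1 := by omega
  have hC : (A.choose c : ℝ) ≠ 0 := by exact_mod_cast (Nat.choose_pos hc).ne'
  have hF : ((k + A + 1).factorial : ℝ) ≠ 0 := by exact_mod_cast Nat.factorial_ne_zero _
  have h1 := Nat.choose_mul_factorial_mul_factorial (Nat.le_add_left c k)
  rw [Nat.add_sub_cancel] at h1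
  have h2 := Nat.choose_mul_factorial_mul_factorial hc
  rw [e, ← h1, ← h2]
  push_cast
  field_simp

/-- The value of the majorant on `(Z-z)^n`, divided by the squared norm. -/
noncomputable def majSum (A B n : ℕ) (t : ℝ) : ℝ :=
  ∑ c ∈ range (n + 1), (-1 : ℝ) ^ c * n.choose c * t ^ c * (1 - t) ^ (n - c)
    * (B - n + c).choose c / A.choose c

theorem majSum_add_ge {A k m : ℕ} {t : ℝ} (hmA : m + 1 ≤ A) (hkA : k + 1 ≤ A) (ht0 : 0 ≤ t)
    (ht : t ≤ 1 / 2) :
    (1 - t - t * ((k : ℝ) + 1) / A) ^ (m + 1)
      ≤ majSum A (k + (m + 1)) (m + 1) t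
        + t ^ (m + 1) * ((k + (m + 1)).choose (m + 1) : ℝ) / A.choose (m + 1) := by
  have hA : (0 : ℝ) < A := by exact_mod_cast (show 0 < A by omega)
  set μ : ℝ := 1 - t - t * ((k : ℝ) + 1) / A with hμ
  have hμ0 : 0 ≤ μ := by
    have h1 : ((k : ℝ) + 1) / A ≤ 1 := by
      rw [div_le_one hA]; exact_mod_cast hkA
    have h2 := mul_le_mul_of_nonneg_left h1 ht0
    rw [hμ, mul_div_assoc]
    linarith
  set n := m + 1 with hn
  let f : ℕ → ℝ → ℝ := fun c u => u ^ (k + c) * (1 - u) ^ (A - c)
  let coef : ℕ → ℝ := fun c => (-1 : ℝ) ^ c * n.choose c * t ^ c * (1 - t) ^ (n - c)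
  let G : ℝ → ℝ := fun u => (∑ c ∈ range (n + 1), coef c * f c u) + t ^ n * f n u
      - μ ^ n * f 0 u - n * μ ^ m * ((1 - t - μ) * f 0 u - t * f 1 u)
  have hG : ∀ u ∈ Set.Icc (0 : ℝ) 1, 0 ≤ G u := by
    intro u hu
    have hz : 0 ≤ 1 - u := by linarith [hu.2]
    have ha : 0 ≤ 1 - t := by linarith
    have hkey := tangent_pow_le' (y := (1 - t) * (1 - u) - t * u) (M := μ * (1 - u))
      (s := t * u) (mul_nonneg hμ0 hz) (mul_nonneg ht0 hu.1)
      (by nlinarith [mul_nonneg ha hz]) m
    have hw : 0 ≤ u ^ k * (1 - u) ^ (A - n) :=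
      mul_nonneg (pow_nonneg hu.1 _) (pow_nonneg hz _)
    have hsum : ∑ c ∈ range (n + 1), coef c * f c u
        = u ^ k * (1 - u) ^ (A - n) * ((1 - t) * (1 - u) - t * u) ^ n := by
      rw [show (1 - t) * (1 - u) - t * u = -(t * u) + (1 - t) * (1 - u) by ring, add_pow,
        mul_sum]
      refine sum_congr rfl fun c hc => ?_
      have hc' : c ≤ n := Nat.lt_succ_iff.mp (mem_range.mp hc)
      simp only [coef, f]
      rw [show A - c = (A - n) + (n - c) by omega, pow_add u, pow_add (1 - u),
        mul_pow (1 - t), neg_pow (t * u), mul_pow t]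
      ring
    have heq : G u = u ^ k * (1 - u) ^ (A - n)
        * (((1 - t) * (1 - u) - t * u) ^ n + (t * u) ^ n
          - (μ * (1 - u)) ^ n
          - n * (μ * (1 - u)) ^ m * ((1 - t) * (1 - u) - t * u - μ * (1 - u))) := by
      simp only [G]
      rw [hsum]
      simp only [f, add_zero, Nat.sub_zero]
      rw [show A - 1 = (A - n) + m by omega]
      conv_lhs => rw [show (1 - u) ^ A = (1 - u) ^ ((A - n) + (m + 1)) by
        rw [show (A - n) + (m + 1) = A by omega]]
      simp only [mul_pow, pow_add, hn, pow_one]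
      ring
    rw [heq]
    refine mul_nonneg hw ?_
    rw [hn]
    push_cast
    linarith
  have hint := intervalIntegral.integral_nonneg (μ := MeasureTheory.volume)
    (by norm_num : (0 : ℝ) ≤ 1) hG
  have hf : ∀ c, ∫ u in (0:ℝ)..1, f c u = betaI (k + c) (A - c) := fun c => rfl
  have hI : ∫ u in (0:ℝ)..1, G u
      = (∑ c ∈ range (n + 1), coef c * betaI (k + c) (A - c))
        + t ^ n * betaI (k + n) (A - n) - μ ^ n * betaI k A
        - n * μ ^ m * ((1 - t - μ) * betaI k A - t * betaI (k + 1) (A - 1)) := by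
    have cf : ∀ c, Continuous (f c) := fun c => by fun_prop
    simp only [G]
    rw [intervalIntegral.integral_sub (Continuous.intervalIntegrable (by fun_prop) _ _)
        (Continuous.intervalIntegrable (by fun_prop) _ _),
      intervalIntegral.integral_sub (Continuous.intervalIntegrable (by fun_prop) _ _)
        (Continuous.intervalIntegrable (by fun_prop) _ _),
      intervalIntegral.integral_add (Continuous.intervalIntegrable (by fun_prop) _ _)
        (Continuous.intervalIntegrable (by fun_prop) _ _),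
      intervalIntegral.integral_finsetSum
        (fun c _ => Continuous.intervalIntegrable (by fun_prop) _ _),
      intervalIntegral.integral_const_mul, intervalIntegral.integral_const_mul,
      intervalIntegral.integral_const_mul,
      intervalIntegral.integral_sub (Continuous.intervalIntegrable (by fun_prop) _ _)
        (Continuous.intervalIntegrable (by fun_prop) _ _),
      intervalIntegral.integral_const_mul, intervalIntegral.integral_const_mul]
    simp only [intervalIntegral.integral_const_mul, hf, add_zero, Nat.sub_zero]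
  have hI0 : 0 < betaI k A := by rw [betaI_eq]; positivity
  have h1 : betaI (k + 1) (A - 1) = ((k : ℝ) + 1) / A * betaI k A := by
    rw [betaI_shift (by omega)]
    simp
  have hzero : (1 - t - μ) * betaI k A - t * betaI (k + 1) (A - 1) = 0 := by
    rw [h1, hμ]; ring
  have hsum2 : ∑ c ∈ range (n + 1), coef c * betaI (k + c) (A - c)
      = majSum A (k + n) n t * betaI k A := by
    unfold majSum
    rw [sum_mul]
    refine sum_congr rfl fun c hc => ?_
    have hc' : c ≤ n := Nat.lt_succ_iff.mp (mem_range.mp hc)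
    rw [betaI_shift (by omega), Nat.add_sub_cancel]
    simp only [coef]
    ring
  rw [hI, hsum2, betaI_shift hmA, hzero, mul_zero, sub_zero] at hint
  have : 0 ≤ (majSum A (k + n) n t + t ^ n * ((k + n).choose n : ℝ) / A.choose n - μ ^ n)
      * betaI k A := by
    calc (0 : ℝ) ≤ _ := hint
      _ = _ := by ring
  have := nonneg_of_mul_nonneg_left this hI0
  linarith

/-- C3d: the value of the majorant is at least `(1-2t)^n / 2`. -/
theorem majSum_lower {A B n : ℕ} {t : ℝ} (hn : n ≤ B) (hBA : B ≤ A) (ht0 : 0 ≤ t)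
    (ht : t ≤ 1 / 5) : (1 / 2) * (1 - 2 * t) ^ n ≤ majSum A B n t := by
  cases n with
  | zero => simp [majSum]; norm_num
  | succ m =>
    obtain ⟨k, rfl⟩ : ∃ k, B = k + (m + 1) := ⟨B - (m + 1), by omega⟩
    have h := majSum_add_ge (A := A) (k := k) (m := m) (by omega) (by omega) ht0
      (by linarith)
    have hA : (0 : ℝ) < A := by exact_mod_cast (show 0 < A by omega)
    have h12 : 0 ≤ 1 - 2 * t := by linarith
    have hμ : 1 - 2 * t ≤ 1 - t - t * ((k : ℝ) + 1) / A := by
      have h1 : ((k : ℝ) + 1) / A ≤ 1 := by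
        rw [div_le_one hA]; exact_mod_cast (show k + 1 ≤ A by omega)
      have h2 := mul_le_mul_of_nonneg_left h1 ht0
      rw [mul_div_assoc]
      linarith
    have hp := pow_le_pow_left₀ h12 hμ (m + 1)
    have hr : ((k + (m + 1)).choose (m + 1) : ℝ) / A.choose (m + 1) ≤ 1 := by
      rw [div_le_one (by exact_mod_cast Nat.choose_pos (show m + 1 ≤ A by omega))]
      exact_mod_cast Nat.choose_le_choose _ hBA
    have ht3 : t ≤ (1 / 3) * (1 - 2 * t) := by linarith
    have htn : t ^ (m + 1) ≤ (1 / 2) * (1 - 2 * t) ^ (m + 1) := by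
      refine (pow_le_pow_left₀ ht0 ht3 _).trans ?_
      rw [mul_pow]
      refine mul_le_mul_of_nonneg_right ?_ (pow_nonneg h12 _)
      calc (1 / 3 : ℝ) ^ (m + 1) ≤ (1 / 3) ^ 1 :=
            pow_le_pow_of_le_one (by norm_num) (by norm_num) (by omega)
        _ ≤ 1 / 2 := by norm_num
    have htr : t ^ (m + 1) * ((k + (m + 1)).choose (m + 1) : ℝ) / A.choose (m + 1)
        ≤ t ^ (m + 1) := by
      rw [mul_div_assoc]
      exact mul_le_of_le_one_right (pow_nonneg ht0 _) hr
    linarith

end P359
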