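import Vale.Agent.P359.Basic
import Vale.Agent.P359.MajorantScalar
import Vale.Agent.P359.HighestWeight

/-!
P359, piece C3: the majorant `∑_j binom(B,j)(1-t)^(B-j) t^j exch_j`.
It commutes with the rotations, its partial transpose is a Gram matrix with partial trace
at most `1/t`, and on the highest-weight vector `(Z-z)^n` its value is `majSum`.
-/

namespace P359

open Matrix Finset
open scoped BigOperators Kronecker

/-! ### Elementary facts on `raise` and on square roots of binomials -/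

theorem raise_sum_fst (n : ℕ) (a : Fin (n + 1)) (g : ℕ → ℝ) :
    ∑ q : Fin (n + 1), raise n a q * g q
      = Real.sqrt (((a : ℝ) + 1) * ((n : ℝ) - a)) * g ((a : ℕ) + 1) := by
  by_cases h : (a : ℕ) < n
  · rw [sum_eq_single (⟨(a : ℕ) + 1, by omega⟩ : Fin (n + 1))]
    · simp [raise]
    · intro q _ hq
      have : (q : ℕ) ≠ (a : ℕ) + 1 := fun e => hq (Fin.ext e)
      simp [raise, this]
    · simp
  · have ha : (a : ℕ) = n := by omega
    rw [sum_eq_zero fun q _ => ?_]
    · simp [ha]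
    · have : (q : ℕ) ≠ (a : ℕ) + 1 := by omega
      simp [raise, this]

theorem raise_sum_snd (n : ℕ) (a : Fin (n + 1)) (g : ℕ → ℝ) :
    ∑ q : Fin (n + 1), raise n q a * g q
      = Real.sqrt ((a : ℝ) * ((n : ℝ) - a + 1)) * g ((a : ℕ) - 1) := by
  by_cases h : (a : ℕ) = 0
  · rw [sum_eq_zero fun q _ => ?_]
    · simp [h]
    · have : (a : ℕ) ≠ (q : ℕ) + 1 := by omega
      simp [raise, this]
  · rw [sum_eq_single (⟨(a : ℕ) - 1, by omega⟩ : Fin (n + 1))]
    · have e : (a : ℕ) = ((a : ℕ) - 1) + 1 := by omega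
      obtain ⟨b, hb⟩ : ∃ b, (a : ℕ) = b + 1 := ⟨_, e⟩
      simp only [raise, hb, Nat.add_sub_cancel, if_true]
      push_cast
      ring_nf
    · intro q _ hq
      have : (a : ℕ) ≠ (q : ℕ) + 1 := fun e => hq (Fin.ext (by simp; omega))
      simp [raise, this]
    · simp

theorem binom_succ_real {n a : ℕ} (h : a ≤ n) :
    (n.choose (a + 1) : ℝ) * ((a : ℝ) + 1) = (n.choose a : ℝ) * ((n : ℝ) - a) := by
  have h2 := congrArg (Nat.cast : ℕ → ℝ) (Nat.choose_succ_right_eq n a)
  push_cast [Nat.cast_sub h] at h2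
  exact h2

theorem sqrt_choose_succ {n a : ℕ} (h : a ≤ n) (X : ℝ) :
    Real.sqrt (((a : ℝ) + 1) * ((n : ℝ) - a)) * Real.sqrt ((n.choose (a + 1) : ℝ) * X)
      = ((n : ℝ) - a) * Real.sqrt ((n.choose a : ℝ) * X) := by
  have h1 : (0 : ℝ) ≤ (n : ℝ) - a := sub_nonneg.mpr (by exact_mod_cast h)
  have e : ((a : ℝ) + 1) * ((n : ℝ) - a) * ((n.choose (a + 1) : ℝ) * X)
      = ((n : ℝ) - a) ^ 2 * ((n.choose a : ℝ) * X) := by
    linear_combination (X * ((n : ℝ) - a)) * binom_succ_real h
  rw [← Real.sqrt_mul (by positivity), e, Real.sqrt_mul (sq_nonneg _), Real.sqrt_sq h1]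

theorem sqrt_choose_pred {n b : ℕ} (h : b ≤ n) (X : ℝ) :
    Real.sqrt (((b : ℝ) + 1) * ((n : ℝ) - b)) * Real.sqrt ((n.choose b : ℝ) * X)
      = ((b : ℝ) + 1) * Real.sqrt ((n.choose (b + 1) : ℝ) * X) := by
  have h1 : (0 : ℝ) ≤ (n : ℝ) - b := sub_nonneg.mpr (by exact_mod_cast h)
  have e : ((b : ℝ) + 1) * ((n : ℝ) - b) * ((n.choose b : ℝ) * X)
      = ((b : ℝ) + 1) ^ 2 * ((n.choose (b + 1) : ℝ) * X) := by
    linear_combination (-(X * ((b : ℝ) + 1))) * binom_succ_real h
  rw [← Real.sqrt_mul (by positivity), e, Real.sqrt_mul (sq_nonneg _),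
    Real.sqrt_sq (by positivity)]

theorem sqrt_div_choose_pred {n b : ℕ} (h : b < n) (X : ℝ) :
    Real.sqrt (((b : ℝ) + 1) * ((n : ℝ) - b)) * Real.sqrt (X / (n.choose b : ℝ))
      = ((n : ℝ) - b) * Real.sqrt (X / (n.choose (b + 1) : ℝ)) := by
  have h1 : (0 : ℝ) ≤ (n : ℝ) - b := sub_nonneg.mpr (by exact_mod_cast h.le)
  have c1 : (n.choose b : ℝ) ≠ 0 := by exact_mod_cast (Nat.choose_pos h.le).ne'
  have c2 : (n.choose (b + 1) : ℝ) ≠ 0 := by exact_mod_cast (Nat.choose_pos h).ne'
  have e : ((b : ℝ) + 1) * ((n : ℝ) - b) * (X / (n.choose b : ℝ))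
      = ((n : ℝ) - b) ^ 2 * (X / (n.choose (b + 1) : ℝ)) := by
    field_simp
    linear_combination (X * ((n : ℝ) - b)) * binom_succ_real h.le
  rw [← Real.sqrt_mul (by positivity), e, Real.sqrt_mul (sq_nonneg _), Real.sqrt_sq h1]

theorem sqrt_div_choose_succ {n b : ℕ} (h : b < n) (X : ℝ) :
    Real.sqrt (((b : ℝ) + 1) * ((n : ℝ) - b)) * Real.sqrt (X / (n.choose (b + 1) : ℝ))
      = ((b : ℝ) + 1) * Real.sqrt (X / (n.choose b : ℝ)) := by
  have h1 : (0 : ℝ) ≤ (n : ℝ) - b := sub_nonneg.mpr (by exact_mod_cast h.le)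
  have c1 : (n.choose b : ℝ) ≠ 0 := by exact_mod_cast (Nat.choose_pos h.le).ne'
  have c2 : (n.choose (b + 1) : ℝ) ≠ 0 := by exact_mod_cast (Nat.choose_pos h).ne'
  have e : ((b : ℝ) + 1) * ((n : ℝ) - b) * (X / (n.choose (b + 1) : ℝ))
      = ((b : ℝ) + 1) ^ 2 * (X / (n.choose b : ℝ)) := by
    field_simp
    linear_combination (-X) * binom_succ_real h.le
  rw [← Real.sqrt_mul (by positivity), e, Real.sqrt_mul (sq_nonneg _),
    Real.sqrt_sq (by positivity)]

/-! ### The splitting map `U_A → U_(A-j) ⊗ U_j` -/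

/-- Matrix entries of the splitting. -/
noncomputable def splitVal (A j a b m : ℕ) : ℝ :=
  if a + b = m then
    Real.sqrt (((A - j).choose a : ℝ) * j.choose b / A.choose m)
  else 0

/-- The splitting as a matrix. -/
noncomputable def splitMat (A j : ℕ) : Matrix (Two (A - j) j) (Fin (A + 1)) ℝ := fun p m =>
  splitVal A j p.1 p.2 m

theorem splitMat_up {A j : ℕ} (hj : j ≤ A) :
    raise2 (A - j) j * splitMat A j = splitMat A j * raise A := by
  ext p m
  obtain ⟨a, b⟩ := p
  have h1 : ∀ q : Fin (A + 1), splitMat A j (a, b) q * raise A q m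
      = raise A q m * (fun x : ℕ => splitVal A j a b x) q := fun q => mul_comm _ _
  simp only [Matrix.mul_apply, Fintype.sum_prod_type, raise2, add_mul, ite_mul, zero_mul,
    sum_add_distrib, h1, raise_sum_snd]
  rw [sum_comm (f := fun x y => if a = x then raise j b y * splitMat A j (x, y) m else 0)]
  simp only [Finset.sum_ite_eq, Finset.mem_univ, if_true, splitMat]
  rw [raise_sum_fst _ a (fun x => splitVal A j x b m),
    raise_sum_fst _ b (fun x => splitVal A j a x m)]
  have ha : (a : ℕ) ≤ A - j := Nat.lt_succ_iff.mp a.isLt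
  have hb : (b : ℕ) ≤ j := Nat.lt_succ_iff.mp b.isLt
  have hm : (m : ℕ) ≤ A := Nat.lt_succ_iff.mp m.isLt
  by_cases h : (a : ℕ) + b + 1 = m
  · have e1 : (a : ℕ) + 1 + b = m := by omega
    have e2 : (a : ℕ) + (b + 1) = m := by omega
    have e3 : (a : ℕ) + b = (m : ℕ) - 1 := by omega
    simp only [splitVal, if_pos e1, if_pos e2, if_pos e3]
    rw [mul_div_assoc, sqrt_choose_succ ha]
    have e4 : (((A - j).choose a : ℝ) * j.choose ((b : ℕ) + 1) / A.choose m)
        = (j.choose ((b : ℕ) + 1) : ℝ) * (((A - j).choose a : ℝ) / A.choose m) := by ring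
    rw [e4, sqrt_choose_succ hb, ← e3]
    have em : ((m : ℕ) : ℝ) = ((a + b : ℕ) : ℝ) + 1 := by exact_mod_cast h.symm
    rw [show ((m : ℕ) : ℝ) * ((A : ℝ) - (m : ℕ) + 1)
        = (((a + b : ℕ) : ℝ) + 1) * ((A : ℝ) - ((a + b : ℕ) : ℝ)) by rw [em]; ring]
    rw [sqrt_div_choose_pred (by omega), h]
    push_cast [Nat.cast_sub hj]
    ring_nf
  · have n1 : ¬ ((a : ℕ) + 1 + b = m) := by omega
    have n2 : ¬ ((a : ℕ) + (b + 1) = m) := by omega
    simp only [splitVal, if_neg n1, if_neg n2, mul_zero, add_zero]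
    by_cases hm0 : (m : ℕ) = 0
    · simp [hm0]
    · have n3 : ¬ ((a : ℕ) + b = (m : ℕ) - 1) := by omega
      simp [n3]

theorem splitMat_down {A j : ℕ} (hj : j ≤ A) :
    (raise2 (A - j) j)ᵀ * splitMat A j = splitMat A j * (raise A)ᵀ := by
  ext p m
  obtain ⟨a, b⟩ := p
  have h1 : ∀ q : Fin (A + 1), splitMat A j (a, b) q * raise A m q
      = raise A m q * (fun x : ℕ => splitVal A j a b x) q := fun q => mul_comm _ _
  simp only [Matrix.mul_apply, Matrix.transpose_apply, Fintype.sum_prod_type, raise2, add_mul,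
    ite_mul, zero_mul, sum_add_distrib, h1, raise_sum_fst]
  rw [sum_comm (f := fun x y => if x = a then raise j y b * splitMat A j (x, y) m else 0)]
  simp only [Finset.sum_ite_eq', Finset.mem_univ, if_true, splitMat]
  rw [raise_sum_snd _ a (fun x => splitVal A j x b m),
    raise_sum_snd _ b (fun x => splitVal A j a x m)]
  have ha : (a : ℕ) ≤ A - j := Nat.lt_succ_iff.mp a.isLt
  have hb : (b : ℕ) ≤ j := Nat.lt_succ_iff.mp b.isLt
  have hm : (m : ℕ) ≤ A := Nat.lt_succ_iff.mp m.isLt
  by_cases h : (a : ℕ) + b = (m : ℕ) + 1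
  · have ea : Real.sqrt ((a : ℝ) * (((A - j : ℕ) : ℝ) - a + 1))
        * splitVal A j ((a : ℕ) - 1) b m
        = (a : ℝ) * Real.sqrt (((A - j).choose a : ℝ) * ((j.choose b : ℝ) / A.choose m)) := by
      by_cases ha0 : (a : ℕ) = 0
      · simp [ha0]
      · obtain ⟨a', ha'⟩ : ∃ a', (a : ℕ) = a' + 1 := ⟨(a : ℕ) - 1, by omega⟩
        have e : a' + (b : ℕ) = m := by omega
        simp only [splitVal, ha', Nat.add_sub_cancel, if_pos e]
        push_cast
        rw [mul_div_assoc, show ((A - j : ℕ) : ℝ) - ((a' : ℝ) + 1) + 1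
          = ((A - j : ℕ) : ℝ) - a' by ring, sqrt_choose_pred (by omega)]
    have eb : Real.sqrt ((b : ℝ) * ((j : ℝ) - b + 1)) * splitVal A j a ((b : ℕ) - 1) m
        = (b : ℝ) * Real.sqrt ((j.choose b : ℝ) * (((A - j).choose a : ℝ) / A.choose m)) := by
      by_cases hb0 : (b : ℕ) = 0
      · simp [hb0]
      · obtain ⟨b', hb'⟩ : ∃ b', (b : ℕ) = b' + 1 := ⟨(b : ℕ) - 1, by omega⟩
        have e : (a : ℕ) + b' = m := by omega
        simp only [splitVal, hb', Nat.add_sub_cancel, if_pos e]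
        push_cast
        rw [show ((A - j).choose a : ℝ) * j.choose b' / A.choose m
            = (j.choose b' : ℝ) * (((A - j).choose a : ℝ) / A.choose m) by ring,
          show (j : ℝ) - ((b' : ℝ) + 1) + 1 = (j : ℝ) - b' by ring,
          sqrt_choose_pred (by omega)]
    rw [ea, eb]
    simp only [splitVal, if_pos h]
    rw [← add_mul, sqrt_div_choose_succ (by omega)]
    have em : ((a : ℕ) : ℝ) + (b : ℕ) = ((m : ℕ) : ℝ) + 1 := by exact_mod_cast h
    rw [← em]
    ring_nf
  · have za : Real.sqrt ((a : ℝ) * (((A - j : ℕ) : ℝ) - a + 1))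
        * splitVal A j ((a : ℕ) - 1) b m = 0 := by
      by_cases ha0 : (a : ℕ) = 0
      · simp [ha0]
      · have : ¬ ((a : ℕ) - 1 + b = m) := by omega
        simp [splitVal, this]
    have zb : Real.sqrt ((b : ℝ) * ((j : ℝ) - b + 1)) * splitVal A j a ((b : ℕ) - 1) m = 0 := by
      by_cases hb0 : (b : ℕ) = 0
      · simp [hb0]
      · have : ¬ ((a : ℕ) + ((b : ℕ) - 1) = m) := by omega
        simp [splitVal, this]
    rw [za, zb]
    simp [splitVal, h]

/-! ### The exchange operator as `Kᵀ σ K` -/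

/-- Index type after splitting both factors. -/
abbrev Four (A B j : ℕ) := Two (A - j) j × Two (B - j) j

/-- Both splittings. -/
noncomputable def splitBoth (A B j : ℕ) : Matrix (Four A B j) (Two A B) ℝ :=
  splitMat A j ⊗ₖ splitMat B j

/-- Exchange of the two small factors. -/
def swapSmall (A B j : ℕ) : Four A B j ≃ Four A B j where
  toFun x := ((x.1.1, x.2.2), (x.2.1, x.1.2))
  invFun x := ((x.1.1, x.2.2), (x.2.1, x.1.2))
  left_inv _ := rfl
  right_inv _ := rfl

/-- `J₊` on the four factors. -/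
noncomputable def raise4 (A B j : ℕ) : Matrix (Four A B j) (Four A B j) ℝ :=
  raise2 (A - j) j ⊗ₖ (1 : Matrix (Two (B - j) j) (Two (B - j) j) ℝ)
    + (1 : Matrix (Two (A - j) j) (Two (A - j) j) ℝ) ⊗ₖ raise2 (B - j) j

theorem raise2_kronecker (A B : ℕ) :
    raise2 A B = raise A ⊗ₖ (1 : Matrix (Fin (B + 1)) (Fin (B + 1)) ℝ)
      + (1 : Matrix (Fin (A + 1)) (Fin (A + 1)) ℝ) ⊗ₖ raise B := by
  ext p q
  simp [raise2, Matrix.one_apply]

theorem raise4_swap (A B j : ℕ) :
    (raise4 A B j).submatrix (swapSmall A B j) (swapSmall A B j) = raise4 A B j := by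
  ext x y
  obtain ⟨⟨u, c⟩, ⟨w, d⟩⟩ := x
  obtain ⟨⟨u', c'⟩, ⟨w', d'⟩⟩ := y
  simp only [raise4, swapSmall, Matrix.submatrix_apply, Equiv.coe_fn_mk, Matrix.add_apply,
    Matrix.kroneckerMap_apply, Matrix.one_apply, raise2, Prod.ext_iff]
  by_cases h1 : u = u' <;> by_cases h2 : c = c' <;> by_cases h3 : w = w' <;>
    by_cases h4 : d = d' <;> simp [h1, h2, h3, h4] <;> ring

theorem splitBoth_up {A B j : ℕ} (hA : j ≤ A) (hB : j ≤ B) :
    raise4 A B j * splitBoth A B j = splitBoth A B j * raise2 A B := by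
  rw [raise4, splitBoth, raise2_kronecker A B, Matrix.add_mul, Matrix.mul_add,
    ← Matrix.mul_kronecker_mul, ← Matrix.mul_kronecker_mul, ← Matrix.mul_kronecker_mul,
    ← Matrix.mul_kronecker_mul, splitMat_up hA, splitMat_up hB, Matrix.one_mul, Matrix.one_mul,
    Matrix.mul_one, Matrix.mul_one]

theorem splitBoth_down {A B j : ℕ} (hA : j ≤ A) (hB : j ≤ B) :
    (raise4 A B j)ᵀ * splitBoth A B j = splitBoth A B j * (raise2 A B)ᵀ := by
  rw [raise4, splitBoth, raise2_kronecker A B]
  simp only [Matrix.transpose_add, ← Matrix.kroneckerMap_transpose, Matrix.transpose_one,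
    Matrix.add_mul, Matrix.mul_add, ← Matrix.mul_kronecker_mul, splitMat_down hA,
    splitMat_down hB, Matrix.one_mul, Matrix.mul_one]

/-- The exchange operator. -/
noncomputable def exchMat (A B j : ℕ) : Matrix (Two A B) (Two A B) ℝ :=
  (splitBoth A B j)ᵀ * (splitBoth A B j).submatrix (swapSmall A B j) id

theorem exchMat_up {A B j : ℕ} (hA : j ≤ A) (hB : j ≤ B) :
    raise2 A B * exchMat A B j = exchMat A B j * raise2 A B := by
  have h1 : raise2 A B * (splitBoth A B j)ᵀ = (splitBoth A B j)ᵀ * raise4 A B j := by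
    have := congrArg Matrix.transpose (splitBoth_down hA hB)
    simpa [Matrix.transpose_mul] using this.symm
  have h2 : raise4 A B j * (splitBoth A B j).submatrix (swapSmall A B j) id
      = (splitBoth A B j).submatrix (swapSmall A B j) id * raise2 A B := by
    conv_lhs => rw [← raise4_swap A B j]
    rw [Matrix.submatrix_mul_equiv, splitBoth_up hA hB]
    rfl
  rw [exchMat, ← Matrix.mul_assoc, h1, Matrix.mul_assoc, h2, ← Matrix.mul_assoc]

theorem exchMat_down {A B j : ℕ} (hA : j ≤ A) (hB : j ≤ B) :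
    (raise2 A B)ᵀ * exchMat A B j = exchMat A B j * (raise2 A B)ᵀ := by
  have h1 : (raise2 A B)ᵀ * (splitBoth A B j)ᵀ
      = (splitBoth A B j)ᵀ * (raise4 A B j)ᵀ := by
    rw [← Matrix.transpose_mul, ← Matrix.transpose_mul, splitBoth_up hA hB]
  have h2 : (raise4 A B j)ᵀ * (splitBoth A B j).submatrix (swapSmall A B j) id
      = (splitBoth A B j).submatrix (swapSmall A B j) id * (raise2 A B)ᵀ := by
    conv_lhs => rw [← raise4_swap A B j, Matrix.transpose_submatrix]
    rw [Matrix.submatrix_mul_equiv, splitBoth_down hA hB]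
    rfl
  rw [exchMat, ← Matrix.mul_assoc, h1, Matrix.mul_assoc, h2, ← Matrix.mul_assoc]

theorem sum_splitMat {A j : ℕ} (c d : Fin (j + 1)) (p q : Fin (A + 1)) :
    ∑ u : Fin (A - j + 1), splitMat A j (u, c) p * splitMat A j (u, d) q
      = if (p : ℕ) + d = (q : ℕ) + c then split A j p c * split A j q d else 0 := by
  by_cases h : (c : ℕ) ≤ p ∧ (p : ℕ) - c ≤ A - j
  · rw [sum_eq_single (⟨(p : ℕ) - c, by omega⟩ : Fin (A - j + 1))]
    · have e1 : (p : ℕ) - c + c = p := by omega
      simp only [splitMat, splitVal, if_pos e1]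
      by_cases h2 : (p : ℕ) + d = (q : ℕ) + c
      · have e2 : (p : ℕ) - c + d = q := by omega
        have e3 : (p : ℕ) - c = (q : ℕ) - d := by omega
        have e4 : (d : ℕ) ≤ q := by omega
        rw [if_pos e2, if_pos h2, split, split, if_pos h.1, if_pos e4, ← e3]
      · have n2 : ¬ ((p : ℕ) - c + d = q) := by omega
        rw [if_neg n2, if_neg h2, mul_zero]
    · intro u _ hu
      have : ¬ ((u : ℕ) + c = p) := fun e => hu (Fin.ext (by simp; omega))
      simp [splitMat, splitVal, this]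
    · simp
  · have hz : split A j p c = 0 := by
      unfold split
      split_ifs with hc
      · rw [Nat.choose_eq_zero_of_lt (show A - j < (p : ℕ) - c by omega)]
        simp
      · rfl
    rw [sum_eq_zero fun u _ => ?_]
    · simp [hz]
    · have : ¬ ((u : ℕ) + c = p) := by omega
      simp [splitMat, splitVal, this]

/-- Gram factors of the partial transpose of the exchange. -/
noncomputable def exchFactor (A B j : ℕ) (uw : Fin (A - j + 1) × Fin (B - j + 1)) :
    Matrix (Fin (A + 1)) (Fin (B + 1)) ℝ := fun a b =>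
  ∑ c : Fin (j + 1), splitMat A j (uw.1, c) a * splitMat B j (uw.2, c) b

theorem exchMat_apply (A B j : ℕ) (p q : Two A B) :
    exchMat A B j p q = ∑ c : Fin (j + 1), ∑ d : Fin (j + 1),
      (∑ u, splitMat A j (u, c) p.1 * splitMat A j (u, d) q.1)
        * (∑ w, splitMat B j (w, d) p.2 * splitMat B j (w, c) q.2) := by
  simp only [exchMat, Matrix.mul_apply, Matrix.transpose_apply, Matrix.submatrix_apply,
    splitBoth, Matrix.kroneckerMap_apply, swapSmall, Equiv.coe_fn_mk, id_eq,
    Fintype.sum_prod_type, Finset.sum_mul_sum]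
  rw [sum_comm]
  refine sum_congr rfl fun c _ => ?_
  rw [sum_comm (γ := Fin (j + 1))]
  refine sum_congr rfl fun u _ => ?_
  rw [sum_comm]
  refine sum_congr rfl fun w _ => sum_congr rfl fun d _ => ?_
  ring

theorem exch_eq_exchMat (A B j : ℕ) : exch A B j = exchMat A B j := by
  ext p q
  rw [exchMat_apply]
  simp only [exch, Finset.sum_range, sum_splitMat]
  refine sum_congr rfl fun c _ => sum_congr rfl fun d _ => ?_
  by_cases h1 : (p.1 : ℕ) + d = q.1 + c <;> by_cases h2 : (p.2 : ℕ) + c = q.2 + d <;>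
    simp [h1, h2] <;> ring

theorem exch_eq_gram (A B j : ℕ) (p q : Two A B) :
    exch A B j p q = ∑ uw, exchFactor A B j uw p.1 q.2 * exchFactor A B j uw q.1 p.2 := by
  rw [exch_eq_exchMat, exchMat_apply]
  simp only [exchFactor, Fintype.sum_prod_type, Finset.sum_mul_sum]
  conv_rhs =>
    enter [2, u]
    rw [Finset.sum_comm]
    enter [2, c]
    rw [Finset.sum_comm]
  conv_rhs => rw [Finset.sum_comm]
  refine sum_congr rfl fun c _ => ?_
  conv_rhs => rw [Finset.sum_comm]
  refine sum_congr rfl fun d _ => sum_congr rfl fun u _ => sum_congr rfl fun w _ => ?_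
  ring

/-! ### C3a -/

theorem exch_transpose (A B j : ℕ) : (exch A B j)ᵀ = exch A B j := by
  ext p q
  simp only [Matrix.transpose_apply, exch]
  rw [sum_comm]
  refine sum_congr rfl fun c _ => sum_congr rfl fun d _ => ?_
  by_cases h : (p.1 : ℕ) + d = q.1 + c ∧ (p.2 : ℕ) + c = q.2 + d
  · rw [if_pos h, if_pos ⟨by omega, by omega⟩]
    ring
  · rw [if_neg h, if_neg (by omega)]

theorem exch_weight {A B j : ℕ} {p q : Two A B} (h : exch A B j p q ≠ 0) :
    wt2 p = wt2 q := by
  obtain ⟨c, -, h⟩ := exists_ne_zero_of_sum_ne_zero h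
  obtain ⟨d, -, h⟩ := exists_ne_zero_of_sum_ne_zero h
  split_ifs at h with hc
  · simp only [wt2]; omega
  · exact absurd rfl h

theorem intertwines_exch {A B j : ℕ} (hA : j ≤ A) (hB : j ≤ B) :
    Intertwines wt2 (raise2 A B) wt2 (raise2 A B) 0 (exch A B j) where
  weight i k h := by simp [exch_weight h]
  up := by rw [exch_eq_exchMat]; exact exchMat_up hA hB
  down := by rw [exch_eq_exchMat]; exact exchMat_down hA hB

theorem majorant_transpose (A B : ℕ) (t : ℝ) : (majorant A B t)ᵀ = majorant A B t := by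
  simp [majorant, Matrix.transpose_sum, exch_transpose]

theorem intertwines_majorant {A B : ℕ} (hBA : B ≤ A) (t : ℝ) :
    Intertwines wt2 (raise2 A B) wt2 (raise2 A B) 0 (majorant A B t) where
  weight i k h := by
    simp only [majorant, Matrix.sum_apply, Matrix.smul_apply, smul_eq_mul] at h
    obtain ⟨j, -, hj⟩ := exists_ne_zero_of_sum_ne_zero h
    simp [exch_weight (right_ne_zero_of_mul hj)]
  up := by
    simp only [majorant, Matrix.mul_sum, Matrix.sum_mul, Matrix.mul_smul, Matrix.smul_mul]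
    refine sum_congr rfl fun j hj => ?_
    have hjB : j ≤ B := Nat.lt_succ_iff.mp (mem_range.mp hj)
    rw [(intertwines_exch (hjB.trans hBA) hjB).up]
  down := by
    simp only [majorant, Matrix.mul_sum, Matrix.sum_mul, Matrix.mul_smul, Matrix.smul_mul]
    refine sum_congr rfl fun j hj => ?_
    have hjB : j ≤ B := Nat.lt_succ_iff.mp (mem_range.mp hj)
    rw [(intertwines_exch (hjB.trans hBA) hjB).down]

/-! ### C3b -/

theorem exch_trace {A B j : ℕ} (hA : j ≤ A) (hB : j ≤ B) (a a' : Fin (A + 1)) :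
    ∑ b, exch A B j (a, b) (a', b)
      = if a = a' then ((B : ℝ) + 1) / ((j : ℝ) + 1) else 0 := by
  simp only [exch]
  rw [sum_comm]
  by_cases h : a = a'
  · subst h
    rw [if_pos rfl]
    have hterm : ∀ c ∈ range (j + 1), (∑ b : Fin (B + 1), ∑ d ∈ range (j + 1),
        if (a : ℕ) + d = a + c ∧ (b : ℕ) + c = b + d then
          split A j a c * split B j b c * (split A j a d * split B j b d) else 0)
        = split A j a c ^ 2 * (((B : ℝ) + 1) / ((j : ℝ) + 1)) := by
      intro c hc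
      rw [← sum_split_sq_left hB (Nat.lt_succ_iff.mp (mem_range.mp hc)), mul_sum,
        Finset.sum_range (fun b => split A j a c ^ 2 * split B j b c ^ 2)]
      refine sum_congr rfl fun b _ => ?_
      rw [sum_eq_single_of_mem c hc fun d _ hd => if_neg (by omega), if_pos ⟨rfl, rfl⟩]
      ring
    rw [sum_congr rfl hterm, ← sum_mul,
      sum_split_sq_right hA (Nat.lt_succ_iff.mp a.isLt), one_mul]
  · rw [if_neg h]
    refine sum_eq_zero fun c _ => sum_eq_zero fun b _ => sum_eq_zero fun d _ => if_neg ?_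
    rintro ⟨h1, h2⟩
    exact h (Fin.ext (by omega))

theorem sum_binomial_trace {t : ℝ} (ht : t ≠ 0) (B : ℕ) :
    ∑ j ∈ range (B + 1), (B.choose j : ℝ) * (1 - t) ^ (B - j) * t ^ j
        * (((B : ℝ) + 1) / ((j : ℝ) + 1))
      = (1 - (1 - t) ^ (B + 1)) / t := by
  rw [eq_div_iff ht, sum_mul]
  have h := add_pow t (1 - t) (B + 1)
  rw [show t + (1 - t) = (1 : ℝ) by ring, one_pow, sum_range_succ'] at h
  simp only [pow_zero, one_mul, Nat.sub_zero, Nat.choose_zero_right, Nat.cast_one, mul_one] at h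
  rw [eq_sub_iff_add_eq]
  refine Eq.trans ?_ h.symm
  congr 1
  refine sum_congr rfl fun j hj => ?_
  have hj1 : ((j : ℝ) + 1) ≠ 0 := by positivity
  have h2 := congrArg (Nat.cast : ℕ → ℝ) (Nat.add_one_mul_choose_eq B j)
  push_cast at h2
  rw [Nat.succ_sub_succ]
  field_simp
  rw [pow_succ]
  linear_combination (t ^ j * t * (1 - t) ^ (B - j)) * h2

theorem pauliBound_majorant {A B : ℕ} (hBA : B ≤ A) {t : ℝ} (ht0 : 0 < t) (ht1 : t ≤ 1) :
    PauliBound (majorant A B t) ((1 - (1 - t) ^ (B + 1)) / t) := by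
  have h1t : 0 ≤ 1 - t := by linarith
  let ι := (j : Fin (B + 1)) × (Fin (A - (j : ℕ) + 1) × Fin (B - (j : ℕ) + 1))
  let e := Fintype.equivFin ι
  let R : ι → Matrix (Fin (A + 1)) (Fin (B + 1)) ℝ := fun i =>
    Real.sqrt ((B.choose (i.1 : ℕ) : ℝ) * (1 - t) ^ (B - (i.1 : ℕ)) * t ^ (i.1 : ℕ))
      • exchFactor A B i.1 i.2
  refine ⟨Fintype.card ι, fun i => R (e.symm i), fun p q => ?_, fun a a' => ?_⟩
  · rw [e.symm.sum_comp (fun i => R i p.1 q.2 * R i q.1 p.2), Fintype.sum_sigma]
    simp only [majorant, Matrix.sum_apply, Matrix.smul_apply, smul_eq_mul, Finset.sum_range,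
      exch_eq_gram, mul_sum]
    refine sum_congr rfl fun j _ => sum_congr rfl fun uw _ => ?_
    simp only [R, Matrix.smul_apply, smul_eq_mul]
    have hsq := Real.mul_self_sqrt
      (show 0 ≤ (B.choose (j : ℕ) : ℝ) * (1 - t) ^ (B - (j : ℕ)) * t ^ (j : ℕ) by positivity)
    linear_combination (-(exchFactor A B j uw p.1 q.2 * exchFactor A B j uw q.1 p.2)) * hsq
  · simp only [majorant, Matrix.sum_apply, Matrix.smul_apply, smul_eq_mul]
    rw [sum_comm]
    simp only [← mul_sum]
    by_cases h : a = a'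
    · rw [if_pos h, ← sum_binomial_trace ht0.ne']
      refine sum_congr rfl fun j hj => ?_
      have hjB : j ≤ B := Nat.lt_succ_iff.mp (mem_range.mp hj)
      rw [exch_trace (hjB.trans hBA) hjB, if_pos h]
    · rw [if_neg h]
      refine sum_eq_zero fun j hj => ?_
      have hjB : j ≤ B := Nat.lt_succ_iff.mp (mem_range.mp hj)
      rw [exch_trace (hjB.trans hBA) hjB, if_neg h, mul_zero]

theorem pauliBound_majorant_le {B : ℕ} {t : ℝ} (ht0 : 0 < t) (ht1 : t ≤ 1) :
    (1 - (1 - t) ^ (B + 1)) / t ≤ 1 / t := by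
  have : 0 ≤ (1 - t) ^ (B + 1) := pow_nonneg (by linarith) _
  gcongr
  linarith

/-! ### C3c -/

/-- `hwVec` on natural indices. -/
noncomputable def hwN (A B n a b : ℕ) : ℝ :=
  if a + b = n then
    (-1 : ℝ) ^ b * n.choose a / Real.sqrt ((A.choose a : ℝ) * B.choose b)
  else 0

theorem hwVec_eq_hwN (A B n : ℕ) (p : Two A B) : hwVec A B n p = hwN A B n p.1 p.2 := rfl

theorem raise2_mulVec_eq {A B : ℕ} (v : Two A B → ℝ) (g : ℕ → ℕ → ℝ)
    (hg : ∀ p : Two A B, v p = g p.1 p.2) (p : Two A B) :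
    (raise2 A B *ᵥ v) p
      = Real.sqrt (((p.1 : ℝ) + 1) * ((A : ℝ) - (p.1 : ℕ))) * g ((p.1 : ℕ) + 1) p.2
        + Real.sqrt (((p.2 : ℝ) + 1) * ((B : ℝ) - (p.2 : ℕ))) * g p.1 ((p.2 : ℕ) + 1) := by
  obtain ⟨a, b⟩ := p
  simp only [Matrix.mulVec, dotProduct, Fintype.sum_prod_type, raise2, add_mul, ite_mul,
    zero_mul, sum_add_distrib, hg]
  rw [sum_comm (f := fun x y => if a = x then raise B b y * g (x : ℕ) (y : ℕ) else 0)]
  simp only [Finset.sum_ite_eq, Finset.mem_univ, if_true]
  rw [raise_sum_fst _ a (fun x => g x b), raise_sum_fst _ b (fun x => g a x)]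
  ring_nf

theorem hwN_rec {A B n a b : ℕ} (hnA : n ≤ A) (hnB : n ≤ B) :
    Real.sqrt (((a : ℝ) + 1) * ((A : ℝ) - a)) * hwN A B n (a + 1) b
      + Real.sqrt (((b : ℝ) + 1) * ((B : ℝ) - b)) * hwN A B n a (b + 1) = 0 := by
  by_cases h : a + b + 1 = n
  · have e1 : a + 1 + b = n := by omega
    have e2 : a + (b + 1) = n := by omega
    simp only [hwN, if_pos e1, if_pos e2]
    have pA0 : (0 : ℝ) < A.choose a := by exact_mod_cast Nat.choose_pos (by omega)
    have pA1 : (0 : ℝ) < A.choose (a + 1) := by exact_mod_cast Nat.choose_pos (by omega)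
    have pB0 : (0 : ℝ) < B.choose b := by exact_mod_cast Nat.choose_pos (by omega)
    have pB1 : (0 : ℝ) < B.choose (b + 1) := by exact_mod_cast Nat.choose_pos (by omega)
    have s1 := sqrt_choose_pred (n := A) (b := a) (by omega) 1
    have s2 := sqrt_choose_pred (n := B) (b := b) (by omega) 1
    simp only [mul_one] at s1 s2
    rw [Real.sqrt_mul pA1.le, Real.sqrt_mul pA0.le]
    have hc := binom_succ_real (n := n) (a := a) (by omega)
    have hb : (n : ℝ) - a = (b : ℝ) + 1 := by
      have : (n : ℝ) = ((a + b + 1 : ℕ) : ℝ) := by rw [h]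
      rw [this]; push_cast; ring
    rw [hb] at hc
    have t1 : Real.sqrt (A.choose a : ℝ) ≠ 0 := (Real.sqrt_pos.mpr pA0).ne'
    have t2 : Real.sqrt (A.choose (a + 1) : ℝ) ≠ 0 := (Real.sqrt_pos.mpr pA1).ne'
    have t3 : Real.sqrt (B.choose b : ℝ) ≠ 0 := (Real.sqrt_pos.mpr pB0).ne'
    have t4 : Real.sqrt (B.choose (b + 1) : ℝ) ≠ 0 := (Real.sqrt_pos.mpr pB1).ne'
    rw [eq_div_iff t1 |>.mpr s1, eq_div_iff t3 |>.mpr s2, pow_succ]
    field_simp
    linear_combination ((-1 : ℝ) ^ b) * hc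
  · have n1 : ¬ (a + 1 + b = n) := by omega
    have n2 : ¬ (a + (b + 1) = n) := by omega
    simp [hwN, n1, n2]

theorem raise2_mulVec_hwVec {A B n : ℕ} (hnA : n ≤ A) (hnB : n ≤ B) :
    raise2 A B *ᵥ hwVec A B n = 0 := by
  funext p
  rw [raise2_mulVec_eq _ _ (hwVec_eq_hwN A B n)]
  exact hwN_rec hnA hnB

/-- Uniqueness of highest-weight vectors of weight `n`. -/
theorem hw2_eq_smul {A B n : ℕ} (hnA : n ≤ A) (hnB : n ≤ B) (v : Two A B → ℝ)
    (hsupp : ∀ p, wt2 p ≠ n → v p = 0) (hv : raise2 A B *ᵥ v = 0) :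
    v = ((-1 : ℝ) ^ n * Real.sqrt (B.choose n : ℝ)
      * v (⟨0, by omega⟩, ⟨n, by omega⟩)) • hwVec A B n := by
  set k : ℝ := (-1 : ℝ) ^ n * Real.sqrt (B.choose n : ℝ)
      * v (⟨0, by omega⟩, ⟨n, by omega⟩) with hk
  let g : ℕ → ℕ → ℝ := fun a b =>
    if h : a < A + 1 ∧ b < B + 1 then v (⟨a, h.1⟩, ⟨b, h.2⟩) else 0
  have hg : ∀ p : Two A B, v p = g p.1 p.2 := fun p => by
    simp only [g]
    rw [dif_pos ⟨p.1.isLt, p.2.isLt⟩]
  have key : ∀ a ≤ n, g a (n - a) = k * hwN A B n a (n - a) := by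
    intro a
    induction a with
    | zero =>
      intro _
      have h0 : Real.sqrt (B.choose n : ℝ) ≠ 0 :=
        (Real.sqrt_pos.mpr (by exact_mod_cast Nat.choose_pos hnB)).ne'
      have hs : ((-1 : ℝ) ^ n) * (-1 : ℝ) ^ n = 1 := by
        rw [← pow_add, ← two_mul, pow_mul]; simp
      simp only [Nat.sub_zero, g, dif_pos (show 0 < A + 1 ∧ n < B + 1 by omega), hwN, zero_add,
        if_true, Nat.choose_zero_right, Nat.cast_one, one_mul, mul_one, hk]
      field_simp
      simp [sq, hs]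
    | succ a ih =>
      intro ha
      have ih' := ih (by omega)
      obtain ⟨b, hb⟩ : ∃ b, n - a = b + 1 := ⟨n - a - 1, by omega⟩
      have hb' : n - (a + 1) = b := by omega
      rw [hb'] at *
      rw [hb] at ih'
      have h1 := congrFun hv (⟨a, by omega⟩, ⟨b, by omega⟩)
      rw [raise2_mulVec_eq v g hg] at h1
      simp only [Pi.zero_apply] at h1
      have h2 := hwN_rec (A := A) (B := B) (n := n) (a := a) (b := b) hnA hnB
      have hpos : 0 < Real.sqrt (((a : ℝ) + 1) * ((A : ℝ) - a)) := by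
        apply Real.sqrt_pos.mpr
        have : (a : ℝ) < A := by exact_mod_cast (show a < A by omega)
        exact mul_pos (by positivity) (by linarith)
      rw [ih'] at h1
      refine mul_left_cancel₀ hpos.ne' ?_
      linear_combination h1 - k * h2
  funext p
  rw [Pi.smul_apply, smul_eq_mul, hwVec_eq_hwN]
  by_cases h : wt2 p = n
  · have e : (p.2 : ℕ) = n - p.1 := by simp only [wt2] at h; omega
    rw [hg, e]
    exact key _ (by simp only [wt2] at h; omega)
  · have : ¬ ((p.1 : ℕ) + p.2 = n) := h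
    simp [hsupp p h, hwN, this]

/-- Eigenvalue of `exch j` on `(Z-z)^n`. -/
noncomputable def exchEig (A B n j : ℕ) : ℝ :=
  ∑ c ∈ range (n + 1), (-1 : ℝ) ^ c * n.choose c * j.choose c * (B - j).choose (n - c)
    / ((A.choose c : ℝ) * B.choose (n - c))

theorem exch_row_zero {A B j n : ℕ} (hjA : j ≤ A) (hnB : n < B + 1) (q : Two A B) :
    exch A B j (⟨0, by omega⟩, ⟨n, hnB⟩) q
      = ∑ d ∈ range (j + 1), if d = (q.1 : ℕ) ∧ n = (q.2 : ℕ) + d then
          split B j q.2 0 * (split A j q.1 d * split B j n d) else 0 := by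
  simp only [exch]
  rw [sum_eq_single 0]
  · refine sum_congr rfl fun d _ => ?_
    have : split A j 0 0 = 1 := by simp [split]
    simp [this]
  · intro c _ hc
    refine sum_eq_zero fun d _ => ?_
    have : split A j 0 c = 0 := by
      simp only [split]; rw [if_neg (by omega)]
    simp [this]
  · simp

theorem exch_mulVec_hwVec {A B n j : ℕ} (hnA : n ≤ A) (hnB : n ≤ B) (hjA : j ≤ A)
    (hjB : j ≤ B) :
    exch A B j *ᵥ hwVec A B n = exchEig A B n j • hwVec A B n := by
  have hT := intertwines_exch hjA hjB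
  have hsupp : ∀ p, wt2 p ≠ n → (exch A B j *ᵥ hwVec A B n) p = 0 := by
    intro p hp
    refine sum_eq_zero fun q _ => ?_
    by_cases he : exch A B j p q = 0
    · simp [he]
    · have := exch_weight he
      have : ¬ ((q.1 : ℕ) + q.2 = n) := fun e => hp (by rw [‹wt2 p = wt2 q›]; exact e)
      simp [hwVec, this]
  have hkill : raise2 A B *ᵥ (exch A B j *ᵥ hwVec A B n) = 0 := by
    rw [Matrix.mulVec_mulVec, hT.up, ← Matrix.mulVec_mulVec, raise2_mulVec_hwVec hnA hnB,
      Matrix.mulVec_zero]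
  rw [hw2_eq_smul hnA hnB _ hsupp hkill]
  congr 1
  simp only [Matrix.mulVec, dotProduct, exch_row_zero hjA (show n < B + 1 by omega), sum_mul]
  rw [sum_comm, mul_sum]
  unfold exchEig
  have hd : ∀ d ∈ range (j + 1), (-1 : ℝ) ^ n * Real.sqrt (B.choose n : ℝ)
      * (∑ q : Two A B, (if d = (q.1 : ℕ) ∧ n = (q.2 : ℕ) + d then
          split B j q.2 0 * (split A j q.1 d * split B j n d) else 0) * hwVec A B n q)
      = (-1 : ℝ) ^ d * n.choose d * j.choose d * (B - j).choose (n - d)
          / ((A.choose d : ℝ) * B.choose (n - d)) := by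
    intro d hd
    have hdj : d ≤ j := Nat.lt_succ_iff.mp (mem_range.mp hd)
    by_cases hdn : d ≤ n
    · rw [sum_eq_single ((⟨d, by omega⟩, ⟨n - d, by omega⟩) : Two A B)]
      · have e1 : d = d ∧ n = n - d + d := ⟨rfl, by omega⟩
        have e2 : d + (n - d) = n := by omega
        dsimp only
        rw [if_pos e1]
        simp only [hwVec, if_pos e2, split, Nat.zero_le, if_true, le_refl,
          Nat.sub_self, Nat.sub_zero, Nat.choose_zero_right, Nat.cast_one, one_mul, mul_one,
          if_pos hdn]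
        have pA : (0 : ℝ) < A.choose d := by exact_mod_cast Nat.choose_pos (by omega)
        have pB : (0 : ℝ) < B.choose n := by exact_mod_cast Nat.choose_pos hnB
        have pB' : (0 : ℝ) < B.choose (n - d) := by exact_mod_cast Nat.choose_pos (by omega)
        rw [Real.sqrt_div (by positivity), Real.sqrt_div (by positivity),
          Real.sqrt_div (by positivity), Real.sqrt_mul (by positivity),
          Real.sqrt_mul (by positivity)]
        have hs : (-1 : ℝ) ^ n * (-1 : ℝ) ^ (n - d) = (-1 : ℝ) ^ d := by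
          conv_lhs => rw [show n = d + (n - d) by omega]
          rw [Nat.add_sub_cancel_left, pow_add, mul_assoc, ← pow_add, ← two_mul, pow_mul]
          simp
        have sA : Real.sqrt (A.choose d : ℝ) ≠ 0 := (Real.sqrt_pos.mpr pA).ne'
        have sB : Real.sqrt (B.choose n : ℝ) ≠ 0 := (Real.sqrt_pos.mpr pB).ne'
        have sB' : Real.sqrt (B.choose (n - d) : ℝ) ≠ 0 := (Real.sqrt_pos.mpr pB').ne'
        rw [← hs]
        field_simp
        simp only [Real.sq_sqrt (Nat.cast_nonneg _)]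
        ring
      · intro q _ hq
        rw [if_neg, zero_mul]
        rintro ⟨h1, h2⟩
        exact hq (Prod.ext (Fin.ext h1.symm) (Fin.ext (by simp; omega)))
      · simp
    · rw [sum_eq_zero fun q _ => by rw [if_neg (by omega), zero_mul]]
      simp [Nat.choose_eq_zero_of_lt (not_le.mp hdn)]
  rw [sum_congr rfl hd]
  have hsub : ∀ m, m ≤ j + n + 1 → ∀ (hz : ∀ d, m ≤ d → n.choose d * j.choose d = 0),
      ∑ d ∈ range m, (-1 : ℝ) ^ d * n.choose d * j.choose d * (B - j).choose (n - d)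
          / ((A.choose d : ℝ) * B.choose (n - d))
      = ∑ d ∈ range (j + n + 1), (-1 : ℝ) ^ d * n.choose d * j.choose d
          * (B - j).choose (n - d) / ((A.choose d : ℝ) * B.choose (n - d)) := by
    intro m hm hz
    refine sum_subset (range_subset_range.mpr hm) fun d _ hd => ?_
    have h0 := hz d (not_lt.mp fun h => hd (mem_range.mpr h))
    have h0' : (n.choose d : ℝ) * j.choose d = 0 := by exact_mod_cast h0
    rw [mul_assoc ((-1 : ℝ) ^ d), h0']
    simp
  rw [hsub (j + 1) (by omega) (fun d hd => by rw [Nat.choose_eq_zero_of_lt (n := j) hd, mul_zero]),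
    hsub (n + 1) (by omega) (fun d hd => by rw [Nat.choose_eq_zero_of_lt (n := n) hd, zero_mul])]

theorem sum_binomial_eig {B n c : ℕ} (hcn : c ≤ n) (hnB : n ≤ B) (t : ℝ) :
    ∑ j ∈ range (B + 1), (B.choose j : ℝ) * (1 - t) ^ (B - j) * t ^ j
        * (j.choose c * (B - j).choose (n - c))
      = (B.choose c : ℝ) * (B - c).choose (n - c) * t ^ c * (1 - t) ^ (n - c) := by
  have hsplit : B + 1 = c + (B - c + 1) := by omega
  rw [hsplit, sum_range_add, sum_eq_zero fun j hj => by
    rw [Nat.choose_eq_zero_of_lt (mem_range.mp hj)]; simp, zero_add]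
  have hB := add_pow t (1 - t) (B - n)
  rw [show t + (1 - t) = (1 : ℝ) by ring, one_pow] at hB
  have hterm : ∀ i ∈ range (B - c + 1), (B.choose (c + i) : ℝ) * (1 - t) ^ (B - (c + i))
        * t ^ (c + i) * ((c + i).choose c * (B - (c + i)).choose (n - c))
      = (B.choose c : ℝ) * (B - c).choose (n - c) * t ^ c * (1 - t) ^ (n - c)
        * (t ^ i * (1 - t) ^ (B - n - i) * (B - n).choose i) := by
    intro i hi
    have h1 := Nat.choose_mul (n := B) (k := c + i) (s := c) (Nat.le_add_right c i)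
    rw [Nat.add_sub_cancel_left] at h1
    have h2 := choose_mul_choose_comm (B - c) i (n - c)
    rw [show B - c - i = B - (c + i) by omega, show B - c - (n - c) = B - n by omega] at h2
    have h3 : (B.choose (c + i) : ℝ) * (c + i).choose c
        = (B.choose c : ℝ) * (B - c).choose i := by exact_mod_cast h1
    have h4 : ((B - c).choose i : ℝ) * (B - (c + i)).choose (n - c)
        = ((B - c).choose (n - c) : ℝ) * (B - n).choose i := by exact_mod_cast h2
    by_cases hi' : i ≤ B - n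
    · rw [show B - (c + i) = (n - c) + (B - n - i) by omega] at h4 ⊢
      rw [pow_add, pow_add]
      linear_combination
        ((1 - t) ^ (n - c) * (1 - t) ^ (B - n - i) * t ^ c * t ^ i
          * ((n - c + (B - n - i)).choose (n - c) : ℝ)) * h3
        + ((1 - t) ^ (n - c) * (1 - t) ^ (B - n - i) * t ^ c * t ^ i * (B.choose c : ℝ)) * h4
    · rw [Nat.choose_eq_zero_of_lt (show B - n < i by omega)]
      by_cases hci : c + i ≤ B
      · rw [Nat.choose_eq_zero_of_lt (show B - (c + i) < n - c by omega)]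
        simp
      · rw [Nat.choose_eq_zero_of_lt (show B < c + i by omega)]
        simp
  rw [sum_congr rfl hterm, ← mul_sum]
  have hshrink : ∑ i ∈ range (B - c + 1), t ^ i * (1 - t) ^ (B - n - i) * ((B - n).choose i : ℝ)
      = ∑ i ∈ range (B - n + 1), t ^ i * (1 - t) ^ (B - n - i) * ((B - n).choose i : ℝ) := by
    refine (sum_subset (range_subset_range.mpr (by omega)) fun i _ hi => ?_).symm
    rw [Nat.choose_eq_zero_of_lt (show B - n < i by
      simp only [mem_range] at hi; omega)]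
    simp
  rw [hshrink, ← hB, mul_one]

/-- C3c: value of the majorant on `(Z-z)^n`. -/
theorem majorant_mulVec_hwVec {A B n : ℕ} (hnB : n ≤ B) (hBA : B ≤ A) (t : ℝ) :
    majorant A B t *ᵥ hwVec A B n = majSum A B n t • hwVec A B n := by
  have h : ∀ j ∈ range (B + 1),
      (((B.choose j : ℝ) * (1 - t) ^ (B - j) * t ^ j) • exch A B j) *ᵥ hwVec A B n
      = ((B.choose j : ℝ) * (1 - t) ^ (B - j) * t ^ j * exchEig A B n j) • hwVec A B n := by
    intro j hj
    have hjB : j ≤ B := Nat.lt_succ_iff.mp (mem_range.mp hj)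
    rw [Matrix.smul_mulVec, exch_mulVec_hwVec (hnB.trans hBA) hnB (hjB.trans hBA) hjB,
      smul_smul]
  rw [majorant, Matrix.sum_mulVec, sum_congr rfl h, ← sum_smul]
  congr 1
  simp only [exchEig, mul_sum]
  rw [sum_comm, majSum]
  refine sum_congr rfl fun c hc => ?_
  have hcn : c ≤ n := Nat.lt_succ_iff.mp (mem_range.mp hc)
  have hs := sum_binomial_eig hcn hnB t
  have hB0 : (B.choose (n - c) : ℝ) ≠ 0 := by
    exact_mod_cast (Nat.choose_pos (show n - c ≤ B by omega)).ne'
  have hcomm := choose_mul_choose_comm B c (n - c)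
  rw [show B - (n - c) = B - n + c by omega] at hcomm
  have hcomm' : (B.choose c : ℝ) * (B - c).choose (n - c)
      = (B.choose (n - c) : ℝ) * (B - n + c).choose c := by exact_mod_cast hcomm
  calc _ = ((-1 : ℝ) ^ c * n.choose c / ((A.choose c : ℝ) * B.choose (n - c)))
        * ∑ j ∈ range (B + 1), (B.choose j : ℝ) * (1 - t) ^ (B - j) * t ^ j
          * (j.choose c * (B - j).choose (n - c)) := by
        rw [mul_sum]; exact sum_congr rfl fun j _ => by ring
    _ = _ := by
        rw [hs, hcomm']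
        field_simp

theorem quad_majorant_hwVec {A B n : ℕ} (hnB : n ≤ B) (hBA : B ≤ A) (t : ℝ) :
    quad (majorant A B t) (hwVec A B n) = majSum A B n t * nsq (hwVec A B n) := by
  rw [quad, majorant_mulVec_hwVec hnB hBA, dotProduct_smul, nsq, smul_eq_mul]

/-- C3e: the majorant is bounded below on all vectors of weight at most `L`. -/
theorem majorant_lower {A B L : ℕ} (hBA : B ≤ A) {t : ℝ} (ht0 : 0 ≤ t) (ht : t ≤ 1 / 5)
    (v : Two A B → ℝ) (hv : ∀ p, L < wt2 p → v p = 0) :
    (1 / 2) * (1 - 2 * t) ^ L * nsq v ≤ quad (majorant A B t) v := by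
  set c : ℝ := (1 / 2) * (1 - 2 * t) ^ L with hc
  have hq : ∀ u : Two A B → ℝ,
      quad (majorant A B t - c • 1) u = quad (majorant A B t) u - c * nsq u := fun u => by
    simp [quad, nsq, Matrix.sub_mulVec, Matrix.smul_mulVec, dotProduct_sub]
  have hT := intertwines_majorant (A := A) hBA t
  have key := criterion (w := (wt2 : Two A B → ℕ)) (J := raise2 A B)
    (K := majorant A B t - c • 1) raise2_weight
    (fun i j h => by
      by_cases hij : i = j
      · rw [hij]
      · have h' : majorant A B t i j ≠ 0 := by simpa [Matrix.one_apply_ne hij] using h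
        have := hT.weight i j h'
        omega)
    (by simp [majorant_transpose])
    (by rw [Matrix.mul_sub, Matrix.sub_mul, hT.up]; simp)
    (L := L) (fun m hm u hu hJ => ?_) v hv
  · rw [hq] at key
    linarith
  · rw [hq]
    by_cases hmB : m ≤ B
    · rw [hw2_eq_smul (hmB.trans hBA) hmB u hu hJ]
      set k := (-1 : ℝ) ^ m * Real.sqrt (B.choose m : ℝ)
        * u (⟨0, by omega⟩, ⟨m, by omega⟩)
      have e1 : quad (majorant A B t) (k • hwVec A B m)
          = k ^ 2 * majSum A B m t * nsq (hwVec A B m) := by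
        simp only [quad, Matrix.mulVec_smul, majorant_mulVec_hwVec hmB hBA, dotProduct_smul,
          smul_dotProduct, smul_eq_mul, nsq]
        ring
      have e2 : nsq (k • hwVec A B m) = k ^ 2 * nsq (hwVec A B m) := by
        simp only [nsq, dotProduct_smul, smul_dotProduct, smul_eq_mul]
        ring
      have hcm : c ≤ majSum A B m t := by
        refine le_trans ?_ (majSum_lower hmB hBA ht0 ht)
        rw [hc]
        exact mul_le_mul_of_nonneg_left
          (pow_le_pow_of_le_one (by linarith) (by linarith) hm) (by norm_num)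
      rw [e1, e2, show k ^ 2 * majSum A B m t * nsq (hwVec A B m)
          - c * (k ^ 2 * nsq (hwVec A B m))
        = (majSum A B m t - c) * (k ^ 2 * nsq (hwVec A B m)) by ring]
      exact mul_nonneg (sub_nonneg.mpr hcm) (mul_nonneg (sq_nonneg _) (nsq_nonneg _))
    · rw [hw_eq_zero (by omega) hu hJ]
      simp [quad, nsq]

end P359
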