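import Vale.Agent.P359.Planar
import Vale.Agent.P359.OverlapHW

/-!
P359: planar limits of norms and overlaps of the three-particle channel vectors.
-/

namespace P359

open Finset Matrix Filter Topology
open scoped BigOperators

/-- Planar value of `Q^L ‖tri3 n (L-n)‖²`. -/
def pTriNorm (n L : ℕ) : ℚ := pNorm 2 n * pNorm 3 (L - n)

/-- Planar value of `Q^L ⟨tri3 n (L-n), tri4 q (L-q)⟩`. -/
def pTriDot (n q L : ℕ) : ℚ := (-1) ^ (L - q) * pNorm 3 (L - q) * pOv n q L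

theorem pTriNorm_pos (n L : ℕ) : 0 < pTriNorm n L := by
  unfold pTriNorm pNorm
  positivity

theorem eventually_le_of_tendsto_div {A : ℕ → ℕ} {α : ℝ}
    (hA : Tendsto (fun Q => (A Q : ℝ) / Q) atTop (𝓝 α)) (hα : 0 < α) (n : ℕ) :
    ∀ᶠ Q in atTop, n ≤ A Q := by
  filter_upwards [(hA.pos_mul_atTop hα tendsto_natCast_atTop_atTop).eventually_ge_atTop (n : ℝ),
    eventually_gt_atTop 0] with Q h hQ
  have hq : (Q : ℝ) ≠ 0 := (Nat.cast_pos.2 hQ : (0 : ℝ) < Q).ne'
  rw [div_mul_cancel₀ _ hq] at h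
  exact_mod_cast h

/-- The entry of the pull back, for all `n, q ≤ L`. -/
theorem pull4_tri3_entry' {A B n q L : ℕ} (hqA : q ≤ A) (hqB : q ≤ B) (hn : n ≤ L) (hq : q ≤ L)
    (hB' : L - q ≤ B) (hr : L - n ≤ A + B - 2 * n) :
    pull4 A B q (tri3 A B n (L - n)) (0, ⟨L - q, by omega⟩)
      = ovSum A B n q L / Real.sqrt (B.choose (L - q)) := by
  unfold pull4
  let f : ℕ → ℕ → ℝ := fun a e => (-1 : ℝ) ^ e * q.choose a /
      Real.sqrt ((A.choose a : ℝ) * B.choose e) *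
    ((-1 : ℝ) ^ e * (L - n).choose (a + (L - q) - n) * chanCoef A B n a (L - q) (a + (L - q) - n)
        / (Real.sqrt ((A.choose a : ℝ) * B.choose (L - q)) * Real.sqrt (B.choose e)))
  have e1 : ∀ (a : Fin (A + 1)) (e : Fin (B + 1)),
      chan A B (A + B - 2 * q) q (a, e) 0 * tri3 A B n (L - n) (a, ⟨L - q, by omega⟩, e)
        = if (a : ℕ) + e = q then f a e else 0 := by
    intro a e
    rw [chan_zero_col]
    by_cases h : (a : ℕ) + e = q
    · rw [if_pos h]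
      by_cases hna : n ≤ (a : ℕ) + (L - q)
      · rw [tri3_apply hr _ _ _ (by simp only; omega) (by simp only; omega)]
        simp only [hwVec, h, if_true, f]
      · have z1 : chanCoef A B n a (L - q) ((a : ℕ) + (L - q) - n) = 0 :=
          chanCoef_eq_zero (by omega)
        have z2 : tri3 A B n (L - n) (a, ⟨L - q, by omega⟩, e) = 0 :=
          sum_eq_zero fun m _ => by
            simp [chan, chanCoef_eq_zero (show (a : ℕ) + (L - q) ≠ (m : ℕ) + n by omega)]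
        simp only [z2, f, z1, mul_zero, zero_div]
    · simp [hwVec, h]
  simp only [e1]
  rw [← Fintype.sum_prod_type' (fun (a : Fin (A + 1)) (e : Fin (B + 1)) =>
    if (a : ℕ) + e = q then f a e else 0), sum_two_line hqA hqB f, ovSum, sum_div]
  refine sum_congr rfl fun a ha => ?_
  simp only [f]
  rw [Real.sqrt_mul (by positivity), Real.sqrt_mul (by positivity)]
  have h2 : Real.sqrt (A.choose a : ℝ) ^ 2 = A.choose a := Real.sq_sqrt (by positivity)
  have h3 : Real.sqrt (B.choose (q - a) : ℝ) ^ 2 = B.choose (q - a) := Real.sq_sqrt (by positivity)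
  have h4 : ((-1 : ℝ) ^ (q - a)) ^ 2 = 1 := by rw [← pow_mul, pow_mul', neg_one_sq, one_pow]
  rw [mem_range] at ha
  have q1 : (0 : ℝ) < Real.sqrt (A.choose a) :=
    Real.sqrt_pos.2 (by exact_mod_cast Nat.choose_pos (by omega))
  have q2 : (0 : ℝ) < Real.sqrt (B.choose (q - a)) :=
    Real.sqrt_pos.2 (by exact_mod_cast Nat.choose_pos (by omega))
  have q3 : (0 : ℝ) < Real.sqrt (B.choose (L - q)) :=
    Real.sqrt_pos.2 (by exact_mod_cast Nat.choose_pos hB')
  field_simp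
  rw [h2, h3, h4]
  have r1 : (A.choose a : ℝ) ≠ 0 := by exact_mod_cast (Nat.choose_pos (by omega)).ne'
  have r2 : (B.choose (q - a) : ℝ) ≠ 0 := by exact_mod_cast (Nat.choose_pos (by omega)).ne'
  field_simp

/-- Exact overlap for all `n, q ≤ L`. -/
theorem overlap_eq' {A B n q L : ℕ} (hnA : n ≤ A) (hqA : q ≤ A) (hnB : n ≤ B) (hqB : q ≤ B)
    (hnL : n ≤ L) (hqL : q ≤ L) (hn : L - n ≤ B) (hq : L - q ≤ B)
    (hr : L - n ≤ A + B - 2 * n) :
    tri3 A B n (L - n) ⬝ᵥ tri4 A B q (L - q) =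
      (-1 : ℝ) ^ (L - q) * nsq (hwVec (A + B - 2 * q) B (L - q)) * ovSum A B n q L := by
  obtain ⟨c, hc⟩ := pull4_tri3_hw (A := A) (B := B) (n := n) (q := q) (r := L - n) (r' := L - q)
    hnA hnB hqA hqB hr hn (by omega)
  have he := pull4_tri3_entry' hqA hqB hnL hqL hq hr
  rw [hc] at he
  have hv : hwVec (A + B - 2 * q) B (L - q) (0, ⟨L - q, by omega⟩) =
      (-1) ^ (L - q) / Real.sqrt (B.choose (L - q)) := by
    simp [hwVec]
  rw [Pi.smul_apply, smul_eq_mul, hv] at he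
  have hp : (0 : ℝ) < Real.sqrt (B.choose (L - q)) :=
    Real.sqrt_pos.2 (by exact_mod_cast Nat.choose_pos hq)
  have hs : ((-1 : ℝ) ^ (L - q)) * (-1) ^ (L - q) = 1 := by
    rw [← pow_add, Even.neg_one_pow ⟨_, rfl⟩]
  have hc' : c = (-1) ^ (L - q) * ovSum A B n q L := by
    field_simp at he
    linear_combination ((-1 : ℝ) ^ (L - q)) * he - c * hs
  rw [tri3_dot_tri4, hc]
  simp only [nsq, dotProduct, Pi.smul_apply, smul_eq_mul, mul_sum, sum_mul]
  refine sum_congr rfl fun p _ => ?_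
  rw [hc']
  ring

theorem tendsto_div_deg {A B : ℕ → ℕ} (hA : Tendsto (fun Q => (A Q : ℝ) / Q) atTop (𝓝 2))
    (hB : Tendsto (fun Q => (B Q : ℝ) / Q) atTop (𝓝 1)) (n : ℕ) :
    Tendsto (fun Q => ((A Q + B Q - 2 * n : ℕ) : ℝ) / Q) atTop (𝓝 ((3 : ℚ) : ℝ)) := by
  have h := tendsto_sub_const_div (2 * n) (tendsto_add_div hA hB)
  norm_num
  norm_num at h
  exact h

theorem tendsto_nsq_tri3 {A B : ℕ → ℕ} (hA : Tendsto (fun Q => (A Q : ℝ) / Q) atTop (𝓝 2))
    (hB : Tendsto (fun Q => (B Q : ℝ) / Q) atTop (𝓝 1)) {n L : ℕ} (hn : n ≤ L) :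
    Tendsto (fun Q : ℕ => (Q : ℝ) ^ L * nsq (tri3 (A Q) (B Q) n (L - n))) atTop
      (𝓝 (pTriNorm n L : ℝ)) := by
  have hA' : Tendsto (fun Q => (A Q : ℝ) / Q) atTop (𝓝 ((2 : ℚ) : ℝ)) := by simpa using hA
  have h := (tendsto_nsq_hwVec (by norm_num) hA' hB n).mul
    (tendsto_nsq_hwVec (α := 3) (by norm_num) (tendsto_div_deg hA hB n) hB (L - n))
  rw [← Rat.cast_mul] at h
  refine h.congr' ?_
  filter_upwards [eventually_le_of_tendsto_div hA two_pos n,
    eventually_le_of_tendsto_div hB one_pos n] with Q h1 h2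
  rw [nsq_tri3_eq h1 h2]
  conv_rhs => rw [show L = n + (L - n) by omega, pow_add, ← show L = n + (L - n) by omega]
  ring

theorem tendsto_overlap {A B : ℕ → ℕ} (hA : Tendsto (fun Q => (A Q : ℝ) / Q) atTop (𝓝 2))
    (hB : Tendsto (fun Q => (B Q : ℝ) / Q) atTop (𝓝 1)) {n q L : ℕ} (hn : n ≤ L) (hq : q ≤ L) :
    Tendsto (fun Q : ℕ => (Q : ℝ) ^ L * (tri3 (A Q) (B Q) n (L - n) ⬝ᵥ tri4 (A Q) (B Q) q (L - q)))
      atTop (𝓝 (pTriDot n q L : ℝ)) := by
  have h := ((tendsto_nsq_hwVec (α := 3) (by norm_num) (tendsto_div_deg hA hB q) hB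
    (L - q)).const_mul ((-1 : ℝ) ^ (L - q))).mul (tendsto_ovSum hA hB n q L)
  rw [show (-1 : ℝ) ^ (L - q) * (pNorm 3 (L - q) : ℝ) * (pOv n q L : ℝ) = (pTriDot n q L : ℝ) by
    unfold pTriDot; push_cast; ring] at h
  refine h.congr' ?_
  filter_upwards [eventually_le_of_tendsto_div hA two_pos L,
    eventually_le_of_tendsto_div hB one_pos L] with Q h1 h2
  rw [overlap_eq' (by omega) (by omega) (by omega) (by omega) hn hq (by omega) (by omega)
    (by omega)]
  conv_rhs => rw [show L = (L - q) + q by omega, pow_add, ← show L = (L - q) + q by omega]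
  ring

theorem tendsto_two_mul_add_sub (c d : ℕ) :
    Tendsto (fun Q : ℕ => ((2 * Q + c - d : ℕ) : ℝ) / Q) atTop (𝓝 2) := by
  refine tendsto_sub_const_div (f := fun Q => 2 * Q + c) d ?_
  have h := (tendsto_const_nhds (x := (2 : ℝ)) (f := atTop (α := ℕ))).add
    (tendsto_const_div_atTop_nhds_zero_nat (c : ℝ))
  rw [add_zero] at h
  refine h.congr' ?_
  filter_upwards [eventually_gt_atTop 0] with Q hQ
  have hq : (Q : ℝ) ≠ 0 := (Nat.cast_pos.2 hQ : (0 : ℝ) < Q).ne'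
  push_cast
  field_simp

theorem tendsto_self_div : Tendsto (fun Q : ℕ => (Q : ℝ) / Q) atTop (𝓝 1) := by
  refine tendsto_const_nhds.congr' ?_
  filter_upwards [eventually_gt_atTop 0] with Q hQ
  rw [div_self (Nat.cast_pos.2 hQ : (0 : ℝ) < Q).ne']

end P359
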