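import Vale.Agent.P359.Basic

/-!
P359, piece A: tools for sums over configurations and antisymmetric tensors.
-/

namespace P359

open Matrix
open scoped BigOperators

variable {Q N : ℕ}

/-- Update of two coordinates. -/
abbrev upd2 (x : Config Q N) (i : Fin N) (a : Fin (Q + 1)) (j : Fin N) (b : Fin (Q + 1)) :
    Config Q N :=
  Function.update (Function.update x i a) j b

/-- `P^{(1)}_{ij}` as an operator on tensors. -/
noncomputable def pairOp (i j : Fin N) (ψ : Config Q N → ℝ) : Config Q N → ℝ := fun x =>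
  ∑ a : Fin (Q + 1), ∑ b : Fin (Q + 1), P1 Q (x i) (x j) a b * ψ (upd2 x i a j b)

lemma HR_apply (ψ : Config Q N → ℝ) (x : Config Q N) :
    HR Q N ψ x = ∑ i, ∑ j, if i < j then pairOp i j ψ x else 0 := by
  simp only [HR, pairOp, upd2, Finset.sum_filter]

lemma sum_config_comp {A : Type*} [AddCommMonoid A] (σ : Equiv.Perm (Fin N))
    (F : Config Q N → A) : ∑ x, F (x ∘ σ) = ∑ x, F x :=
  Equiv.sum_comp (Equiv.arrowCongr σ.symm (Equiv.refl (Fin (Q + 1)))) F

lemma sum_cons {A : Type*} [AddCommMonoid A] {n : ℕ} (F : Config Q (n + 1) → A) :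
    ∑ z, F z = ∑ a : Fin (Q + 1), ∑ x : Config Q n, F (Fin.cons a x) := by
  rw [← (Fin.consEquiv fun _ : Fin (n + 1) => Fin (Q + 1)).sum_comp, Fintype.sum_prod_type]
  rfl

/-- Exchange of one coordinate with an extra variable. -/
lemma sum_exchange {A : Type*} [AddCommMonoid A] (k : Fin N)
    (F : Config Q N → Fin (Q + 1) → A) :
    ∑ x, ∑ c, F (Function.update x k c) (x k) = ∑ x, ∑ c, F x c := by
  let e : Config Q N × Fin (Q + 1) ≃ Config Q N × Fin (Q + 1) :=
    { toFun := fun p => (Function.update p.1 k p.2, p.1 k)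
      invFun := fun p => (Function.update p.1 k p.2, p.1 k)
      left_inv := fun p => by simp
      right_inv := fun p => by simp }
  have := e.sum_comp (fun p => F p.1 p.2)
  simpa [Fintype.sum_prod_type, e] using this

lemma sign_mul_self (σ : Equiv.Perm (Fin N)) :
    ((σ.sign : ℤ) : ℝ) * ((σ.sign : ℤ) : ℝ) = 1 := by
  rcases Int.units_eq_one_or σ.sign with h | h <;> simp [h]

lemma anti_swap {ψ : Config Q N → ℝ} (hψ : IsAnti ψ) {i j : Fin N} (h : i ≠ j)
    (x : Config Q N) : ψ (x ∘ Equiv.swap i j) = -ψ x := by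
  rw [hψ, Equiv.Perm.sign_swap h]
  simp

lemma P1_swap (a b c d : ℕ) : P1 Q b a d c = P1 Q a b c d := by
  have hg : ∀ u v : ℕ, g1 Q v u = -g1 Q u v := fun u v => by
    simp only [g1]
    rw [mul_comm (Q.choose v : ℝ)]
    ring
  simp only [P1, hg a b, hg c d, neg_mul_neg, add_comm b a, add_comm d c]

lemma pairOp_comm {i j : Fin N} (h : i ≠ j) (ψ : Config Q N → ℝ) (x : Config Q N) :
    pairOp j i ψ x = pairOp i j ψ x := by
  unfold pairOp
  rw [Finset.sum_comm]
  refine Finset.sum_congr rfl fun a _ => Finset.sum_congr rfl fun b _ => ?_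
  rw [P1_swap, upd2, upd2, Function.update_comm h]

lemma pairOp_comp {ψ : Config Q N → ℝ} (hψ : IsAnti ψ) (σ : Equiv.Perm (Fin N)) (i j : Fin N)
    (x : Config Q N) :
    pairOp i j ψ (x ∘ σ) = ((σ.sign : ℤ) : ℝ) * pairOp (σ i) (σ j) ψ x := by
  simp only [pairOp, Finset.mul_sum]
  refine Finset.sum_congr rfl fun a _ => Finset.sum_congr rfl fun b _ => ?_
  have e : upd2 (x ∘ σ) i a j b = upd2 x (σ i) a (σ j) b ∘ σ := by
    simp only [upd2, Function.update_comp_eq_of_injective _ σ.injective]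
  rw [e, hψ σ]
  simp only [Function.comp_apply]
  ring

lemma HR_eq_half (ψ : Config Q N → ℝ) (x : Config Q N) :
    2 * HR Q N ψ x = ∑ i, ∑ j, if i ≠ j then pairOp i j ψ x else 0 := by
  rw [HR_apply, two_mul]
  conv_lhs => arg 2; rw [Finset.sum_comm]
  rw [← Finset.sum_add_distrib]
  refine Finset.sum_congr rfl fun i _ => ?_
  rw [← Finset.sum_add_distrib]
  refine Finset.sum_congr rfl fun j _ => ?_
  rcases lt_trichotomy i j with h | h | h
  · simp [h, h.ne, h.asymm]
  · simp [h]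
  · simp [h, h.ne', h.asymm, pairOp_comm h.ne ψ x]

lemma HR_anti {ψ : Config Q N → ℝ} (hψ : IsAnti ψ) : IsAnti (HR Q N ψ) := by
  intro σ x
  have key : 2 * HR Q N ψ (x ∘ σ) = 2 * (((σ.sign : ℤ) : ℝ) * HR Q N ψ x) := by
    rw [HR_eq_half, mul_left_comm, HR_eq_half, Finset.mul_sum]
    simp only [Finset.mul_sum, pairOp_comp hψ σ]
    rw [← Equiv.sum_comp σ fun i => ∑ j, ((σ.sign : ℤ) : ℝ) *
      (if i ≠ j then pairOp i j ψ x else 0)]
    refine Finset.sum_congr rfl fun i _ => ?_
    rw [← Equiv.sum_comp σ fun j => ((σ.sign : ℤ) : ℝ) *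
      (if σ i ≠ j then pairOp (σ i) j ψ x else 0)]
    refine Finset.sum_congr rfl fun j _ => ?_
    simp [mul_ite]
  linarith

lemma exists_perm_pair {n : ℕ} {i j : Fin (n + 2)} (h : i ≠ j) :
    ∃ σ : Equiv.Perm (Fin (n + 2)), σ 0 = i ∧ σ 1 = j := by
  refine ⟨Equiv.swap 0 i * Equiv.swap 1 (Equiv.swap 0 i j), ?_, ?_⟩
  · have h0 : Equiv.swap 0 i j ≠ 0 := by
      intro e
      have := congrArg (Equiv.swap 0 i) e
      simp at this
      exact h this.symm
    rw [Equiv.Perm.mul_apply, Equiv.swap_apply_of_ne_of_ne Fin.zero_ne_one h0.symm,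
      Equiv.swap_apply_left]
  · rw [Equiv.Perm.mul_apply, Equiv.swap_apply_left, Equiv.swap_apply_self]

lemma sum_lt_one : ∀ n : ℕ, (∑ i : Fin n, ∑ j : Fin n, if i < j then (1 : ℝ) else 0) =
    n.choose 2
  | 0 => by simp
  | n + 1 => by
    rw [Fin.sum_univ_succ]
    simp only [Fin.sum_univ_succ (n := n), lt_irrefl, if_false, Fin.succ_pos, if_true,
      Fin.not_lt_zero, Fin.succ_lt_succ_iff, zero_add, Finset.sum_const, Finset.card_univ,
      Fintype.card_fin, nsmul_eq_mul, mul_one]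
    rw [sum_lt_one n, Nat.choose_succ_succ' n 1, Nat.choose_one_right]
    push_cast
    ring

/-- For antisymmetric tensors all pairs contribute equally. -/
lemma sum_HR_eq {M : ℕ} {η ψ : Config Q (M + 2) → ℝ} (hη : IsAnti η) (hψ : IsAnti ψ) :
    ∑ x, η x * HR Q (M + 2) ψ x =
      ((M + 2).choose 2 : ℝ) * ∑ x, η x * pairOp 0 1 ψ x := by
  have hp : ∀ i j : Fin (M + 2), i ≠ j →
      ∑ x, η x * pairOp i j ψ x = ∑ x, η x * pairOp 0 1 ψ x := by
    intro i j h
    obtain ⟨σ, rfl, rfl⟩ := exists_perm_pair h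
    rw [← sum_config_comp σ fun x => η x * pairOp 0 1 ψ x]
    refine Finset.sum_congr rfl fun x _ => ?_
    rw [pairOp_comp hψ, hη σ x]
    linear_combination -(η x * pairOp (σ 0) (σ 1) ψ x) * sign_mul_self σ
  calc ∑ x, η x * HR Q (M + 2) ψ x
      = ∑ i, ∑ j, ∑ x, η x * (if i < j then pairOp i j ψ x else 0) := by
        simp only [HR_apply, Finset.mul_sum]
        rw [Finset.sum_comm]
        exact Finset.sum_congr rfl fun i _ => Finset.sum_comm
    _ = ∑ i, ∑ j : Fin (M + 2),
          (if i < j then (1 : ℝ) else 0) * ∑ x, η x * pairOp 0 1 ψ x := by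
        refine Finset.sum_congr rfl fun i _ => Finset.sum_congr rfl fun j _ => ?_
        by_cases h : i < j
        · simp only [if_pos h, one_mul]
          exact hp i j h.ne
        · simp [h]
    _ = _ := by simp only [← Finset.sum_mul, sum_lt_one]

lemma offdiag_sum {n : ℕ} (f : Fin n → Fin n → ℝ) (hf : ∀ k l, k ≠ l → f l k = f k l) :
    (∑ k, ∑ l ∈ Finset.univ.filter (fun l => l ≠ k), f k l) =
      2 * ∑ k, ∑ l, if k < l then f k l else 0 := by
  rw [two_mul]
  conv_rhs => arg 2; rw [Finset.sum_comm]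
  rw [← Finset.sum_add_distrib]
  refine Finset.sum_congr rfl fun k _ => ?_
  rw [← Finset.sum_add_distrib, Finset.sum_filter]
  refine Finset.sum_congr rfl fun l _ => ?_
  rcases lt_trichotomy k l with h | h | h
  · simp [h, h.ne', h.asymm]
  · simp [h]
  · simp [h, h.ne, h.asymm, hf l k h.ne]

end P359
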