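import Vale.Agent.P359.Basic

/-!
P359, piece C4: closed forms and explicit bounds for the scalar quantities.
-/

namespace P359

open Finset Matrix
open scoped BigOperators

theorem sum_choose_mul_choose (p r : ℕ) : ∀ n : ℕ,
    ∑ c ∈ range (n + 1), (p + c).choose c * (r + (n - c)).choose (n - c)
      = (p + r + n + 1).choose n := by
  induction p with
  | zero =>
    intro n
    induction n with
    | zero => simp
    | succ n ih =>
      rw [sum_range_succ']
      simp only [zero_add, Nat.choose_self, one_mul, Nat.sub_zero, Nat.succ_sub_succ] at ih ⊢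
      rw [ih, show r + (n + 1) + 1 = (r + n + 1) + 1 by omega, Nat.choose_succ_succ']
      rfl
  | succ p ihp =>
    intro n
    induction n with
    | zero => simp
    | succ n ihn =>
      have h1 : ∀ c, (p + 1 + (c + 1)).choose (c + 1)
          = (p + (c + 1)).choose (c + 1) + (p + 1 + c).choose c := fun c => by
        rw [show p + 1 + (c + 1) = (p + 1 + c) + 1 by omega, Nat.choose_succ_succ',
          show p + 1 + c = p + (c + 1) by omega, add_comm]
      rw [sum_range_succ']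
      simp only [h1, add_mul, sum_add_distrib, Nat.succ_sub_succ, Nat.choose_zero_right,
        one_mul, Nat.sub_zero]
      have h2 := ihp (n + 1)
      rw [sum_range_succ'] at h2
      simp only [Nat.succ_sub_succ, Nat.choose_zero_right, one_mul, Nat.sub_zero] at h2
      rw [ihn, show p + 1 + r + (n + 1) + 1 = (p + 1 + r + n + 1) + 1 by omega,
        Nat.choose_succ_succ', show p + 1 + r + n + 1 = p + r + (n+1) + 1 by omega, ← h2]
      ring

/-- A sum over a weight line of a pair space. -/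
theorem sum_two_line {A B n : ℕ} (hA : n ≤ A) (hB : n ≤ B) (f : ℕ → ℕ → ℝ) :
    ∑ p : Two A B, (if (p.1 : ℕ) + p.2 = n then f p.1 p.2 else 0)
      = ∑ c ∈ range (n + 1), f c (n - c) := by
  rw [Fintype.sum_prod_type]
  rw [Fin.sum_univ_eq_sum_range (fun a => ∑ b : Fin (B + 1),
    if a + (b : ℕ) = n then f a b else 0) (A + 1)]
  rw [← sum_subset (range_subset_range.2 (by omega : n + 1 ≤ A + 1))]
  · refine sum_congr rfl fun c hc => ?_
    rw [mem_range] at hc
    rw [sum_eq_single (⟨n - c, by omega⟩ : Fin (B + 1))]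
    · rw [if_pos (by simp only; omega)]
    · intro b _ hb
      rw [if_neg]
      intro h
      exact hb (Fin.ext (by simp only; omega))
    · simp
  · intro c _ hc
    rw [mem_range] at hc
    exact sum_eq_zero fun b _ => if_neg (by omega)

theorem choose_div_choose {A n c : ℕ} (hA : n ≤ A) (hc : c ≤ n) :
    (n.choose c : ℝ) / A.choose c = (A - c).choose (n - c) / A.choose n := by
  have h := Nat.choose_mul (n := A) hc
  rw [div_eq_div_iff (by exact_mod_cast (Nat.choose_pos (by omega)).ne')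
    (by exact_mod_cast (Nat.choose_pos hA).ne')]
  exact_mod_cast (by rw [mul_comm, h, mul_comm] : n.choose c * A.choose n
    = (A - c).choose (n - c) * A.choose c)

/-- `|(Z-z)^n|^2`. -/
theorem nsq_hwVec {A B n : ℕ} (hA : n ≤ A) (hB : n ≤ B) :
    nsq (hwVec A B n) = ((A + B - n + 1).choose n : ℝ) / (A.choose n * B.choose n) := by
  have e : ∀ p : Two A B, hwVec A B n p * hwVec A B n p = if (p.1 : ℕ) + p.2 = n then
      ((n.choose (p.1 : ℕ) : ℝ) / A.choose (p.1 : ℕ)) * (n.choose (p.1 : ℕ) / B.choose (p.2 : ℕ))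
      else 0 := by
    intro p
    unfold hwVec
    split_ifs
    · rw [div_mul_div_comm, Real.mul_self_sqrt (by positivity), div_mul_div_comm]
      congr 1
      rw [mul_mul_mul_comm, ← pow_add, Even.neg_one_pow ⟨_, rfl⟩, one_mul]
    · simp
  unfold nsq dotProduct
  rw [sum_congr rfl fun p _ => e p,
    sum_two_line hA hB (fun a b => ((n.choose a : ℝ) / A.choose a) * (n.choose a / B.choose b))]
  have hs := sum_choose_mul_choose (B - n) (A - n) n
  rw [show B - n + (A - n) + n + 1 = A + B - n + 1 by omega] at hs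
  rw [← hs, Nat.cast_sum, sum_div]
  refine sum_congr rfl fun c hc => ?_
  rw [mem_range] at hc
  have hc : c ≤ n := by omega
  rw [choose_div_choose hA hc]
  have h2 := choose_div_choose hB (Nat.sub_le n c)
  rw [Nat.choose_symm hc] at h2
  rw [h2, show A - n + (n - c) = A - c by omega, show n - (n - c) = c by omega,
    show B - (n - c) = B - n + c by omega, div_mul_div_comm, Nat.cast_mul]
  ring

/-- `-2` times the eigenvalue of `swapK Q` on channel `n`. -/
noncomputable def chanEig (Q n : ℕ) : ℝ :=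
  (-1) ^ n * Q.choose n *
    (((n : ℝ) - 1) / (2 * Q - 2).choose n + (n : ℝ) ^ 2 / (Q * (2 * Q - 2).choose (n - 1)))

theorem swapK_hwVec_entry {Q n : ℕ} (hQ : 2 ≤ Q) (hn : n ≤ Q) :
    (swapK Q *ᵥ hwVec (2 * Q - 2) Q n) (0, ⟨n, by omega⟩) =
      -(chanEig Q n / 2) * hwVec (2 * Q - 2) Q n (0, ⟨n, by omega⟩) := by
  set A := 2 * Q - 2 with hA
  have hQ0 : (0 : ℝ) < Q := by exact_mod_cast (by omega : 0 < Q)
  -- reduce to the two pairs of weight one
  let W : ℕ → ℕ → ℝ := fun a q2 => g1 Q a q2 / Real.sqrt ((2 * Q : ℝ) * A.choose 0) *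
    ∑ q1 : Fin (A + 1), (if a + n = (q1 : ℕ) + 1 then
        g1 Q a n / Real.sqrt ((2 * Q : ℝ) * A.choose (q1 : ℕ)) else 0) *
      (if (q1 : ℕ) + q2 = n then (-1 : ℝ) ^ q2 * n.choose (q1 : ℕ)
        / Real.sqrt ((A.choose (q1 : ℕ) : ℝ) * Q.choose q2) else 0)
  have h1 : (swapK Q *ᵥ hwVec A Q n) (0, ⟨n, by omega⟩) =
      ∑ p : Two Q Q, (if (p.1 : ℕ) + p.2 = 1 then W p.1 p.2 else 0) := by
    simp only [mulVec, dotProduct, swapK, pairIso, hwVec, sum_mul, W]
    rw [sum_comm, Fintype.sum_prod_type]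
    refine sum_congr rfl fun a _ => ?_
    rw [Fintype.sum_prod_type, sum_comm]
    refine sum_congr rfl fun b _ => ?_
    simp only [Fin.val_zero, zero_add]
    split_ifs with h
    · rw [mul_sum]
      refine sum_congr rfl fun c _ => ?_
      ring
    · simp
  rw [h1, sum_two_line (by omega) (by omega) W, sum_range_succ, sum_range_one]
  have e1 : W 1 0 = (1 - (n : ℝ)) * Real.sqrt (Q.choose n) / (2 * A.choose n) := by
    simp only [W]
    rw [sum_eq_single (⟨n, by omega⟩ : Fin (A + 1))]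
    · simp only [add_zero, if_pos (add_comm 1 n), if_pos, pow_zero, one_mul, Nat.choose_self,
        Nat.cast_one, g1, Nat.choose_one_right, Nat.choose_zero_right, mul_one, Nat.cast_zero,
        sub_zero]
      rw [Real.sqrt_mul hQ0.le, Real.sqrt_mul (by positivity : (0 : ℝ) ≤ 2 * Q)]
      have h2 : Real.sqrt (2 * (Q : ℝ)) * Real.sqrt (2 * Q) = 2 * Q :=
        Real.mul_self_sqrt (by positivity)
      have h3 : Real.sqrt (Q : ℝ) * Real.sqrt Q = Q := Real.mul_self_sqrt hQ0.le
      have h4 : Real.sqrt (A.choose n : ℝ) * Real.sqrt (A.choose n) = A.choose n :=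
        Real.mul_self_sqrt (by positivity)
      have h5 : (0 : ℝ) < A.choose n := by exact_mod_cast Nat.choose_pos (by omega)
      field_simp
      rw [show Real.sqrt (2 * (Q : ℝ)) ^ 2 = 2 * Q by rw [sq, h2],
        show Real.sqrt (A.choose n : ℝ) ^ 2 = A.choose n by rw [sq, h4],
        show Real.sqrt (Q : ℝ) ^ 2 = Q by rw [sq, h3]]
      ring
    · intro c _ hc
      rw [if_neg fun h => hc (Fin.ext (by simp only; omega)), zero_mul]
    · simp
  have e2 : W 0 1 = -((n : ℝ) ^ 2 * Real.sqrt (Q.choose n) / (2 * Q * A.choose (n - 1))) := by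
    rcases Nat.eq_zero_or_pos n with hn0 | hn0
    · subst hn0
      simp only [W]
      rw [sum_eq_zero fun c _ => by rw [if_neg (by omega), zero_mul]]
      simp
    simp only [W]
    rw [sum_eq_single (⟨n - 1, by omega⟩ : Fin (A + 1))]
    · rw [if_pos (by simp only; omega), if_pos (by simp only; omega)]
      simp only [pow_one, g1, Nat.choose_one_right, Nat.choose_zero_right, mul_one, one_mul,
        Nat.cast_zero, Nat.cast_one, zero_sub]
      rw [Nat.choose_symm (by omega : 1 ≤ n), Nat.choose_one_right]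
      rw [Real.sqrt_mul (by positivity : (0 : ℝ) ≤ (A.choose (n - 1) : ℝ)),
        Real.sqrt_mul (by positivity : (0 : ℝ) ≤ 2 * Q)]
      have h2 : Real.sqrt (2 * (Q : ℝ)) * Real.sqrt (2 * Q) = 2 * Q :=
        Real.mul_self_sqrt (by positivity)
      have h4 : Real.sqrt (A.choose (n - 1) : ℝ) * Real.sqrt (A.choose (n - 1)) = A.choose (n - 1) :=
        Real.mul_self_sqrt (by positivity)
      have h5 : (0 : ℝ) < A.choose (n - 1) := by exact_mod_cast Nat.choose_pos (by omega)
      have h6 : (0 : ℝ) < Real.sqrt Q := Real.sqrt_pos.2 hQ0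
      field_simp
      rw [show Real.sqrt (2 * (Q : ℝ)) ^ 2 = 2 * Q by rw [sq, h2],
        show Real.sqrt (A.choose (n - 1) : ℝ) ^ 2 = A.choose (n - 1) by rw [sq, h4]]
    · intro c _ hc
      rw [if_neg fun h => hc (Fin.ext (by simp only; omega)), zero_mul]
    · simp
  rw [show (1 : ℕ) - 0 = 1 from rfl, show (1 : ℕ) - 1 = 0 from rfl, e1, e2]
  have h7 : hwVec A Q n (0, ⟨n, by omega⟩) = (-1) ^ n / Real.sqrt (Q.choose n) := by
    simp [hwVec]
  rw [h7, chanEig, ← hA]
  have h8 : Real.sqrt (Q.choose n : ℝ) ^ 2 = Q.choose n := Real.sq_sqrt (by positivity)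
  have h9 : (0 : ℝ) < Real.sqrt (Q.choose n) :=
    Real.sqrt_pos.2 (by exact_mod_cast Nat.choose_pos hn)
  have h10 : ((-1 : ℝ) ^ n) * (-1) ^ n = 1 := by rw [← pow_add, Even.neg_one_pow ⟨n, rfl⟩]
  field_simp
  ring_nf
  rw [h8, pow_mul, show ((-1 : ℝ) ^ n) ^ 2 = 1 by rw [sq, h10]]
  ring

theorem choose_succ_real (m n : ℕ) :
    (m.choose (n + 1) : ℝ) * (n + 1) = m.choose n * ((m : ℝ) - n) := by
  rcases le_or_gt n m with h | h
  · rw [← Nat.cast_sub h]
    exact_mod_cast Nat.choose_succ_right_eq m n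
  · simp [Nat.choose_eq_zero_of_lt h, Nat.choose_eq_zero_of_lt (h.trans (Nat.lt_succ_self n))]

theorem choose_le_geom {Q : ℕ} (hQ : 51 ≤ Q) : ∀ n, n ≤ Q →
    (Q.choose n : ℝ) ≤ (51 / 100 : ℝ) ^ n * (2 * Q - 2).choose n := by
  intro n
  induction n with
  | zero => simp
  | succ n ih =>
    intro hn
    have h0 := ih (by omega)
    have hc : (((2 * Q - 2 : ℕ)) : ℝ) = 2 * Q - 2 := by
      push_cast [Nat.cast_sub (by omega : 2 ≤ 2 * Q)]
      ring
    have h1 := choose_succ_real Q n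
    have h2 := choose_succ_real (2 * Q - 2) n
    rw [hc] at h2
    have hQr : (51 : ℝ) ≤ Q := by exact_mod_cast hQ
    have hnr : (n : ℝ) + 1 ≤ Q := by exact_mod_cast hn
    have h3 : (Q : ℝ) - n ≤ 51 / 100 * (2 * Q - 2 - n) := by
      have : (0 : ℝ) ≤ n := n.cast_nonneg
      linarith
    have h4 : (Q.choose n : ℝ) * (Q - n) ≤
        (51 / 100 : ℝ) ^ n * (2 * Q - 2).choose n * (51 / 100 * (2 * Q - 2 - n)) :=
      mul_le_mul h0 h3 (by linarith) (by positivity)
    have h5 : (0 : ℝ) < n + 1 := by positivity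
    refine le_of_mul_le_mul_right ?_ h5
    calc (Q.choose (n + 1) : ℝ) * (n + 1) ≤ _ := h1.trans_le h4
      _ = (51 / 100 : ℝ) ^ n * (51 / 100) * ((2 * Q - 2).choose n * (2 * Q - 2 - n)) := by ring
      _ = _ := by rw [← h2, pow_succ]; ring

/-- Simpler form of the eigenvalue for `1 ≤ n ≤ Q`. -/
theorem chanEig_eq {Q n : ℕ} (hQ : 2 ≤ Q) (hn : n ≤ Q) (h1 : 1 ≤ n) :
    chanEig Q n = (-1) ^ n * ((Q.choose n : ℝ) / (2 * Q - 2).choose n) *
      ((n : ℝ) - 1 + n * (((2 * Q - 2 : ℕ) : ℝ) - n + 1) / Q) := by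
  set A := 2 * Q - 2 with hA
  have hnA : n ≤ A := by omega
  obtain ⟨m, rfl⟩ : ∃ m, n = m + 1 := ⟨n - 1, by omega⟩
  have h := choose_succ_real A m
  have p1 : (0 : ℝ) < A.choose m := by exact_mod_cast Nat.choose_pos (by omega)
  have p2 : (0 : ℝ) < A.choose (m + 1) := by exact_mod_cast Nat.choose_pos hnA
  have p3 : (0 : ℝ) < Q := by exact_mod_cast (by omega : 0 < Q)
  rw [chanEig, ← hA, Nat.add_sub_cancel]
  push_cast
  have : ((m : ℝ) + 1) ^ 2 / (Q * A.choose m)
      = (((m : ℝ) + 1) * ((A : ℝ) - m)) / (Q * A.choose (m + 1)) := by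
    rw [div_eq_div_iff (by positivity) (by positivity)]
    linear_combination ((Q : ℝ) * (m + 1)) * h
  rw [this]
  field_simp
  ring

theorem abs_chanEig_le {Q n : ℕ} (hQ : 51 ≤ Q) (hn : n ≤ Q) (h1 : 1 ≤ n) :
    |chanEig Q n| ≤ 3 * n * (51 / 100 : ℝ) ^ n := by
  rw [chanEig_eq (by omega) hn h1]
  have hq := choose_le_geom hQ n hn
  have p2 : (0 : ℝ) < (2 * Q - 2).choose n := by exact_mod_cast Nat.choose_pos (by omega)
  have hr : (Q.choose n : ℝ) / (2 * Q - 2).choose n ≤ (51 / 100 : ℝ) ^ n :=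
    (div_le_iff₀ p2).2 hq
  have hc : (((2 * Q - 2 : ℕ)) : ℝ) = 2 * Q - 2 := by
    push_cast [Nat.cast_sub (by omega : 2 ≤ 2 * Q)]
    ring
  have p3 : (0 : ℝ) < Q := by exact_mod_cast (by omega : 0 < Q)
  have hn1 : (1 : ℝ) ≤ n := by exact_mod_cast h1
  have hnQ : (n : ℝ) ≤ Q := by exact_mod_cast hn
  have hQr : (51 : ℝ) ≤ Q := by exact_mod_cast hQ
  have hb0 : 0 ≤ (n : ℝ) * ((2 * Q - 2 : ℝ) - n + 1) / Q :=
    div_nonneg (mul_nonneg (by linarith) (by linarith)) p3.le
  have hb : (n : ℝ) * ((2 * Q - 2 : ℝ) - n + 1) / Q ≤ 2 * n := by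
    rw [div_le_iff₀ p3]
    nlinarith
  rw [hc, abs_mul, abs_mul, abs_pow, abs_neg, abs_one, one_pow, one_mul,
    abs_of_nonneg (by positivity : (0 : ℝ) ≤ (Q.choose n : ℝ) / (2 * Q - 2).choose n),
    abs_of_nonneg (by linarith : (0 : ℝ) ≤ (n : ℝ) - 1 + n * ((2 * Q - 2 : ℝ) - n + 1) / Q)]
  calc _ ≤ (51 / 100 : ℝ) ^ n * (3 * n) :=
        mul_le_mul hr (by linarith) (by linarith) (by positivity)
    _ = _ := by ring

/-- `(x - c)/x → 1` along the naturals. -/
theorem tendsto_affine_div (b c d : ℝ) (hd : d ≠ 0) (e : ℝ) :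
    Filter.Tendsto (fun Q : ℕ => (b * Q + c) / (d * Q + e)) Filter.atTop (nhds (b / d)) := by
  have h : ∀ k : ℝ, Filter.Tendsto (fun Q : ℕ => k / (Q : ℝ)) Filter.atTop (nhds 0) := fun k =>
    tendsto_const_div_atTop_nhds_zero_nat k
  have := ((h c).const_add b).div ((h e).const_add d) (by simpa using hd)
  simp only [add_zero] at this
  refine this.congr' ?_
  filter_upwards [Filter.eventually_gt_atTop 0] with Q hQ
  have : (Q : ℝ) ≠ 0 := by exact_mod_cast hQ.ne'
  simp only [Pi.div_apply]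
  rw [show b + c / (Q : ℝ) = (b * Q + c) / Q by field_simp,
    show d + e / (Q : ℝ) = (d * Q + e) / Q by field_simp, div_div_div_cancel_right₀ this]

theorem tendsto_choose_ratio (n : ℕ) :
    Filter.Tendsto (fun Q : ℕ => (Q.choose n : ℝ) / (2 * Q - 2).choose n) Filter.atTop
      (nhds ((1 / 2 : ℝ) ^ n)) := by
  induction n with
  | zero => simp
  | succ n ih =>
    rw [pow_succ]
    have h := ih.mul (tendsto_affine_div 1 (-(n : ℝ)) 2 (by norm_num) (-2 - n))
    refine h.congr' ?_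
    filter_upwards [Filter.eventually_ge_atTop (n + 2)] with Q hQ
    have hc : (((2 * Q - 2 : ℕ)) : ℝ) = 2 * Q - 2 := by
      push_cast [Nat.cast_sub (by omega : 2 ≤ 2 * Q)]
      ring
    have h1 := choose_succ_real Q n
    have h2 := choose_succ_real (2 * Q - 2) n
    rw [hc] at h2
    have p1 : (0 : ℝ) < (2 * Q - 2).choose n := by exact_mod_cast Nat.choose_pos (by omega)
    have p2 : (0 : ℝ) < (2 * Q - 2).choose (n + 1) := by exact_mod_cast Nat.choose_pos (by omega)
    have p3 : (n : ℝ) + 2 ≤ Q := by exact_mod_cast hQ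
    have p5 : (0 : ℝ) < 2 * (Q : ℝ) + (-2 - n) := by
      have : (0 : ℝ) ≤ n := n.cast_nonneg
      linarith
    rw [div_mul_div_comm, div_eq_div_iff (by positivity) (by positivity)]
    have h5 : (0 : ℝ) < n + 1 := by positivity
    refine mul_right_cancel₀ h5.ne' ?_
    linear_combination ((Q.choose n : ℝ) * (Q - n)) * h2
      - ((2 * Q - 2).choose n : ℝ) * (2 * Q - 2 - n) * h1

theorem tendsto_chanEig (n : ℕ) :
    Filter.Tendsto (fun Q : ℕ => chanEig Q n) Filter.atTop
      (nhds ((3 * n - 1) * (-1 / 2 : ℝ) ^ n)) := by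
  rcases Nat.eq_zero_or_pos n with rfl | hn
  · simp [chanEig]
  have h := ((tendsto_choose_ratio n).const_mul ((-1 : ℝ) ^ n)).mul
    ((tendsto_affine_div (2 * (n : ℝ)) ((n : ℝ) * (-1 - n)) 1 one_ne_zero 0).const_add ((n : ℝ) - 1))
  rw [show (-1 : ℝ) ^ n * (1 / 2) ^ n * ((n : ℝ) - 1 + 2 * n / 1)
      = (3 * n - 1) * (-1 / 2 : ℝ) ^ n by rw [← mul_pow]; ring] at h
  refine h.congr' ?_
  filter_upwards [Filter.eventually_ge_atTop n, Filter.eventually_ge_atTop 2] with Q h1 h2
  rw [chanEig_eq h2 h1 hn]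
  have hc : (((2 * Q - 2 : ℕ)) : ℝ) = 2 * Q - 2 := by
    push_cast [Nat.cast_sub (by omega : 2 ≤ 2 * Q)]
    ring
  rw [hc]
  ring

end P359
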