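import Vale.Agent.P359.HighestWeight
import Vale.Agent.P359.Scalars

/-!
C4a: the exchange kernel acts on the highest weight vector of channel `n` by `-chanEig/2`.
-/

namespace P359

open Matrix

/-- C4a eigen-equation. -/
theorem swapK_hwVec {Q n : ℕ} (hQ : 2 ≤ Q) (hn : n ≤ Q) :
    swapK Q *ᵥ hwVec (2 * Q - 2) Q n = (-(chanEig Q n / 2)) • hwVec (2 * Q - 2) Q n := by
  have hi := swapK_intertwines (show 1 ≤ Q by omega)
  have hs : Supp wt2 n (swapK Q *ᵥ hwVec (2 * Q - 2) Q n) :=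
    hi.supp (by ring) (hwVec_supp _ _ _)
  have hk : raise2 (2 * Q - 2) Q *ᵥ (swapK Q *ᵥ hwVec (2 * Q - 2) Q n) = 0 :=
    hi.mulVec_ker (hwVec_ker (by omega) hn)
  have h := hw_unique hs hk
  rw [h]
  congr 1
  have e1 : hwVec (2 * Q - 2) Q n (0, ⟨n, by omega⟩) ≠ 0 := by
    rw [hwVec_zero_entry hn]
    have := sqrt_choose_pos hn
    exact div_ne_zero (pow_ne_zero _ (by norm_num)) this.ne'
  have e2 := swapK_hwVec_entry hQ hn
  have e3 := congrFun h (0, ⟨n, by omega⟩)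
  rw [e2, Pi.smul_apply, smul_eq_mul] at e3
  exact (mul_right_cancel₀ e1 e3).symm

/-- The quadratic form of the exchange kernel on channel `n`. -/
theorem quad_swapK_hwVec {Q n : ℕ} (hQ : 2 ≤ Q) (hn : n ≤ Q) :
    quad (swapK Q) (hwVec (2 * Q - 2) Q n) = -(chanEig Q n / 2) * nsq (hwVec (2 * Q - 2) Q n) := by
  rw [quad, swapK_hwVec hQ hn, dotProduct_smul, smul_eq_mul, nsq]

end P359
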