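import Vale.Agent.P359.ChannelAct
import Vale.Agent.P359.OverlapHW

/-!
P359, assembly piece: cross forms of channel maps are bounded by
the overlaps of their images.
-/

namespace P359

open Matrix Finset
open scoped BigOperators Kronecker

variable {A A' B M : ℕ}

/-- A channel component of too high a degree vanishes. -/
theorem tri3_dot_eq_zero {D n L : ℕ} (hD : D + 2 * n = A + B) (hA : n ≤ A) (hB : n ≤ B)
    (hr : B < L - n) {F : Three A B → ℝ} (hF : Supp wt3 L F) (hJ : raise3 A B *ᵥ F = 0) :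
    tri3 A B n (L - n) ⬝ᵥ F = 0 := by
  have hT := (lift3_intertwines hD hA hB).transpose
  have hu := hT.mulVec_ker hJ
  have hs := hT.supp (m := L) (m' := L - n) (by omega) hF
  rw [tri3_eq_lift (D := D) (by omega)]
  have e : (lift3 (chan A B D n) *ᵥ hwVec D B (L - n)) ⬝ᵥ F =
      hwVec D B (L - n) ⬝ᵥ ((lift3 (chan A B D n))ᵀ *ᵥ F) := by
    rw [dotProduct_mulVec, vecMul_transpose]
  rw [e, hw_eq_zero hr hs hu, dotProduct_zero]

theorem dotProduct_sq_le {ι : Type*} [Fintype ι] (u v : ι → ℝ) :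
    (u ⬝ᵥ v) ^ 2 ≤ nsq u * nsq v := by
  simpa [nsq, dotProduct, sq] using Finset.sum_mul_sq_le_sq_mul_sq Finset.univ u v

/-- The coefficient of a channel component, weighted by the length of its image, is at most
the coefficient of the map times the length of the vector. -/
theorem chan_coord_bound {n n' D r : ℕ} (hD : D + 2 * n = A + B) (hD' : D + 2 * n' = A' + B)
    (hA : n ≤ A) (hB : n ≤ B) (hA' : n' ≤ A') (hB' : n' ≤ B) (hr : r ≤ B) {g w : ℝ}
    (hw : 0 ≤ w) (hb : g ^ 2 * (nsq (hwVec A B n) * nsq (hwVec A' B n')) ≤ w ^ 2)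
    (F : Three A B → ℝ) :
    |g * (tri3 A B n r ⬝ᵥ F / nsq (hwVec D B r))| * Real.sqrt (nsq (tri3 A' B n' r))
      ≤ w * Real.sqrt (nsq F) := by
  have eD : A + B - 2 * n = D := by omega
  have eD' : A' + B - 2 * n' = D := by omega
  rw [nsq_tri3_eq hA' hB', eD']
  have hpos : 0 < nsq (hwVec D B r) := nsq_hwVec_pos hr
  have hcs : (tri3 A B n r ⬝ᵥ F) ^ 2 ≤ nsq (hwVec A B n) * nsq (hwVec D B r) * nsq F := by
    have := dotProduct_sq_le (tri3 A B n r) F
    rwa [nsq_tri3_eq hA hB, eD] at this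
  set P := nsq (hwVec A B n)
  set P' := nsq (hwVec A' B n')
  set R := nsq (hwVec D B r)
  have hP' : 0 ≤ P' := nsq_nonneg _
  have key : (|g * (tri3 A B n r ⬝ᵥ F / R)| * Real.sqrt (P' * R)) ^ 2 ≤
      (w * Real.sqrt (nsq F)) ^ 2 := by
    rw [mul_pow, sq_abs, Real.sq_sqrt (mul_nonneg hP' hpos.le), mul_pow w,
      Real.sq_sqrt (nsq_nonneg F)]
    calc (g * (tri3 A B n r ⬝ᵥ F / R)) ^ 2 * (P' * R)
        = g ^ 2 * P' * ((tri3 A B n r ⬝ᵥ F) ^ 2 / R) := by field_simp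
      _ ≤ g ^ 2 * P' * (P * nsq F) := by
          refine mul_le_mul_of_nonneg_left ?_ (mul_nonneg (sq_nonneg g) hP')
          rw [div_le_iff₀ hpos]
          linarith
      _ = g ^ 2 * (P * P') * nsq F := by ring
      _ ≤ _ := mul_le_mul_of_nonneg_right hb (nsq_nonneg F)
  exact (abs_le_of_sq_le_sq' key (mul_nonneg hw (Real.sqrt_nonneg _))).2

/-- Cross form of channel maps on a highest weight vector, bounded by the overlaps of the
images. -/
theorem quad_cross_abs_le {L : ℕ} {ι : Type*} (s : Finset ι) (n n' D : ι → ℕ) (g w : ι → ℝ)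
    (b : ι → ι → ℝ) (hD : ∀ i ∈ s, D i + 2 * n i = A + B) (hD' : ∀ i ∈ s, D i + 2 * n' i = A' + B)
    (hA : ∀ i ∈ s, n i ≤ A) (hB : ∀ i ∈ s, n i ≤ B) (hA' : ∀ i ∈ s, n' i ≤ A')
    (hB' : ∀ i ∈ s, n' i ≤ B) (hnL : ∀ i ∈ s, n i ≤ L)
    (G : Matrix (Two A' B) (Two A B) ℝ)
    (hG : G = ∑ i ∈ s, g i • (chan A' B (D i) (n' i) * (chan A B (D i) (n i))ᵀ))
    (hw : ∀ i ∈ s, 0 ≤ w i)
    (hb : ∀ i ∈ s, g i ^ 2 * (nsq (hwVec A B (n i)) * nsq (hwVec A' B (n' i))) ≤ w i ^ 2)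
    (hb0 : ∀ i ∈ s, ∀ j ∈ s, 0 ≤ b i j)
    (hov : ∀ i ∈ s, ∀ j ∈ s, L - n i ≤ B → L - n j ≤ B →
      |tri3 A' B (n' i) (L - n i) ⬝ᵥ tri4 A' B (n' j) (L - n j)| ≤
        b i j * (Real.sqrt (nsq (tri3 A' B (n' i) (L - n i)))
          * Real.sqrt (nsq (tri3 A' B (n' j) (L - n j)))))
    {F : Three A B → ℝ} (hF : Supp wt3 L F)
    (hJ : raise3 A B *ᵥ F = 0) (hanti : ∀ a b e, F (a, b, e) = -F (a, e, b)) :
    |quad ((act3 G)ᵀ * act4 G) F| ≤ (∑ i ∈ s, ∑ j ∈ s, w i * w j * b i j) * nsq F := by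
  rw [quad_cross_chan s n n' D g hD hD' hA hB G hG hF hJ hanti,
    Finset.filter_true_of_mem hnL, abs_neg, Finset.sum_mul]
  refine (Finset.abs_sum_le_sum_abs _ _).trans (Finset.sum_le_sum fun i hi => ?_)
  rw [Finset.sum_mul]
  refine (Finset.abs_sum_le_sum_abs _ _).trans (Finset.sum_le_sum fun j hj => ?_)
  have hrhs : 0 ≤ w i * w j * b i j * nsq F :=
    mul_nonneg (mul_nonneg (mul_nonneg (hw i hi) (hw j hj)) (hb0 i hi j hj)) (nsq_nonneg F)
  rcases le_or_gt (L - n i) B with hri | hri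
  swap
  · rw [tri3_dot_eq_zero (hD i hi) (hA i hi) (hB i hi) hri hF hJ]
    simpa using hrhs
  rcases le_or_gt (L - n j) B with hrj | hrj
  swap
  · rw [tri3_dot_eq_zero (hD j hj) (hA j hj) (hB j hj) hrj hF hJ]
    simpa using hrhs
  have bi := chan_coord_bound (hD i hi) (hD' i hi) (hA i hi) (hB i hi) (hA' i hi) (hB' i hi) hri
    (hw i hi) (hb i hi) F
  have bj := chan_coord_bound (hD j hj) (hD' j hj) (hA j hj) (hB j hj) (hA' j hj) (hB' j hj) hrj
    (hw j hj) (hb j hj) F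
  rw [abs_mul, abs_mul (g i * _)]
  refine (mul_le_mul_of_nonneg_left (hov i hi j hj hri hrj) (by positivity)).trans ?_
  have := mul_le_mul_of_nonneg_left (mul_le_mul bi bj (by positivity)
    (mul_nonneg (hw i hi) (Real.sqrt_nonneg _))) (hb0 i hi j hj)
  calc _ = b i j * (|g i * (tri3 A B (n i) (L - n i) ⬝ᵥ F / nsq (hwVec (D i) B (L - n i)))|
        * Real.sqrt (nsq (tri3 A' B (n' i) (L - n i)))
        * (|g j * (tri3 A B (n j) (L - n j) ⬝ᵥ F / nsq (hwVec (D j) B (L - n j)))|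
          * Real.sqrt (nsq (tri3 A' B (n' j) (L - n j))))) := by ring
    _ ≤ _ := this
    _ = _ := by
        linear_combination (w i * w j * b i j) * Real.mul_self_sqrt (nsq_nonneg F)

/-- `ovBound` for either order of the channels. -/
noncomputable def ovSym (n q L : ℕ) : ℝ := ovBound (min n q) (max n q) L

/-- The overlap bound in the form used by `quad_cross_abs_le`. -/
theorem overlap_abs_le {n q L : ℕ} (hB : 10000 ≤ B) (hA1 : 2 * B ≤ A + 10) (hA2 : A ≤ 2 * B + 4)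
    (hn : n ≤ 30) (hq : q ≤ 30) (hL : n + q ≤ L) (hL0 : 0 < L) (hrn : L - n ≤ B)
    (hrq : L - q ≤ B) :
    |tri3 A B n (L - n) ⬝ᵥ tri4 A B q (L - q)| ≤
      Real.sqrt (ovSym n q L) * (Real.sqrt (nsq (tri3 A B n (L - n)))
        * Real.sqrt (nsq (tri3 A B q (L - q)))) := by
  have h0 : 0 ≤ ovSym n q L := ovBound_nonneg _ _ _
  have h : (tri3 A B n (L - n) ⬝ᵥ tri4 A B q (L - q)) ^ 2 ≤
      ovSym n q L * (nsq (tri3 A B n (L - n)) * nsq (tri3 A B q (L - q))) := by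
    rcases le_total n q with h | h
    · have := overlap_sq_le hB hA1 hA2 h hq hL hL0 (by omega)
      rw [nsq_tri4, mul_assoc] at this
      simpa [ovSym, h] using this
    · have := overlap_sq_le hB hA1 hA2 h hn (by omega : q + n ≤ L) hL0 (by omega)
      rw [nsq_tri4, tri_dot_symm, mul_assoc] at this
      rw [mul_comm (nsq (tri3 A B n (L - n)))]
      simpa [ovSym, h] using this
  rw [← Real.sqrt_sq_eq_abs, ← Real.sqrt_mul (nsq_nonneg _), ← Real.sqrt_mul h0]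
  exact Real.sqrt_le_sqrt h

end P359
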